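import Vale.Agent.P155.NT905.Unx

/-!
# P155, NT, V1 (3): the sum over the loops which are not explored, off one bad event
-/

namespace Vale.Agent.P155.NT905

open Finset SW HT T905 T802 T862 G45 J H904 H12 NT E4 S862

variable {V : Finset Pt} {ω : Conf} {xS t : ℤ} {i : ℕ}

open Classical in
/-- **the unexplored loops off one bad event**: the sum over the unexplored loops of
(mass of the layer function) × (mass of `φ`) -/
theorem unx_det : ∃ β : ℝ, 0 < β ∧ β ≤ 1 ∧ ∀ C0 Cc : ℝ, 0 ≤ C0 → ∃ M : ℝ, 0 < M ∧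
    ∀ (T : Temp) (xS : ℤ) (τ : Stop T.V xS), ∀ ω ∈ DD T.V, τ.New ω →
    ∀ (p0 : Pt) (n κ s ρ0 D : ℕ) (γ C : ℝ), (∀ x ∈ box p0 n, (ρ0 : ℤ) + 1 < |x.1 - xS|) →
      ¬ NBad T p0 n κ s ρ0 D C0 Cc γ C ω → 1 ≤ s → 8 * s ≤ κ → ρ0 ≤ κ → D + 1 ≤ ρ0 →
      4 * s ≤ D → (D : ℝ) < C * ρ0 →
      ∀ (q : Pt) (φ u χ : Pt → ℝ), q ∉ OE T (τ.E ω) → (∀ y, |φ y| ≤ dens C0 q κ y) →
      IsCut (OE T (τ.E ω)) s Cc χ → IsGreen (OE T (τ.E ω)) φ u →
      (∀ y, φ y ≠ 0 → ρ0 + 2 * s < dF (OE T (τ.E ω)) y) →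
      ∀ hO : (OE T (τ.E ω)).Finite,
      ∑ A ∈ (LF ω).filter (fun A => Unx (τ.E ω) A),
        |mass ω (fL (OE T (τ.E ω)) φ χ u) A * mass ω φ A| ≤
      (∑ y ∈ hO.toFinset, |φ y|) *
        (∑ x ∈ hO.toFinset.filter (fun x => x ∉ box p0 n),
            |fL (OE T (τ.E ω)) φ χ u x| * nU ω (τ.E ω) φ x +
          ∑ x ∈ (box p0 n).filter (fun x => (dF T.faceSet x : ℝ) < C * ρ0),
            |fL (OE T (τ.E ω)) φ χ u x| * nU ω (τ.E ω) φ x +
          4 * s * (M * ((ρ0 : ℝ) / κ) ^ β +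
            C * (((n : ℝ) / κ) ^ γ * (n : ℝ) ^ (-(γ ^ 2 / 128))))) := by
  obtain ⟨γ', hγ', hγ1', hmass⟩ := mass_meso
  refine ⟨γ', hγ', hγ1', ?_⟩
  intro C0 Cc hC0
  obtain ⟨M, hM, hmass⟩ := hmass C0 Cc hC0
  refine ⟨M + 1, by positivity, ?_⟩
  intro T xS τ ω hω hN p0 n κ s ρ0 D γ C hline hbad hs h8 hρκ hDρ hsD hDC q φ u χ hq hφ hχ hu
    hsupp hO
  have hCP := Stop.cpr (τ := τ) hω
  have hκ1 : 1 ≤ κ := by omega
  obtain ⟨-, m2, -⟩ := hmass _ q κ s χ φ u hO hCP hq hκ1 hs h8 hχ hφ hu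
  set g : Pt → ℝ := fL (OE T (τ.E ω)) φ χ u with hg
  have hg0 : ∀ x, 0 ≤ |g x| := fun x => abs_nonneg _
  have hgS : ∀ x, x ∉ hO.toFinset → g x = 0 := fL_zero_off hO hs hχ hu
  have hφS : ∀ x, x ∉ hO.toFinset → φ x = 0 := by
    intro x hx
    by_contra h
    have h1 := hsupp x h
    rw [Set.Finite.mem_toFinset] at hx
    rw [H904.dF_eq_zero hx] at h1
    omega
  refine (sum_unx (E := τ.E ω) hgS hφS).trans ?_
  refine mul_le_mul_of_nonneg_left ?_ (sum_nonneg fun _ _ => abs_nonneg _)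
  -- the classes
  have hex := exists_notMem hO
  have hpt : ∀ x ∈ hO.toFinset, |g x| * (nU ω (τ.E ω) φ x : ℝ) ≤
      (if x ∉ box p0 n then |g x| * (nU ω (τ.E ω) φ x : ℝ) else 0) +
      (if x ∈ box p0 n ∧ (dF T.faceSet x : ℝ) < C * ρ0 then |g x| * (nU ω (τ.E ω) φ x : ℝ)
        else 0) +
      (4 * s * (if x ∈ box (go ω (xS, τ.t ω) (τ.i ω + 1)) ρ0 then |g x| else 0) +
      4 * s * (if x ∈ box p0 n ∧ C * ρ0 ≤ (dF T.faceSet x : ℝ) ∧
          TwoVisit (fun _ : Fin 1 => box x (D + 1)) (res T.V (box x ρ0) ω) then |g x| else 0)) := by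
    intro x hx
    rw [Set.Finite.mem_toFinset] at hx
    have hnn : 0 ≤ |g x| * (nU ω (τ.E ω) φ x : ℝ) := mul_nonneg (hg0 x) (Nat.cast_nonneg _)
    have t1 : (0 : ℝ) ≤ 4 * s * (if x ∈ box (go ω (xS, τ.t ω) (τ.i ω + 1)) ρ0 then |g x| else 0) := by
      refine mul_nonneg (by positivity) ?_
      split_ifs <;> [exact hg0 x; exact le_rfl]
    have t2 : (0 : ℝ) ≤ 4 * s * (if x ∈ box p0 n ∧ C * ρ0 ≤ (dF T.faceSet x : ℝ) ∧
          TwoVisit (fun _ : Fin 1 => box x (D + 1)) (res T.V (box x ρ0) ω) then |g x| else 0) := by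
      refine mul_nonneg (by positivity) ?_
      split_ifs <;> [exact hg0 x; exact le_rfl]
    by_cases hb : x ∈ box p0 n
    swap
    · rw [if_pos hb, if_neg (fun h => hb h.1)]
      linarith
    rw [if_neg (not_not.2 hb)]
    by_cases hz : (dF T.faceSet x : ℝ) < C * ρ0
    · rw [if_pos ⟨hb, hz⟩]
      linarith
    rw [if_neg (fun h => hz h.2)]
    have hz' : C * ρ0 ≤ (dF T.faceSet x : ℝ) := not_lt.1 hz
    have hface : D < dF T.faceSet x := by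
      have : (D : ℝ) < dF T.faceSet x := lt_of_lt_of_le hDC hz'
      exact_mod_cast this
    by_cases hgx : g x = 0
    · rw [hgx, abs_zero, zero_mul]
      simp
    have hdF : dF (OE T (τ.E ω)) x ≤ 2 * s := (fL_supp hex hs hχ hu (hg ▸ hgx)).2
    have hcount : (nU ω (τ.E ω) φ x : ℝ) ≤ 4 * s := by
      exact_mod_cast (nU_le (φ := φ) hω hN hO hx hdF (by omega)).1
    have hmain : |g x| * (nU ω (τ.E ω) φ x : ℝ) ≤ 4 * s * |g x| := by
      rw [mul_comm]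
      exact mul_le_mul_of_nonneg_right hcount (hg0 x)
    by_cases htip : x ∈ box (go ω (xS, τ.t ω) (τ.i ω + 1)) ρ0
    · rw [if_pos htip]
      linarith
    by_cases h0 : nU ω (τ.E ω) φ x = 0
    · rw [h0, Nat.cast_zero, mul_zero]
      linarith
    have h2 : ρ0 < dn x (go ω (xS, τ.t ω) (τ.i ω + 1)) := by
      rw [H904.dn_comm]
      by_contra hc
      exact htip (mem_box_dn905.2 (not_lt.1 hc))
    have hfar : ∀ y, φ y ≠ 0 → ρ0 < dn x y := by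
      intro y hy
      have h3 := hsupp y hy
      have h4 := H904.dF_lip hex y x
      rw [H904.dn_comm] at h4
      omega
    have htwo := nU_two hω hN hO hx hdF hface hsD hs hDρ (hline x hb) h2 hfar h0
    rw [if_neg htip, if_pos ⟨hb, hz', htwo⟩]
    linarith
  refine (sum_le_sum hpt).trans ?_
  rw [sum_add_distrib, sum_add_distrib, sum_add_distrib, ← mul_sum, ← mul_sum]
  -- far
  have e1 : ∑ x ∈ hO.toFinset, (if x ∉ box p0 n then |g x| * (nU ω (τ.E ω) φ x : ℝ) else 0) =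
      ∑ x ∈ hO.toFinset.filter (fun x => x ∉ box p0 n), |g x| * (nU ω (τ.E ω) φ x : ℝ) := by
    rw [Finset.sum_filter]
  -- zone
  have e2 : ∑ x ∈ hO.toFinset, (if x ∈ box p0 n ∧ (dF T.faceSet x : ℝ) < C * ρ0 then
      |g x| * (nU ω (τ.E ω) φ x : ℝ) else 0) ≤
      ∑ x ∈ (box p0 n).filter (fun x => (dF T.faceSet x : ℝ) < C * ρ0),
        |g x| * (nU ω (τ.E ω) φ x : ℝ) :=
    sum_ite_le905 (fun x => mul_nonneg (hg0 x) (Nat.cast_nonneg _)) fun x _ h => ⟨h.1, h.2⟩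
  -- tip
  have e3 : ∑ x ∈ hO.toFinset, (if x ∈ box (go ω (xS, τ.t ω) (τ.i ω + 1)) ρ0 then |g x| else 0) ≤
      M * ((ρ0 : ℝ) / κ) ^ γ' := by
    rw [← Finset.sum_filter]
    refine le_trans (sum_le_sum_of_subset_of_nonneg ?_ fun x _ _ => hg0 x)
      (m2 (go ω (xS, τ.t ω) (τ.i ω + 1)) ρ0 (by omega) hρκ)
    intro x hx
    exact (mem_filter.1 hx).2
  -- two strands
  have e4 : ∑ x ∈ hO.toFinset, (if x ∈ box p0 n ∧ C * ρ0 ≤ (dF T.faceSet x : ℝ) ∧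
      TwoVisit (fun _ : Fin 1 => box x (D + 1)) (res T.V (box x ρ0) ω) then |g x| else 0) ≤
      C * (((n : ℝ) / κ) ^ γ * (n : ℝ) ^ (-(γ ^ 2 / 128))) := by
    have h1 : ∑ x ∈ hO.toFinset, (if x ∈ box p0 n ∧ C * ρ0 ≤ (dF T.faceSet x : ℝ) ∧
        TwoVisit (fun _ : Fin 1 => box x (D + 1)) (res T.V (box x ρ0) ω) then |g x| else 0) ≤
        ∑ x ∈ (box p0 n).filter (fun x => C * ρ0 ≤ (dF T.faceSet x : ℝ) ∧
          TwoVisit (fun _ : Fin 1 => box x (D + 1)) (res T.V (box x ρ0) ω)), |g x| :=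
      sum_ite_le905 hg0 fun x _ h => ⟨h.1, h.2⟩
    by_contra hc
    exact hbad ⟨OE T (τ.E ω), q, φ, u, χ, hO, hCP, hq, hχ, hφ, hu,
      lt_of_lt_of_le (not_le.1 hc) h1⟩
  have e3' : M * ((ρ0 : ℝ) / κ) ^ γ' ≤ (M + 1) * ((ρ0 : ℝ) / κ) ^ γ' :=
    mul_le_mul_of_nonneg_right (by linarith) (by positivity)
  have hs4 : (0 : ℝ) ≤ 4 * s := by positivity
  have e5 := mul_le_mul_of_nonneg_left (e3.trans e3') hs4
  have e6 := mul_le_mul_of_nonneg_left e4 hs4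
  rw [e1]
  linarith

end Vale.Agent.P155.NT905
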