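import Vale.Agent.P155.NT905.Step

/-!
# P155, NT, block E: comparison of the two times of an excursion, small exponent
-/

namespace Vale.Agent.P155.NT905

open Vale.Agent.P155 Finset SW HT T905 T802 T862 J NT NT802 NT743

open Classical in
/-- **One step**, with a small exponent `a ≤ am`: the harmonic measures at the beginning `t₁` of an excursion and at the touching
time `t₂` have almost the same mean of `∑ φ H`. -/
theorem step_am : ∃ γ : ℝ, 0 < γ ∧ γ ≤ 1 ∧ ∀ (a0 C0 am : ℝ) (K : ℕ), 0 < a0 → 0 ≤ C0 →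
    0 < am → 1 ≤ K → ∃ a : ℝ, 0 < a ∧ a ≤ am ∧ ∃ CT : ℝ, 0 < CT ∧ ∃ c : ℝ, 0 < c ∧ ∃ C : ℝ, 0 ≤ C ∧ ∃ R0 : ℕ, 1 ≤ R0 ∧
    ∀ (R n : ℕ) (T : Temp), R0 ≤ R → Skel.Fits T R → (R : ℝ) ^ a0 ≤ n → n ≤ R → ∀ s ρ0 : ℕ,
    s = ⌈((K * R : ℕ) : ℝ) ^ a⌉₊ → ρ0 = ⌈((K * n : ℕ) : ℝ) ^ (1 - γ ^ 2 / 1024)⌉₊ →
    (8 ≤ s ∧ s ^ 2 + 1 ≤ ρ0 ∧ 8 * ρ0 + 16 ≤ n ∧ 2 * (CT * (ρ0 : ℝ)) + 2 ≤ n ∧
      ((s ^ 2 : ℕ) : ℝ) + 1 ≤ ((K * n : ℕ) : ℝ) ^ (γ / 512) ∧ (R : ℝ) ^ a ≤ s) ∧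
    ∀ (xS : ℤ) (q : Pt) (r r' h k : ℕ) (Dom : Conf → Prop) (φ : Conf → Pt → ℝ)
      (p : Conf → Pt), 1 ≤ r → (16 * r : ℤ) ≤ |q.1 - xS| →
    (∀ x ∈ box q (K * n), (ρ0 : ℤ) + 1 < |x.1 - xS|) →
    (∀ ω ∈ DD T.V, Dom ω → (tE T.V xS q r k).N ω < Tm.M T.V xS ω) →
    At (tE T.V xS q r k) Dom → At (tE T.V xS q r k) φ →
    (∀ ω ∈ DD T.V, Dom ω → p ω ∉ OE T ((tE T.V xS q r k).toStop.E ω) ∧
      IsBump (p ω) n (C0 / (n : ℝ) ^ 2) (φ ω)) →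
    |Ex T.V (fun ω => if Dom ω then
      ∑ x ∈ (S743.oe_finite T ((tE T.V xS q r k).toStop.E ω)).toFinset,
        φ ω x * ((tU T xS q r r' h k).toStop.Hf ω x - (tE T.V xS q r k).toStop.Hf ω x)
        else 0)| ≤
      2 * (C * (R : ℝ) ^ (-c)) + Ex T.V (fun ω => if Dom ω then
        farS (tE T.V xS q r k).toStop φ s (K * n) q ω +
        zoneS (tE T.V xS q r k).toStop φ s (K * n) q (CT * ρ0) ω +
        (farS (tU T xS q r r' h k).toStop φ s (K * n) q ω +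
        zoneS (tU T xS q r r' h k).toStop φ s (K * n) q (CT * ρ0) ω) else 0) := by
  obtain ⟨γ, hγ, hγ1, hfm⟩ := fm_stop_am
  refine ⟨γ, hγ, hγ1, ?_⟩
  intro a0 C0 am K ha0 hC0 ham hK
  obtain ⟨a, ha, haam, CT, hCT, c, hc, C, hC, R0, hR0, hfm⟩ := hfm a0 C0 am K ha0 hC0 ham hK
  refine ⟨a, ha, haam, CT, hCT, c, hc, C, hC, R0, hR0, ?_⟩
  intro R n T hR hfit hn hnR s ρ0 hs hρ0
  obtain ⟨hnum, hfm⟩ := hfm R n T hR hfit hn hnR s ρ0 hs hρ0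
  refine ⟨hnum, ?_⟩
  intro xS q r r' h k Dom φ p hr hx hline hlt hD hφ hb
  have hle : ∀ ω ∈ DD T.V, (tE T.V xS q r k).N ω ≤ (tU T xS q r r' h k).N ω :=
    fun ω _ => tE_le_tU T xS q r r' h k ω
  have hE : ∀ ω ∈ DD T.V, (tE T.V xS q r k).toStop.E ω ⊆ (tU T xS q r r' h k).toStop.E ω :=
    fun ω hω => Tm.En_mono (hle ω hω)
  have h1 := hfm xS (tE T.V xS q r k).toStop Dom φ p q
    (fms_of_at (fun _ _ => le_rfl) hD hφ fun ω hω hd => tE_new hω hr hx (hlt ω hω hd)) hline hb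
  have h2 := hfm xS (tU T xS q r r' h k).toStop Dom φ p q
    (fms_of_at hle hD hφ fun ω hω hd => (tU_facts hω hr hx (hlt ω hω hd)).2.1) hline
    (fun ω hω hd => ⟨fun hc => (hb ω hω hd).1 (NT802.OE_anti (hE ω hω) hc), (hb ω hω hd).2⟩)
  have h3 := two_times (T := T) (Dom := Dom) (E1 := (tE T.V xS q r k).toStop.E)
    (E2 := (tU T xS q r r' h k).toStop.E) (L1 := (tE T.V xS q r k).toStop.L)
    (L2 := (tU T xS q r r' h k).toStop.L) (φ := φ) (H1 := (tE T.V xS q r k).toStop.Hf)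
    (H2 := (tU T xS q r r' h k).toStop.Hf) (fun ω hω _ => hE ω hω)
    (fun ω hω hd => (tU_facts hω hr hx (hlt ω hω hd)).2.2)
    (fun ω _ _ f hf => ((tU T xS q r r' h k).toStop.Hf_spec ω).2 f hf)
  have h4 : Ex T.V (fun ω => if Dom ω then
        farS (tE T.V xS q r k).toStop φ s (K * n) q ω +
        zoneS (tE T.V xS q r k).toStop φ s (K * n) q (CT * ρ0) ω +
        (farS (tU T xS q r r' h k).toStop φ s (K * n) q ω +
        zoneS (tU T xS q r r' h k).toStop φ s (K * n) q (CT * ρ0) ω) else 0) =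
      Ex T.V (fun ω => if Dom ω then
        farS (tE T.V xS q r k).toStop φ s (K * n) q ω +
        zoneS (tE T.V xS q r k).toStop φ s (K * n) q (CT * ρ0) ω else 0) +
      Ex T.V (fun ω => if Dom ω then
        farS (tU T xS q r r' h k).toStop φ s (K * n) q ω +
        zoneS (tU T xS q r r' h k).toStop φ s (K * n) q (CT * ρ0) ω else 0) := by
    unfold Ex
    rw [← smul_add, ← Finset.sum_add_distrib]
    congr 1
    refine Finset.sum_congr rfl fun ω _ => ?_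
    by_cases hd : Dom ω
    · simp only [if_pos hd]
    · simp only [if_neg hd, add_zero]
  rw [h4]
  linarith

end Vale.Agent.P155.NT905
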