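import Vale.Agent.P155.NT905.Sign1

/-!
# P155, NT: first-moment identity, conditional mean

`E [mass of f inside l ; Dom]` is bounded by the conditional means of `h(f)`, when the sign of `l`
is explored.
-/

namespace Vale.Agent.P155.NT905

open Finset SW HT T905 J S743

variable {V : Finset Pt}

/-- A random loop of a stage, determined by the superposition, whose sign is explored. -/
structure StLoop (V : Finset Pt) (X : Expl) (Dom : Conf → Prop) (l : Conf → Set Pt) : Prop where
  mem : ∀ ω ∈ DD V, Dom ω → l ω ∈ Loops ω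
  lU : ∀ ω ∈ DD V, Dom ω → ∀ ω' ∈ DD V, UEq ω ω' → l ω' = l ω
  sgn : ∀ ω ∈ DD V, Dom ω → ∀ ω' ∈ atom V X ω, sign ω' (l ω') = sign ω (l ω)

theorem abs_Ex_le (g : Conf → ℝ) : |Ex V g| ≤ Ex V (fun ω => |g ω|) := by
  unfold Ex
  rw [smul_eq_mul, smul_eq_mul, abs_mul, abs_of_nonneg (by positivity)]
  exact mul_le_mul_of_nonneg_left (Finset.abs_sum_le_sum_abs _ _) (by positivity)

open Classical in
/-- **first moment**: mass of an explored random function inside the explored loop -/
theorem first_eval {X : Expl} {Dom : Conf → Prop} {f : Conf → Pt → ℝ} (S : Stage V X Dom f)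
    {l : Conf → Set Pt} (hl : StLoop V X Dom l) :
    |Ex V (fun ω => if Dom ω then mass ω (f ω) (l ω) else 0)| ≤
      Ex V (fun ω => if Dom ω then |cEx V X (fun ω' => hf ω' (f ω)) ω| else 0) := by
  set Q : Conf → ℝ := fun ω => if Dom ω then 1 else 0 with hQ
  set l' : Conf → Set Pt := fun ω => if Dom ω then l ω else ∅ with hl'
  have hQU : UInv V Q := by
    intro ω hω ω' hω' h
    have : Dom ω' = Dom ω := S.domU ω hω ω' hω' h
    simp only [hQ, this]
  have hlU : UInv V l' := by
    intro ω hω ω' hω' h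
    have hd : Dom ω' = Dom ω := S.domU ω hω ω' hω' h
    simp only [hl', hd]
    by_cases h1 : Dom ω
    · rw [if_pos h1, if_pos h1, hl.lU ω hω h1 ω' hω' h]
    · rw [if_neg h1, if_neg h1]
  have key := sign_one (V := V) Q (cutD Dom f) l' hQU (cutD_uinv S) hlU (cutD_fin S) (by
    intro ω hω h0
    have h1 : Dom ω := by
      by_contra hc
      exact h0 (if_neg hc)
    simp only [hl', if_pos h1]
    exact hl.mem ω hω h1)
  have e1 : Ex V (fun ω => if Dom ω then mass ω (f ω) (l ω) else 0) =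
      Ex V (fun ω => Q ω * mass ω (cutD Dom f ω) (l' ω)) := by
    congr 1
    funext ω
    by_cases h1 : Dom ω
    · simp only [hQ, hl', cutD, if_pos h1, one_mul]
    · simp only [hQ, if_neg h1, zero_mul]
  rw [e1, ← key, ← Ex_cEx S.expl (fun ω => Q ω * ((sign ω (l' ω) : ℝ) * hf ω (cutD Dom f ω)))]
  refine (abs_Ex_le _).trans (Ex_mono fun ω hω => ?_)
  by_cases h1 : Dom ω
  · rw [if_pos h1]
    have e2 : cEx V X (fun ω' => Q ω' * ((sign ω' (l' ω') : ℝ) * hf ω' (cutD Dom f ω'))) ω =
        (sign ω (l ω) : ℝ) * cEx V X (fun ω' => hf ω' (f ω)) ω := by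
      rw [cEx_eq_avg, cEx_eq_avg, ← avg_mul_left]
      refine avg_congr (fun a ha => ?_)
      have h2 : Dom a := (S.domA ω hω a ha).2 h1
      simp only [hQ, hl', cutD, if_pos h2, one_mul]
      rw [hl.sgn ω hω h1 a ha, S.fA ω hω h1 a ha]
    rw [e2, abs_mul]
    have h3 : |(sign ω (l ω) : ℝ)| = 1 := by
      have h4 : (sign ω (l ω) : ℝ) * (sign ω (l ω) : ℝ) = 1 := by
        exact_mod_cast sign_sq hω (hl.mem ω hω h1)
      have h5 : |(sign ω (l ω) : ℝ)| * |(sign ω (l ω) : ℝ)| = 1 := by rw [← abs_mul, h4, abs_one]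
      nlinarith [abs_nonneg (sign ω (l ω) : ℝ)]
    rw [h3, one_mul]
  · rw [if_neg h1]
    have e2 : cEx V X (fun ω' => Q ω' * ((sign ω' (l' ω') : ℝ) * hf ω' (cutD Dom f ω'))) ω =
        0 := by
      rw [cEx_eq_avg]
      rw [show (0 : ℝ) = avg (atom V X ω) (fun _ => (0 : ℝ)) from (avg_zero _).symm]
      refine avg_congr (fun a ha => ?_)
      have h2 : ¬ Dom a := fun h => h1 ((S.domA ω hω a ha).1 h)
      simp only [hQ, if_neg h2, zero_mul]
    rw [e2, abs_zero]

end Vale.Agent.P155.NT905
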