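import Vale.Agent.P155.NT.Defs
import Vale.Agent.P155.HT426.Wind
import Vale.Agent.P155.TC657.Orbit
import Vale.Agent.P155.T802.Own

/-!
# P155, NT: explored sign.  The sign of a loop which does not meet the half line below `s` is
determined by its two edges at `s`.
-/

namespace Vale.Agent.P155.NT905

open Finset SW HT T905 T802 NT

variable {V : Finset Pt} {ω : Conf}

/-- both faces below `s = (x, t)` have height part `0` -/
theorem hL_low (hω : ω ∈ DD V) {A : Set Pt} (hA : A ∈ Loops ω) {x t : ℤ}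
    (h : ∀ y < t, (x, y) ∉ A) : hL ω A (x, t - 1) = 0 ∧ hL ω A (x - 1, t - 1) = 0 := by
  classical
  obtain ⟨M, hM0, hM⟩ := exists_M V
  have hdv : ∀ y < t, dvS ω A x y = 0 := fun y hy => by
    unfold dvS
    rw [if_neg (h y hy)]
  have hdh : ∀ y < t, dhS ω A x y = 0 := fun y hy => by
    unfold dhS
    rw [if_neg (h y hy)]
  have hbot : ∀ y, y < -M → hL ω A (x, y) = 0 := by
    intro y hy
    rw [hL_eq]
    apply finsum_mem_eq_zero_of_forall_eq_zero
    intro j _
    have : (j, y) ∉ V := by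
      intro h
      have := (hM _ h).2
      rw [abs_le] at this
      simp only at this
      omega
    unfold dhS
    split_ifs
    · exact dh_off hω this
    · rfl
  have key : ∀ n : ℕ, hL ω A (x, t - 1) = hL ω A (x, t - 1 - n) := by
    intro n
    induction n with
    | zero => simp
    | succ n ih =>
      rw [ih, hstep hω (cl_loop hA) x (t - 1 - n), hdv _ (by omega), add_zero]
      congr 2
      push_cast
      ring
  have h1 : hL ω A (x, t - 1) = 0 := by
    rw [key (t - 1 + M + 1).toNat]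
    apply hbot
    have := Int.self_le_toNat (t - 1 + M + 1)
    omega
  refine ⟨h1, ?_⟩
  have h2 := vstep hω A x (t - 1)
  rw [h1, hdh _ (by omega), add_zero] at h2
  exact h2.symm

theorem hL_val (hω : ω ∈ DD V) {A : Set Pt} (hA : A ∈ Loops ω) {f : Pt} (h : hL ω A f ≠ 0) :
    hL ω A f = sign ω A := by
  have h1 := hL_eq_sign hω hA f
  split_ifs at h1
  · exact h1
  · exact absurd h1 h

open Classical in
/-- **explored sign** -/
theorem sign_low (hω : ω ∈ DD V) {A : Set Pt} (hA : A ∈ Loops ω) {x t : ℤ} (hs : (x, t) ∈ A)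
    (h : ∀ y < t, (x, y) ∉ A) :
    sign ω A = if dv ω x t ≠ 0 then dv ω x t else - dh ω x t := by
  obtain ⟨h0, -⟩ := hL_low hω hA h
  have e1 : hL ω A (x, t) = dv ω x t := by
    rw [hstep hω (cl_loop hA) x t, h0, zero_add]
    unfold dvS
    rw [if_pos hs]
  have e2 : hL ω A (x - 1, t) = dv ω x t - dh ω x t := by
    have := vstep hω A x t
    unfold dhS at this
    rw [if_pos hs, e1] at this
    linarith
  by_cases hd : dv ω x t ≠ 0
  · rw [if_pos hd, ← e1]
    rw [← e1] at hd
    exact (hL_val hω hA hd).symm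
  · rw [if_neg hd]
    push Not at hd
    rw [hd, zero_sub] at e2
    -- the two edges are `up` and `left`
    have hne := Vale.Agent.P155.L.loop_ne hω hA hs
    have hV : (x, t) ∈ V := Vale.Agent.P155.L.mem_V_of_ne hω hne
    have a1 := mem_nbrs.2 ((TC.pm1 hω).adj _ hV)
    have a2 := mem_nbrs.2 ((TC.pm2 hω).adj _ hV)
    simp only [nbrs, mem_insert, mem_singleton] at a1 a2
    have b1 : ω.1 (x, t) ≠ (x, t - 1) := by
      intro hc
      exact h (t - 1) (by omega) (hc ▸ (cl_loop hA).1 _ hs)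
    have b2 : ω.2 (x, t) ≠ (x, t - 1) := by
      intro hc
      exact h (t - 1) (by omega) (hc ▸ (cl_loop hA).2 _ hs)
    have hdh : dh ω x t ≠ 0 := by
      rw [dh_eq]
      unfold dv at hd
      unfold iv at hd ⊢
      have hsz : sz (x + t) ≠ 0 := by rcases sz_cases (x + t) with h | h <;> rw [h] <;> norm_num
      have hd' : (if ω.1 (x, t) = (x + 1, t) then (1 : ℤ) else 0) -
          (if ω.2 (x, t) = (x + 1, t) then 1 else 0) = 0 := by
        rcases mul_eq_zero.1 hd with h | h
        · exact absurd (neg_eq_zero.1 h) hsz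
        · exact h
      refine mul_ne_zero hsz ?_
      rcases a1 with a1 | a1 | a1 | a1
      · rcases a2 with a2 | a2 | a2 | a2
        · exact absurd (a1.trans a2.symm) hne
        · rw [a1, a2] at hd'; simp at hd'; omega
        · rw [a1, a2] at hd'; simp at hd'
        · exact absurd a2 b2
      · rcases a2 with a2 | a2 | a2 | a2
        · rw [a1, a2] at hd'; simp at hd'; omega
        · exact absurd (a1.trans a2.symm) hne
        · rw [a1, a2]; simp
        · exact absurd a2 b2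
      · rcases a2 with a2 | a2 | a2 | a2
        · rw [a1, a2] at hd'; simp at hd'
        · rw [a1, a2]; simp
        · exact absurd (a1.trans a2.symm) hne
        · exact absurd a2 b2
      · exact absurd a1 b1
    rw [← e2]
    refine (hL_val hω hA ?_).symm
    rw [e2]
    exact neg_ne_zero.2 hdh

theorem dv_congr {ω ω' : Conf} {x t : ℤ} (h1 : ω'.1 (x, t) = ω.1 (x, t))
    (h2 : ω'.2 (x, t) = ω.2 (x, t)) : dv ω' x t = dv ω x t ∧ dh ω' x t = dh ω x t := by
  rw [dh_eq, dh_eq]
  unfold dv iv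
  rw [h1, h2]
  exact ⟨rfl, rfl⟩

/-- explored sign, two configurations which agree at `s` -/
theorem sign_low_eq {ω' : Conf} (hω : ω ∈ DD V) (hω' : ω' ∈ DD V) {A A' : Set Pt}
    (hA : A ∈ Loops ω) (hA' : A' ∈ Loops ω') {x t : ℤ} (hs : (x, t) ∈ A) (hs' : (x, t) ∈ A')
    (h : ∀ y < t, (x, y) ∉ A) (h' : ∀ y < t, (x, y) ∉ A')
    (h1 : ω'.1 (x, t) = ω.1 (x, t)) (h2 : ω'.2 (x, t) = ω.2 (x, t)) :
    sign ω' A' = sign ω A := by
  classical
  rw [sign_low hω hA hs h, sign_low hω' hA' hs' h']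
  obtain ⟨e1, e2⟩ := dv_congr h1 h2
  rw [e1, e2]

variable {xS : ℤ}

/-- the half line below `s` does not meet the new loop -/
theorem new_low (hω : ω ∈ DD V) {τ : Stop V xS} (hN : τ.New ω) :
    ∀ y < τ.t ω, (xS, y) ∉ τ.L ω := by
  intro y hy hc
  refine hN.2 ⟨y, hy, ?_⟩
  have hinv : Inv2 ω := by
    have hω' := Finset.mem_product.1 hω
    exact ⟨(mem_PM.1 hω'.1).invol, (mem_PM.1 hω'.2).invol⟩
  exact same_symm hinv hc

theorem new_mem (hω : ω ∈ DD V) {τ : Stop V xS} (hN : τ.New ω) : τ.L ω ∈ Loops ω :=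
  ⟨(xS, τ.t ω), hN.1, rfl⟩

/-- **explored sign for a stopping time** -/
theorem sign_stop {ω' : Conf} (hω : ω ∈ DD V) (hω' : ω' ∈ DD V) {τ : Stop V xS} (hN : τ.New ω)
    (hN' : τ.New ω') (ht : τ.t ω' = τ.t ω) (h1 : ω'.1 (xS, τ.t ω) = ω.1 (xS, τ.t ω))
    (h2 : ω'.2 (xS, τ.t ω) = ω.2 (xS, τ.t ω)) : sign ω' (τ.L ω') = sign ω (τ.L ω) := by
  have hlow' := new_low hω' hN'
  rw [ht] at hlow'
  refine sign_low_eq hω hω' (new_mem hω hN) (new_mem hω' hN') (x := xS) (t := τ.t ω)
    (same_refl _ _) ?_ (new_low hω hN) hlow' h1 h2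
  show (xS, τ.t ω) ∈ comp ω' (xS, τ.t ω')
  rw [ht]
  exact same_refl _ _

end Vale.Agent.P155.NT905
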