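import Vale.Agent.P155.NT.Cont
import Vale.Agent.P155.NT905.Low
import Vale.Agent.P155.NT905.First

/-!
# P155, NT: the loop of a stopping time as explored loop of a stage
-/

namespace Vale.Agent.P155.NT905

open Finset SW HT T905 T802 T862 J NT

variable {V : Finset Pt} {ω ω' : Conf} {xS : ℤ} {τ : Stop V xS}

/-- **explored sign** -/
theorem atom_sign (hω : ω ∈ DD V) (hN : τ.New ω) (h : ω' ∈ atom V τ.X ω) :
    sign ω' (τ.L ω') = sign ω (τ.L ω) := by
  have hω' := Stop.atom_dd h
  have hE := Stop.atom_onE h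
  have hs := hE _ (start_mem_Eti (ω := ω) (xS := xS) (t := τ.t ω) (i := τ.i ω))
  exact sign_stop hω hω' hN ((Stop.atom_new hω h).2 hN) (Stop.atom_ti hω h).1 hs.1 hs.2

/-- the loop of a stopping time, on an unsigned event contained in `New` -/
theorem stLoop (Dom : Conf → Prop) (hD : ∀ ω ∈ DD V, Dom ω → τ.New ω) :
    StLoop V τ.X Dom τ.L where
  mem := fun ω hω h => new_mem hω (hD ω hω h)
  lU := fun ω hω _ ω' hω' h' => τ.L_uns hω hω' h'
  sgn := fun ω hω h ω' h' => atom_sign hω (hD ω hω h) h'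

end Vale.Agent.P155.NT905
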