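import Vale.Agent.P155.NT905.Lay2
import Vale.Agent.P155.NT905.StopSign
import Vale.Agent.P155.S862.TwoErr

/-!
# P155, NT: mass of the layer function inside the explored loop, off one bad event

For all stopping times of the exploration and all mesoscopic densities at once.
-/

namespace Vale.Agent.P155.NT905

open Finset SW HT T905 T802 T862 G45 J H904 H12 NT E4 S862

/-- harmonic measure lies in `[0, 1]` -/
theorem isH_01 {T : Temp} {xS : ℤ} {τ : Stop T.V xS} {ω : Conf} {H : Pt → ℝ}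
    (hO : (OE T (τ.E ω)).Finite) (hH : τ.IsH T ω H) : ∀ x, 0 ≤ H x ∧ H x ≤ 1 := by
  classical
  have hb : ∀ y, 0 ≤ τ.bd ω y ∧ τ.bd ω y ≤ 1 := by
    intro y
    unfold Stop.bd
    split_ifs <;> norm_num
  intro x
  constructor
  · have h1 := max_principle hO (u := fun y => -H y) (fun y hy => by
      rw [lap_neg, hH.1 y hy, neg_zero]) (fun y hy => by
      have := (hb y).1
      rw [hH.2 y hy]
      linarith) x
    linarith
  · have h1 := max_principle hO (u := fun y => H y - 1) (fun y hy => by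
      rw [lap_eq, hH.1 y hy]) (fun y hy => by
      have := (hb y).2
      rw [hH.2 y hy]
      linarith) x
    linarith

open Classical in
/-- the bad event of `two_err` -/
def NBad (T : Temp) (p0 : Pt) (n κ s ρ0 D : ℕ) (C0 Cc γ CT : ℝ) (ω : Conf) : Prop :=
  ∃ (O : Set Pt) (q : Pt) (φ v χ : Pt → ℝ), O.Finite ∧ CPr O ∧ q ∉ O ∧
    IsCut O s Cc χ ∧ (∀ y, |φ y| ≤ dens C0 q κ y) ∧ IsGreen O φ v ∧
    CT * (((n : ℝ) / κ) ^ γ * (n : ℝ) ^ (-(γ ^ 2 / 128))) <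
      ∑ x ∈ (box p0 n).filter (fun x => CT * ρ0 ≤ dF T.faceSet x ∧
        TwoVisit (fun _ : Fin 1 => box x (D + 1)) (res T.V (box x ρ0) ω)),
        |fL O φ χ v x|

theorem sum_ite_le905 {S B : Finset Pt} {f : Pt → ℝ} (hf : ∀ x, 0 ≤ f x) {P P' : Pt → Prop}
    {_ : DecidablePred P} {_ : DecidablePred P'} (h : ∀ x ∈ S, P x → x ∈ B ∧ P' x) :
    ∑ x ∈ S, (if P x then f x else 0) ≤ ∑ x ∈ B.filter P', f x := by
  rw [← Finset.sum_filter]
  refine Finset.sum_le_sum_of_subset_of_nonneg ?_ (fun x _ _ => hf x)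
  intro x hx
  obtain ⟨h1, h2⟩ := Finset.mem_filter.1 hx
  exact Finset.mem_filter.2 (h x h1 h2)

open Classical in
/-- **the layer evaluation off one bad event** -/
theorem det_nt : ∃ γ β : ℝ, 0 < γ ∧ γ ≤ 1 ∧ 0 < β ∧ ∀ a0 p C0 Cc : ℝ, 0 < a0 → 0 < p → 0 ≤ C0 →
    ∃ C : ℝ, 0 < C ∧ ∀ (R : ℕ) (T : Temp), 1 ≤ R → Skel.Fits T R →
    ∀ (p0 : Pt) (n κ s ρ0 D : ℕ), (R : ℝ) ^ a0 ≤ n → n ≤ R → κ ≤ n → 1 ≤ s → 8 * s ≤ κ →
      (s : ℝ) ≤ (n : ℝ) ^ (γ / 512) → (D : ℝ) + 1 ≤ (n : ℝ) ^ (γ / 512) →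
      (n : ℝ) ^ (1 - γ ^ 2 / 1024) ≤ ρ0 → ρ0 ≤ κ → D + 1 ≤ ρ0 → 4 * s ≤ D →
      Pr T.V (NBad T p0 n κ s ρ0 D C0 Cc γ C) ≤ C * (R : ℝ) ^ (-p) ∧
      ∀ ω ∈ DD T.V, ¬ NBad T p0 n κ s ρ0 D C0 Cc γ C ω → ∀ (xS : ℤ) (τ : Stop T.V xS),
      τ.New ω → (∀ x ∈ box p0 n, (ρ0 : ℤ) + 1 < |x.1 - xS|) → ∀ H : Pt → ℝ, τ.IsH T ω H →
      ∀ (q : Pt) (φ u χ : Pt → ℝ), q ∉ OE T (τ.E ω) → (∀ y, |φ y| ≤ dens C0 q κ y) →
      IsCut (OE T (τ.E ω)) s Cc χ → IsGreen (OE T (τ.E ω)) φ u →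
      ∀ hO : (OE T (τ.E ω)).Finite,
      |mass ω (fL (OE T (τ.E ω)) φ χ u) (τ.L ω) - ∑ x ∈ hO.toFinset, φ x * H x| ≤
        ∑ x ∈ hO.toFinset.filter (fun x => x ∉ box p0 n), |fL (OE T (τ.E ω)) φ χ u x| +
        ∑ x ∈ (box p0 n).filter (fun x => (dF T.faceSet x : ℝ) < C * ρ0 ∧
          ∃ v ∈ τ.L ω, v ∈ box x (D + 1)), |fL (OE T (τ.E ω)) φ χ u x| +
        (C * ((ρ0 : ℝ) / κ) ^ β + C * (((n : ℝ) / κ) ^ γ * (n : ℝ) ^ (-(γ ^ 2 / 128))) +
          C * ((2 * (s : ℝ) + 1) / ((D - 2 * s : ℕ) + 1)) ^ β) := by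
  obtain ⟨β0, hβ0, hSD, -⟩ := G1.decay
  obtain ⟨γ, hγ, hγ1, htwo⟩ := two_err
  obtain ⟨γ', hγ', hγ1', hmass⟩ := mass_meso
  refine ⟨γ, min β0 γ', hγ, hγ1, lt_min hβ0 hγ', ?_⟩
  set β := min β0 γ' with hβ
  intro a0 p C0 Cc ha0 hp hC0
  obtain ⟨CT, hCT, htwo⟩ := htwo a0 p C0 Cc ha0 hp hC0
  obtain ⟨M, hM, hmass⟩ := hmass C0 Cc hC0
  set C : ℝ := CT + 2 * M + 1 with hC
  have hCCT : CT ≤ C := by linarith
  refine ⟨C, by positivity, ?_⟩
  intro R T hR hfit p0 n κ s ρ0 D hn hnR hκn hs h8 hsn hDn hρ0 hρκ hDρ hsD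
  have hRp : (0 : ℝ) ≤ (R : ℝ) ^ (-p) := Real.rpow_nonneg (Nat.cast_nonneg _) _
  have hκ1 : 1 ≤ κ := by omega
  have hpos : 0 ≤ ((n : ℝ) / κ) ^ γ * (n : ℝ) ^ (-(γ ^ 2 / 128)) := by positivity
  have hmonoC : ∀ ω, NBad T p0 n κ s ρ0 D C0 Cc γ C ω → NBad T p0 n κ s ρ0 D C0 Cc γ CT ω := by
    rintro ω ⟨O, q, φ, v, χ, h1, h2, h3, h4, h5, h6, h7⟩
    refine ⟨O, q, φ, v, χ, h1, h2, h3, h4, h5, h6, ?_⟩
    refine lt_of_le_of_lt (mul_le_mul_of_nonneg_right hCCT hpos) (lt_of_lt_of_le h7 ?_)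
    apply sum_le_sum_of_subset_of_nonneg
    · intro x hx
      rw [mem_filter] at hx ⊢
      refine ⟨hx.1, le_trans ?_ hx.2.1, hx.2.2⟩
      exact mul_le_mul_of_nonneg_right hCCT (Nat.cast_nonneg _)
    · intro x _ _
      exact abs_nonneg _
  constructor
  · refine (E.Pr_mono fun ω _ h => hmonoC ω h).trans ?_
    refine (htwo R T hR hfit p0 n κ s ρ0 D hn hnR hκn hs h8 hsn hDn hρ0).trans ?_
    exact mul_le_mul_of_nonneg_right hCCT hRp
  · intro ω hω hbad xS τ hN hline H hH q φ u χ hq hφ hχ hu hO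
    have hCP := Stop.cpr (τ := τ) hω
    obtain ⟨m1, m2, -⟩ := hmass _ q κ s χ φ u hO hCP hq hκ1 hs h8 hχ hφ hu
    have h01 := isH_01 hO hH
    have hr1 : (D : ℝ) < C * ρ0 := by
      have h1 : (D : ℝ) + 1 ≤ ρ0 := by exact_mod_cast hDρ
      have h2 : (ρ0 : ℝ) ≤ C * ρ0 := le_mul_of_one_le_left (Nat.cast_nonneg _) (by linarith)
      linarith
    have key := layer_stop hβ0 hSD hω hN hO hCP hH h01 hDρ hr1 hs hsD hχ hu
    set g : Pt → ℝ := fun x => |fL (OE T (τ.E ω)) φ χ u x| with hg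
    have hg0 : ∀ x, 0 ≤ g x := fun x => abs_nonneg _
    -- the four classes
    have hsplit : ∑ x ∈ hO.toFinset, (if x ∈ BadS ω τ ρ0 then g x else 0) +
        ∑ x ∈ hO.toFinset, (if x ∉ BadS ω τ ρ0 ∧ (dF T.faceSet x : ℝ) < C * ρ0 ∧
          ∃ v ∈ τ.L ω, v ∈ box x (D + 1) then g x else 0) +
        ∑ x ∈ hO.toFinset, (if x ∉ BadS ω τ ρ0 ∧ ¬ ((dF T.faceSet x : ℝ) < C * ρ0) ∧
          TwoVisit (fun _ : Fin 1 => box x (D + 1)) (res T.V (box x ρ0) ω) then g x else 0) ≤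
        ∑ x ∈ hO.toFinset, (if x ∉ box p0 n then g x else 0) +
        ∑ x ∈ hO.toFinset, (if x ∈ box (go ω (xS, τ.t ω) (τ.i ω + 1)) ρ0 then g x else 0) +
        ∑ x ∈ hO.toFinset, (if x ∈ box p0 n ∧ (dF T.faceSet x : ℝ) < C * ρ0 ∧
          ∃ v ∈ τ.L ω, v ∈ box x (D + 1) then g x else 0) +
        ∑ x ∈ hO.toFinset, (if x ∈ box p0 n ∧ C * ρ0 ≤ (dF T.faceSet x : ℝ) ∧
          TwoVisit (fun _ : Fin 1 => box x (D + 1)) (res T.V (box x ρ0) ω) then g x else 0) := by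
      rw [← sum_add_distrib, ← sum_add_distrib, ← sum_add_distrib, ← sum_add_distrib,
        ← sum_add_distrib]
      refine sum_le_sum fun x _ => ?_
      have hgx := hg0 x
      by_cases hb : x ∈ box p0 n
      · by_cases hB : x ∈ BadS ω τ ρ0
        · have hx : x ∈ box (go ω (xS, τ.t ω) (τ.i ω + 1)) ρ0 := by
            rw [mem_box_dn905, H904.dn_comm]
            rcases hB with h | h
            · have := hline x hb
              omega
            · exact h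
          rw [if_pos hB, if_neg (fun h => h.1 hB), if_neg (fun h => h.1 hB), if_pos hx]
          split_ifs <;> linarith
        · rw [if_neg hB]
          by_cases hz : (dF T.faceSet x : ℝ) < C * ρ0
          · have hz' : ¬ (C * ρ0 ≤ (dF T.faceSet x : ℝ)) := not_le.2 hz
            simp only [hB, hz, hz', hb, not_true_eq_false, not_false_eq_true, true_and, false_and,
              and_false, if_false]
            split_ifs <;> linarith
          · have hz' : C * ρ0 ≤ (dF T.faceSet x : ℝ) := not_lt.1 hz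
            simp only [hB, hz, hz', hb, not_true_eq_false, not_false_eq_true, true_and, false_and,
              and_false, if_false]
            split_ifs <;> linarith
      · have e1 : (if x ∉ box p0 n then g x else 0) = g x := if_pos hb
        rw [e1]
        have hle : (if x ∈ BadS ω τ ρ0 then g x else 0) +
            (if x ∉ BadS ω τ ρ0 ∧ (dF T.faceSet x : ℝ) < C * ρ0 ∧
              ∃ v ∈ τ.L ω, v ∈ box x (D + 1) then g x else 0) +
            (if x ∉ BadS ω τ ρ0 ∧ ¬ ((dF T.faceSet x : ℝ) < C * ρ0) ∧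
              TwoVisit (fun _ : Fin 1 => box x (D + 1)) (res T.V (box x ρ0) ω)
              then g x else 0) ≤ g x := by
          by_cases hB : x ∈ BadS ω τ ρ0
          · rw [if_pos hB, if_neg (fun h => h.1 hB), if_neg (fun h => h.1 hB)]
            linarith
          · rw [if_neg hB]
            by_cases hz : (dF T.faceSet x : ℝ) < C * ρ0
            · rw [if_neg (c := x ∉ BadS ω τ ρ0 ∧ ¬ ((dF T.faceSet x : ℝ) < C * ρ0) ∧ _)
                (fun h => h.2.1 hz)]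
              split_ifs <;> linarith
            · rw [if_neg (c := x ∉ BadS ω τ ρ0 ∧ (dF T.faceSet x : ℝ) < C * ρ0 ∧ _)
                (fun h => hz h.2.1)]
              split_ifs <;> linarith
        refine hle.trans ?_
        have n1 : 0 ≤ (if x ∈ box (go ω (xS, τ.t ω) (τ.i ω + 1)) ρ0 then g x else 0) := by
          split_ifs <;> [exact hgx; exact le_rfl]
        have n2 : 0 ≤ (if x ∈ box p0 n ∧ (dF T.faceSet x : ℝ) < C * ρ0 ∧
          ∃ v ∈ τ.L ω, v ∈ box x (D + 1) then g x else 0) := by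
          split_ifs <;> [exact hgx; exact le_rfl]
        have n3 : 0 ≤ (if x ∈ box p0 n ∧ C * ρ0 ≤ (dF T.faceSet x : ℝ) ∧
          TwoVisit (fun _ : Fin 1 => box x (D + 1)) (res T.V (box x ρ0) ω) then g x else 0) := by
          split_ifs <;> [exact hgx; exact le_rfl]
        linarith
    -- the far part
    have hfar : ∑ x ∈ hO.toFinset, (if x ∉ box p0 n then g x else 0) =
        ∑ x ∈ hO.toFinset.filter (fun x => x ∉ box p0 n), g x := by
      rw [Finset.sum_filter]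
    -- the tip
    have htip : ∑ x ∈ hO.toFinset, (if x ∈ box (go ω (xS, τ.t ω) (τ.i ω + 1)) ρ0 then g x else 0) ≤
        M * ((ρ0 : ℝ) / κ) ^ γ' := by
      rw [← Finset.sum_filter]
      refine le_trans (sum_le_sum_of_subset_of_nonneg ?_ fun x _ _ => hg0 x)
        (m2 (go ω (xS, τ.t ω) (τ.i ω + 1)) ρ0 (by omega) hρκ)
      intro x hx
      exact (mem_filter.1 hx).2
    -- the zone
    have hzone : ∑ x ∈ hO.toFinset, (if x ∈ box p0 n ∧ (dF T.faceSet x : ℝ) < C * ρ0 ∧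
          ∃ v ∈ τ.L ω, v ∈ box x (D + 1) then g x else 0) ≤
        ∑ x ∈ (box p0 n).filter (fun x => (dF T.faceSet x : ℝ) < C * ρ0 ∧
          ∃ v ∈ τ.L ω, v ∈ box x (D + 1)), g x :=
      sum_ite_le905 hg0 fun x _ h => ⟨h.1, h.2⟩
    -- two strands
    have htw : ∑ x ∈ hO.toFinset, (if x ∈ box p0 n ∧ C * ρ0 ≤ (dF T.faceSet x : ℝ) ∧
          TwoVisit (fun _ : Fin 1 => box x (D + 1)) (res T.V (box x ρ0) ω) then g x else 0) ≤
        C * (((n : ℝ) / κ) ^ γ * (n : ℝ) ^ (-(γ ^ 2 / 128))) := by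
      have h1 : ∑ x ∈ hO.toFinset, (if x ∈ box p0 n ∧ C * ρ0 ≤ (dF T.faceSet x : ℝ) ∧
          TwoVisit (fun _ : Fin 1 => box x (D + 1)) (res T.V (box x ρ0) ω) then g x else 0) ≤
          ∑ x ∈ (box p0 n).filter (fun x => C * ρ0 ≤ (dF T.faceSet x : ℝ) ∧
            TwoVisit (fun _ : Fin 1 => box x (D + 1)) (res T.V (box x ρ0) ω)), g x :=
        sum_ite_le905 hg0 fun x _ h => ⟨h.1, h.2⟩
      by_contra hc
      exact hbad ⟨OE T (τ.E ω), q, φ, u, χ, hO, hCP, hq, hχ, hφ, hu,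
        lt_of_lt_of_le (not_le.1 hc) h1⟩
    -- the exponents
    have hκ0 : (0 : ℝ) < κ := by exact_mod_cast hκ1
    have hρ1 : (0 : ℝ) < (ρ0 : ℝ) / κ := by
      have : 0 < ρ0 := by omega
      have : (0 : ℝ) < ρ0 := by exact_mod_cast this
      positivity
    have hρle : (ρ0 : ℝ) / κ ≤ 1 := by
      rw [div_le_one hκ0]
      exact_mod_cast hρκ
    have hx1 : ((ρ0 : ℝ) / κ) ^ γ' ≤ ((ρ0 : ℝ) / κ) ^ β :=
      Real.rpow_le_rpow_of_exponent_ge hρ1 hρle (min_le_right _ _)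
    have hr0 : 0 < (2 * (s : ℝ) + 1) / ((D - 2 * s : ℕ) + 1) := by positivity
    have hrle : (2 * (s : ℝ) + 1) / ((D - 2 * s : ℕ) + 1) ≤ 1 := by
      rw [div_le_one (by positivity)]
      have : 2 * s + 1 ≤ (D - 2 * s) + 1 := by omega
      exact_mod_cast this
    have hx2 : ((2 * (s : ℝ) + 1) / ((D - 2 * s : ℕ) + 1)) ^ β0 ≤
        ((2 * (s : ℝ) + 1) / ((D - 2 * s : ℕ) + 1)) ^ β :=
      Real.rpow_le_rpow_of_exponent_ge hr0 hrle (min_le_left _ _)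
    have hlast : 2 * ((2 * (s : ℝ) + 1) / ((D - 2 * s : ℕ) + 1)) ^ β0 * ∑ x ∈ hO.toFinset, g x ≤
        C * ((2 * (s : ℝ) + 1) / ((D - 2 * s : ℕ) + 1)) ^ β := by
      have h1 : ∑ x ∈ hO.toFinset, g x ≤ M := m1 _
      calc 2 * ((2 * (s : ℝ) + 1) / ((D - 2 * s : ℕ) + 1)) ^ β0 * ∑ x ∈ hO.toFinset, g x
          ≤ 2 * ((2 * (s : ℝ) + 1) / ((D - 2 * s : ℕ) + 1)) ^ β * M := by
            apply mul_le_mul _ h1 (sum_nonneg fun x _ => hg0 x) (by positivity)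
            linarith
        _ = (2 * M) * ((2 * (s : ℝ) + 1) / ((D - 2 * s : ℕ) + 1)) ^ β := by ring
        _ ≤ _ := mul_le_mul_of_nonneg_right (by linarith) (by positivity)
    have htip' : M * ((ρ0 : ℝ) / κ) ^ γ' ≤ C * ((ρ0 : ℝ) / κ) ^ β :=
      mul_le_mul (by linarith) hx1 (by positivity) (by positivity)
    rw [← hfar]
    have key' := key
    change |mass ω (fL (OE T (τ.E ω)) φ χ u) (τ.L ω) - ∑ x ∈ hO.toFinset, φ x * H x| ≤
      ∑ x ∈ hO.toFinset, (if x ∈ BadS ω τ ρ0 then g x else 0) +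
        ∑ x ∈ hO.toFinset, (if x ∉ BadS ω τ ρ0 ∧ (dF T.faceSet x : ℝ) < C * ρ0 ∧
          ∃ v ∈ τ.L ω, v ∈ box x (D + 1) then g x else 0) +
        ∑ x ∈ hO.toFinset, (if x ∉ BadS ω τ ρ0 ∧ ¬ ((dF T.faceSet x : ℝ) < C * ρ0) ∧
          TwoVisit (fun _ : Fin 1 => box x (D + 1)) (res T.V (box x ρ0) ω) then g x else 0) +
        2 * ((2 * (s : ℝ) + 1) / ((D - 2 * s : ℕ) + 1)) ^ β0 * ∑ x ∈ hO.toFinset, g x at key'
    linarith

end Vale.Agent.P155.NT905
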