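import Vale.Agent.P155.NT802.Main
import Vale.Agent.P155.NT.GTime
import Vale.Agent.P155.NT.Cont
import Vale.Agent.P155.NT.Harm
import Vale.Agent.P155.NT743.FMStop

/-!
# P155, NT, block E: comparison of the two times of an excursion

(i) data determined at a time; (j) the two first-moment evaluations (beginning of the excursion,
touching time) give `E[Dom ; ∑_{O₁} φ (H₂ - H₁)]`.
-/

namespace Vale.Agent.P155.NT905

open Vale.Agent.P155 Finset SW HT T905 T802 T862 J NT NT802 NT743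

variable {V : Finset Pt} {ω ω' : Conf} {xS : ℤ}

/-! ## The loop of an excursion -/

open NT.Tm in
/-- an excursion takes place during one loop -/
theorem exc_loop (hω : ω ∈ DD V) {q : Pt} {r k : ℕ} (hr : 1 ≤ r)
    (hx : (16 * r : ℤ) ≤ |q.1 - xS|)
    (hk : (entT V xS q (2 * r) (4 * r) k).N ω < M V xS ω) :
    (exiT V xS q (2 * r) (4 * r) (k + 1)).N ω < M V xS ω ∧
    ∀ n, (entT V xS q (2 * r) (4 * r) k).N ω ≤ n →
      n ≤ (exiT V xS q (2 * r) (4 * r) (k + 1)).N ω →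
      (tm V xS ω n).1 = (tm V xS ω ((entT V xS q (2 * r) (4 * r) k).N ω)).1 := by
  have W := walk hω xS
  rw [entT_N] at hk ⊢
  rw [exiT_N]
  obtain ⟨n0, hn0, hrun⟩ := W.pos hk
  obtain ⟨hsV, _, hi⟩ := W.valid _ hk
  set e := NT802.ent (M V xS ω) (p V xS ω) q (2 * r) (4 * r) k with he
  set s : Pt := (xS, (tm V xS ω e).1) with hs
  set Nl := (comp ω s).ncard with hNl
  have hNl1 : 1 ≤ Nl := by omega
  obtain ⟨hM, htm⟩ := hrun (Nl - 1) (by omega)
  have hend : p V xS ω (n0 + (Nl - 1)) ∉ box q (4 * r) := by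
    have h1 : p V xS ω (n0 + (Nl - 1)) = go ω s (Nl - 1) := by
      unfold p
      rw [htm]
    have h2 := go_adj' hω hsV (i := Nl - 1) (by omega)
    rw [show Nl - 1 + 1 = Nl by omega] at h2
    have h3 : go ω s Nl = s := by
      rcases go_cases hω hsV with h | h
      · rw [h]
        exact Q1.iter_per hω hsV
      · rw [h Nl le_rfl, Nat.sub_self]
        rfl
    rw [h1, not_box]
    rw [h3] at h2
    have h4 := dn_adj (q := q) h2
    have h5 := dn_line (t := (tm V xS ω e).1) hx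
    rw [← hs] at h5
    omega
  have hle : NT802.exi (M V xS ω) (p V xS ω) q (2 * r) (4 * r) (k + 1) ≤ n0 + (Nl - 1) := by
    rw [exi_succ]
    exact fst_min (by omega) (Or.inl hend)
  refine ⟨lt_of_le_of_lt hle hM, fun n h1 h2 => ?_⟩
  obtain ⟨_, h4⟩ := hrun (n - n0) (by omega)
  rw [show n0 + (n - n0) = n by omega] at h4
  rw [h4]

/-! ## Data determined at a time -/

/-- `f` is unsigned and determined by the exploration at the time `τ` -/
structure At {α : Type*} (τ : Tm.GTime V xS) (f : Conf → α) : Prop where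
  det : ∀ ω ∈ DD V, ∀ ω' ∈ DD V, OnE (Tm.En V xS ω (τ.N ω)) ω ω' → f ω' = f ω
  uns : ∀ ω ∈ DD V, ∀ ω' ∈ DD V, UEq ω ω' → f ω' = f ω

theorem At.mono {α : Type*} {τ τ' : Tm.GTime V xS} {f : Conf → α} (h : At τ f)
    (hle : ∀ ω ∈ DD V, τ.N ω ≤ τ'.N ω) : At τ' f where
  det := fun ω hω ω' hω' hE => h.det ω hω ω' hω' (hE.mono (Tm.En_mono (hle ω hω)))
  uns := h.uns

theorem At.atom {α : Type*} {τ : Tm.GTime V xS} {f : Conf → α} (h : At τ f) (hω : ω ∈ DD V)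
    (h' : ω' ∈ atom V τ.toStop.X ω) : f ω' = f ω :=
  h.det ω hω ω' (Stop.atom_dd h') (Stop.atom_onE h')

theorem At.comp₂ {α β γ : Type*} {τ : Tm.GTime V xS} {f : Conf → α} {g : Conf → β}
    (F : α → β → γ) (h : At τ f) (h' : At τ g) : At τ (fun ω => F (f ω) (g ω)) where
  det := fun ω hω ω' hω' hE => by rw [h.det ω hω ω' hω' hE, h'.det ω hω ω' hω' hE]
  uns := fun ω hω ω' hω' hU => by rw [h.uns ω hω ω' hω' hU, h'.uns ω hω ω' hω' hU]

theorem At.comp₁ {α β : Type*} {τ : Tm.GTime V xS} {f : Conf → α} (F : α → β) (h : At τ f) :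
    At τ (fun ω => F (f ω)) where
  det := fun ω hω ω' hω' hE => by rw [h.det ω hω ω' hω' hE]
  uns := fun ω hω ω' hω' hU => by rw [h.uns ω hω ω' hω' hU]

theorem At.congr {α : Type*} {τ : Tm.GTime V xS} {f g : Conf → α} (h : At τ f)
    (he : ∀ ω ∈ DD V, g ω = f ω) : At τ g where
  det := fun ω hω ω' hω' hE => by rw [he ω hω, he ω' hω', h.det ω hω ω' hω' hE]
  uns := fun ω hω ω' hω' hU => by rw [he ω hω, he ω' hω', h.uns ω hω ω' hω' hU]

/-- the explored set -/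
theorem at_En (τ : Tm.GTime V xS) : At τ (fun ω => Tm.En V xS ω (τ.N ω)) where
  det := fun _ hω _ hω' hE => Stop.E_onE (τ := τ.toStop) hω hω' hE
  uns := fun _ hω _ hω' hU => Stop.E_uns τ.toStop hω hω' hU

theorem at_lt (τ : Tm.GTime V xS) : At τ (fun ω => τ.N ω < Tm.M V xS ω) where
  det := fun ω hω ω' hω' hE => by
    have h1 := τ.det ω hω ω' hω' hE
    have h2 := Tm.M_le_onE hω hω' hE
    rw [h1]
    apply propext
    constructor
    · intro h; by_contra hc; exact absurd (h2.2 (not_lt.1 hc)) (not_le.2 h)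
    · intro h; by_contra hc; exact absurd (h2.1 (not_lt.1 hc)) (not_le.2 h)
  uns := fun ω hω ω' hω' hU => by rw [τ.uns ω hω ω' hω' hU, Tm.M_uns hU]

theorem at_new (τ : Tm.GTime V xS) : At τ (fun ω => τ.toStop.New ω) where
  det := fun _ hω _ hω' hE => propext (Stop.new_onE (τ := τ.toStop) hω hω' hE)
  uns := fun _ hω _ hω' hU => propext (Stop.new_uns τ.toStop hω hω' hU)

/-- the types of the faces which are not free, on `New` -/
theorem at_surr {T : Temp} (τ : Tm.GTime T.V xS) :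
    At τ (fun ω => {f : Pt | τ.toStop.New ω ∧ f ∉ OE T (τ.toStop.E ω) ∧
      surr ω (τ.toStop.L ω) f}) where
  det := fun ω hω ω' hω' hE => by
    have h1 := Stop.new_onE (τ := τ.toStop) hω hω' hE
    have h2 := Stop.E_onE (τ := τ.toStop) hω hω' hE
    ext f
    simp only [Set.mem_ofPred_eq]
    rw [h1, h2]
    by_cases hN : τ.toStop.New ω
    · by_cases hf : f ∈ OE T (τ.toStop.E ω)
      · simp [hf]
      · have h3 := Stop.bd_onE hω hω' hN hE hf
        unfold Stop.bd at h3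
        simp only [hN, hf, not_false_eq_true, true_and]
        by_cases h4 : surr ω (τ.toStop.L ω) f <;> by_cases h5 : surr ω' (τ.toStop.L ω') f <;>
          simp [h4, h5] at h3 ⊢
    · simp [hN]
  uns := fun ω hω ω' hω' hU => by
    have h1 := Stop.new_uns τ.toStop hω hω' hU
    have h2 := Stop.E_uns τ.toStop hω hω' hU
    have h3 := Stop.L_uns τ.toStop hω hω' hU
    ext f
    simp only [Set.mem_ofPred_eq]
    rw [h1, h2, h3, surr_uns hU]

/-- SEP in terms of the explored set and of the types of the boundary faces -/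
def SepS (T : Temp) (E S : Set Pt) (q : Pt) (r d : ℕ) : Prop :=
  ∀ z f f' : Pt, Conn {x | x ∈ OE T E ∧ x ∈ box q r ∧ x ∈ box z d} f f' →
    ∀ a a' : Pt, a ∉ OE T E → a' ∉ OE T E → Adj f a → Adj f' a' → (a ∈ S ↔ a' ∈ S)

theorem sepS_iff {T : Temp} {τ : Tm.GTime T.V xS} (hN : τ.toStop.New ω) (q : Pt) (r d : ℕ) :
    SepS T (τ.toStop.E ω) {f : Pt | τ.toStop.New ω ∧ f ∉ OE T (τ.toStop.E ω) ∧
      surr ω (τ.toStop.L ω) f} q r d ↔ Sep T ω (τ.toStop.L ω) (τ.toStop.E ω) q r d := by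
  unfold SepS NT802.Sep
  constructor
  · intro h z f f' c a a' ha ha' h1 h2
    have := h z f f' c a a' ha ha' h1 h2
    simpa [hN, ha, ha'] using this
  · intro h z f f' c a a' ha ha' h1 h2
    have := h z f f' c a a' ha ha' h1 h2
    simpa [hN, ha, ha'] using this

/-- the event `New` and SEP is determined at its time -/
theorem at_sep {T : Temp} (τ : Tm.GTime T.V xS) (q : Pt) (r d : ℕ) :
    At τ (fun ω => τ.toStop.New ω ∧ Sep T ω (τ.toStop.L ω) (τ.toStop.E ω) q r d) := by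
  have h := (at_new τ).comp₂ (fun a b => a ∧ b)
    ((at_En τ).comp₂ (fun E S => SepS T E S q r d) (at_surr (T := T) τ))
  refine h.congr fun ω _ => propext ?_
  constructor
  · rintro ⟨hN, hS⟩
    exact ⟨hN, (sepS_iff hN q r d).2 hS⟩
  · rintro ⟨hN, hS⟩
    exact ⟨hN, (sepS_iff hN q r d).1 hS⟩

/-! ## The excursions of block E -/

/-- beginning of the excursion `k` -/
noncomputable abbrev tE (V : Finset Pt) (xS : ℤ) (q : Pt) (r k : ℕ) : Tm.GTime V xS :=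
  Tm.entT V xS q (2 * r) (4 * r) k

theorem tE_N (V : Finset Pt) (xS : ℤ) (q : Pt) (r k : ℕ) (ω : Conf) :
    (tE V xS q r k).N ω = eK xS ω (Tm.tm V xS ω) (Tm.M V xS ω) q r k := Tm.entT_N _ _ _ _ _ _ _

/-- touching time of the excursion `k` -/
noncomputable abbrev tU (T : Temp) (xS : ℤ) (q : Pt) (r r' h k : ℕ) : Tm.GTime T.V xS :=
  Tm.uT T xS q (2 * r) (4 * r) r' h k

theorem new_of_valid {τ : Tm.GTime V xS} (hω : ω ∈ DD V) (h : τ.N ω < Tm.M V xS ω)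
    (hne : ω.1 (xS, (Tm.tm V xS ω (τ.N ω)).1) ≠ ω.2 (xS, (Tm.tm V xS ω (τ.N ω)).1)) :
    τ.toStop.New ω := ⟨hne, (Tm.valid' hω h).1.2⟩

theorem tE_new (hω : ω ∈ DD V) {q : Pt} {r k : ℕ} (hr : 1 ≤ r)
    (hx : (16 * r : ℤ) ≤ |q.1 - xS|) (hk : (tE V xS q r k).N ω < Tm.M V xS ω) :
    (tE V xS q r k).toStop.New ω := by
  refine new_of_valid hω hk ?_
  rw [tE_N] at hk ⊢
  exact (walk hω xS).ne_exc hω hr hx hk

theorem tE_le_tU (T : Temp) (xS : ℤ) (q : Pt) (r r' h k : ℕ) (ω : Conf) :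
    (tE T.V xS q r k).N ω ≤ (tU T xS q r r' h k).N ω := (NT802.fst_mem _ _ _).1

theorem tU_le_exi (T : Temp) (xS : ℤ) (q : Pt) (r r' h k : ℕ) (ω : Conf) :
    (tU T xS q r r' h k).N ω ≤ (Tm.exiT T.V xS q (2 * r) (4 * r) (k + 1)).N ω :=
  NT802.fst_le (Tm.entT_le_exiT _ _ _ _ _ _ _)

/-- the touching time takes place during the same loop -/
theorem tU_facts {T : Temp} (hω : ω ∈ DD T.V) {q : Pt} {r r' h k : ℕ} (hr : 1 ≤ r)
    (hx : (16 * r : ℤ) ≤ |q.1 - xS|) (hk : (tE T.V xS q r k).N ω < Tm.M T.V xS ω) :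
    (tU T xS q r r' h k).N ω < Tm.M T.V xS ω ∧ (tU T xS q r r' h k).toStop.New ω ∧
      (tU T xS q r r' h k).toStop.L ω = (tE T.V xS q r k).toStop.L ω := by
  obtain ⟨h1, h2⟩ := exc_loop hω hr hx hk
  have h3 := h2 _ (tE_le_tU T xS q r r' h k ω) (tU_le_exi T xS q r r' h k ω)
  have h4 := lt_of_le_of_lt (tU_le_exi T xS q r r' h k ω) h1
  refine ⟨h4, ?_, ?_⟩
  · refine new_of_valid hω h4 ?_
    rw [h3]
    exact (tE_new hω hr hx hk).1
  · unfold Stop.L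
    rw [Tm.GTime.toStop_t, Tm.GTime.toStop_t, h3]

/-! ## The two evaluations -/

open Classical in
/-- the two first-moment differences give the change of `∑ φ H` -/
theorem gdif_sub {T : Temp} {E1 E2 L1 L2 : Conf → Set Pt} {φ H1 H2 : Conf → Pt → ℝ}
    (h12 : E1 ω ⊆ E2 ω) (hL : L2 ω = L1 ω)
    (hH2 : ∀ f, f ∉ OE T (E2 ω) → H2 ω f = (if surr ω (L2 ω) f then 1 else 0)) :
    gdif T E1 L1 φ H1 ω - gdif T E2 L2 φ H2 ω =
      ∑ x ∈ (S743.oe_finite T (E1 ω)).toFinset, φ ω x * (H2 ω x - H1 ω x) := by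
  unfold gdif
  have hsub : (S743.oe_finite T (E2 ω)).toFinset ⊆ (S743.oe_finite T (E1 ω)).toFinset := by
    intro x hx
    rw [Set.Finite.mem_toFinset] at hx ⊢
    exact NT802.OE_anti h12 hx
  have e1 : ∑ x ∈ (S743.oe_finite T (E2 ω)).toFinset,
      φ ω x * ((if surr ω (L2 ω) x then 1 else 0) - H2 ω x) =
      ∑ x ∈ (S743.oe_finite T (E1 ω)).toFinset,
      φ ω x * ((if surr ω (L2 ω) x then 1 else 0) - H2 ω x) := by
    refine Finset.sum_subset hsub fun x _ hx => ?_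
    rw [Set.Finite.mem_toFinset] at hx
    rw [hH2 x hx, sub_self, mul_zero]
  rw [e1, ← Finset.sum_sub_distrib, hL]
  refine Finset.sum_congr rfl fun x _ => ?_
  ring

open Classical in
/-- **the two evaluations**: -/
theorem two_times {T : Temp} {Dom : Conf → Prop} {E1 E2 L1 L2 : Conf → Set Pt}
    {φ H1 H2 : Conf → Pt → ℝ} (h12 : ∀ ω ∈ DD T.V, Dom ω → E1 ω ⊆ E2 ω)
    (hL : ∀ ω ∈ DD T.V, Dom ω → L2 ω = L1 ω)
    (hH2 : ∀ ω ∈ DD T.V, Dom ω → ∀ f, f ∉ OE T (E2 ω) →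
      H2 ω f = (if surr ω (L2 ω) f then 1 else 0)) :
    |Ex T.V (fun ω => if Dom ω then
      ∑ x ∈ (S743.oe_finite T (E1 ω)).toFinset, φ ω x * (H2 ω x - H1 ω x) else 0)| ≤
      |Ex T.V (fun ω => if Dom ω then gdif T E1 L1 φ H1 ω else 0)| +
      |Ex T.V (fun ω => if Dom ω then gdif T E2 L2 φ H2 ω else 0)| := by
  have e : Ex T.V (fun ω => if Dom ω then
      ∑ x ∈ (S743.oe_finite T (E1 ω)).toFinset, φ ω x * (H2 ω x - H1 ω x) else 0) =
      Ex T.V (fun ω => if Dom ω then gdif T E1 L1 φ H1 ω else 0) -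
      Ex T.V (fun ω => if Dom ω then gdif T E2 L2 φ H2 ω else 0) := by
    unfold Ex
    rw [← smul_sub, ← Finset.sum_sub_distrib]
    congr 1
    refine Finset.sum_congr rfl fun ω hω => ?_
    by_cases hd : Dom ω
    · simp only [if_pos hd]
      rw [gdif_sub (h12 ω hω hd) (hL ω hω hd) (hH2 ω hω hd)]
    · simp only [if_neg hd, sub_zero]
  rw [e]
  exact abs_sub _ _

theorem fms_of_at {T : Temp} {τ1 τ : Tm.GTime T.V xS} {Dom : Conf → Prop} {φ : Conf → Pt → ℝ}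
    (hle : ∀ ω ∈ DD T.V, τ1.N ω ≤ τ.N ω) (hD : At τ1 Dom) (hφ : At τ1 φ)
    (hnew : ∀ ω ∈ DD T.V, Dom ω → τ.toStop.New ω) : FMs τ.toStop Dom φ where
  new := hnew
  domA := fun ω hω ω' hω' hE => iff_of_eq ((hD.mono hle).det ω hω ω' hω' hE)
  domU := fun ω hω ω' hω' hU => hD.uns ω hω ω' hω' hU
  φA := fun ω hω _ ω' hω' hE => (hφ.mono hle).det ω hω ω' hω' hE
  φU := fun ω hω _ ω' hω' hU => hφ.uns ω hω ω' hω' hU

open Classical in
/-- **One step**: the harmonic measures at the beginning `t₁` of an excursion and at the touching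
time `t₂` have almost the same mean of `∑ φ H`. -/
theorem step : ∃ γ : ℝ, 0 < γ ∧ γ ≤ 1 ∧ ∀ (a0 C0 : ℝ) (K : ℕ), 0 < a0 → 0 ≤ C0 → 1 ≤ K →
    ∃ a : ℝ, 0 < a ∧ ∃ CT : ℝ, 0 < CT ∧ ∃ c : ℝ, 0 < c ∧ ∃ C : ℝ, 0 ≤ C ∧ ∃ R0 : ℕ, 1 ≤ R0 ∧
    ∀ (R n : ℕ) (T : Temp), R0 ≤ R → Skel.Fits T R → (R : ℝ) ^ a0 ≤ n → n ≤ R → ∀ s ρ0 : ℕ,
    s = ⌈((K * R : ℕ) : ℝ) ^ a⌉₊ → ρ0 = ⌈((K * n : ℕ) : ℝ) ^ (1 - γ ^ 2 / 1024)⌉₊ →
    (8 ≤ s ∧ s ^ 2 + 1 ≤ ρ0 ∧ 8 * ρ0 + 16 ≤ n ∧ 2 * (CT * (ρ0 : ℝ)) + 2 ≤ n ∧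
      ((s ^ 2 : ℕ) : ℝ) + 1 ≤ ((K * n : ℕ) : ℝ) ^ (γ / 512) ∧ (R : ℝ) ^ a ≤ s) ∧
    ∀ (xS : ℤ) (q : Pt) (r r' h k : ℕ) (Dom : Conf → Prop) (φ : Conf → Pt → ℝ)
      (p : Conf → Pt), 1 ≤ r → (16 * r : ℤ) ≤ |q.1 - xS| →
    (∀ x ∈ box q (K * n), (ρ0 : ℤ) + 1 < |x.1 - xS|) →
    (∀ ω ∈ DD T.V, Dom ω → (tE T.V xS q r k).N ω < Tm.M T.V xS ω) →
    At (tE T.V xS q r k) Dom → At (tE T.V xS q r k) φ →
    (∀ ω ∈ DD T.V, Dom ω → p ω ∉ OE T ((tE T.V xS q r k).toStop.E ω) ∧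
      IsBump (p ω) n (C0 / (n : ℝ) ^ 2) (φ ω)) →
    |Ex T.V (fun ω => if Dom ω then
      ∑ x ∈ (S743.oe_finite T ((tE T.V xS q r k).toStop.E ω)).toFinset,
        φ ω x * ((tU T xS q r r' h k).toStop.Hf ω x - (tE T.V xS q r k).toStop.Hf ω x)
        else 0)| ≤
      2 * (C * (R : ℝ) ^ (-c)) + Ex T.V (fun ω => if Dom ω then
        farS (tE T.V xS q r k).toStop φ s (K * n) q ω +
        zoneS (tE T.V xS q r k).toStop φ s (K * n) q (CT * ρ0) ω +
        (farS (tU T xS q r r' h k).toStop φ s (K * n) q ω +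
        zoneS (tU T xS q r r' h k).toStop φ s (K * n) q (CT * ρ0) ω) else 0) := by
  obtain ⟨γ, hγ, hγ1, hfm⟩ := fm_stop
  refine ⟨γ, hγ, hγ1, ?_⟩
  intro a0 C0 K ha0 hC0 hK
  obtain ⟨a, ha, CT, hCT, c, hc, C, hC, R0, hR0, hfm⟩ := hfm a0 C0 K ha0 hC0 hK
  refine ⟨a, ha, CT, hCT, c, hc, C, hC, R0, hR0, ?_⟩
  intro R n T hR hfit hn hnR s ρ0 hs hρ0
  obtain ⟨hnum, hfm⟩ := hfm R n T hR hfit hn hnR s ρ0 hs hρ0
  refine ⟨hnum, ?_⟩
  intro xS q r r' h k Dom φ p hr hx hline hlt hD hφ hb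
  have hle : ∀ ω ∈ DD T.V, (tE T.V xS q r k).N ω ≤ (tU T xS q r r' h k).N ω :=
    fun ω _ => tE_le_tU T xS q r r' h k ω
  have hE : ∀ ω ∈ DD T.V, (tE T.V xS q r k).toStop.E ω ⊆ (tU T xS q r r' h k).toStop.E ω :=
    fun ω hω => Tm.En_mono (hle ω hω)
  have h1 := hfm xS (tE T.V xS q r k).toStop Dom φ p q
    (fms_of_at (fun _ _ => le_rfl) hD hφ fun ω hω hd => tE_new hω hr hx (hlt ω hω hd)) hline hb
  have h2 := hfm xS (tU T xS q r r' h k).toStop Dom φ p q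
    (fms_of_at hle hD hφ fun ω hω hd => (tU_facts hω hr hx (hlt ω hω hd)).2.1) hline
    (fun ω hω hd => ⟨fun hc => (hb ω hω hd).1 (NT802.OE_anti (hE ω hω) hc), (hb ω hω hd).2⟩)
  have h3 := two_times (T := T) (Dom := Dom) (E1 := (tE T.V xS q r k).toStop.E)
    (E2 := (tU T xS q r r' h k).toStop.E) (L1 := (tE T.V xS q r k).toStop.L)
    (L2 := (tU T xS q r r' h k).toStop.L) (φ := φ) (H1 := (tE T.V xS q r k).toStop.Hf)
    (H2 := (tU T xS q r r' h k).toStop.Hf) (fun ω hω _ => hE ω hω)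
    (fun ω hω hd => (tU_facts hω hr hx (hlt ω hω hd)).2.2)
    (fun ω _ _ f hf => ((tU T xS q r r' h k).toStop.Hf_spec ω).2 f hf)
  have h4 : Ex T.V (fun ω => if Dom ω then
        farS (tE T.V xS q r k).toStop φ s (K * n) q ω +
        zoneS (tE T.V xS q r k).toStop φ s (K * n) q (CT * ρ0) ω +
        (farS (tU T xS q r r' h k).toStop φ s (K * n) q ω +
        zoneS (tU T xS q r r' h k).toStop φ s (K * n) q (CT * ρ0) ω) else 0) =
      Ex T.V (fun ω => if Dom ω then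
        farS (tE T.V xS q r k).toStop φ s (K * n) q ω +
        zoneS (tE T.V xS q r k).toStop φ s (K * n) q (CT * ρ0) ω else 0) +
      Ex T.V (fun ω => if Dom ω then
        farS (tU T xS q r r' h k).toStop φ s (K * n) q ω +
        zoneS (tU T xS q r r' h k).toStop φ s (K * n) q (CT * ρ0) ω else 0) := by
    unfold Ex
    rw [← smul_add, ← Finset.sum_add_distrib]
    congr 1
    refine Finset.sum_congr rfl fun ω _ => ?_
    by_cases hd : Dom ω
    · simp only [if_pos hd]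
    · simp only [if_neg hd, add_zero]
  rw [h4]
  linarith

end Vale.Agent.P155.NT905
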