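import Vale.Agent.P155.NT905.V1Fin

/-!
# P155, NT, V1: the main statement
-/

namespace Vale.Agent.P155.NT905

open Finset SW HT T905 T802 J S743 G45 H904 H12 S862 E4 T862 NT NT743

variable {V : Finset Pt} {ω : Conf}

theorem le_of_parts {x k1 k2 k3 a1 a2 a3 C : ℝ} (h : x ≤ k1 * a1 + k2 * a2 + k3 * a3)
    (h1 : k1 ≤ C) (h2 : k2 ≤ C) (h3 : k3 ≤ C) (p1 : 0 ≤ a1) (p2 : 0 ≤ a2) (p3 : 0 ≤ a3) :
    x ≤ C * (a1 + a2 + a3) := by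
  have q1 := mul_le_mul_of_nonneg_right h1 p1
  have q2 := mul_le_mul_of_nonneg_right h2 p2
  have q3 := mul_le_mul_of_nonneg_right h3 p3
  have e : C * (a1 + a2 + a3) = C * a1 + C * a2 + C * a3 := by ring
  linarith

theorem le_of_parts5 {x k1 k2 k3 k4 k5 a1 a2 a3 a4 a5 C : ℝ}
    (h : x ≤ k1 * a1 + k2 * a2 + k3 * a3 + k4 * a4 + k5 * a5)
    (h1 : k1 ≤ C) (h2 : k2 ≤ C) (h3 : k3 ≤ C) (h4 : k4 ≤ C) (h5 : k5 ≤ C) (p1 : 0 ≤ a1)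
    (p2 : 0 ≤ a2) (p3 : 0 ≤ a3) (p4 : 0 ≤ a4) (p5 : 0 ≤ a5) :
    x ≤ C * (a1 + a2 + a3 + a4 + a5) := by
  have q1 := mul_le_mul_of_nonneg_right h1 p1
  have q2 := mul_le_mul_of_nonneg_right h2 p2
  have q3 := mul_le_mul_of_nonneg_right h3 p3
  have q4 := mul_le_mul_of_nonneg_right h4 p4
  have q5 := mul_le_mul_of_nonneg_right h5 p5
  have e : C * (a1 + a2 + a3 + a4 + a5) = C * a1 + C * a2 + C * a3 + C * a4 + C * a5 := by ring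
  linarith

open Classical in
/-- **V1**: (fm) the first moment, (uns) the unexplored loops, (drop) the drop of the energy between
two times of the same loop; the errors are proportional to the probability of the event, up to an
arbitrary negative power. The line of starting points may cross the box. -/
theorem v1_asm : ∃ γ : ℝ, 0 < γ ∧ γ ≤ 1 ∧ ∀ (a0 C0 am P Kc : ℝ), 0 < a0 → 0 ≤ C0 → 0 < am →
    0 < P → 1 ≤ Kc → ∃ a : ℝ, 0 < a ∧ a ≤ am ∧ ∃ CT : ℝ, 0 < CT ∧ ∃ c : ℝ, 0 < c ∧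
    ∃ C : ℝ, 0 ≤ C ∧ ∃ R0 : ℕ, 1 ≤ R0 ∧
    ∀ (R n N : ℕ) (T : Temp), R0 ≤ R → Skel.Fits T R → (R : ℝ) ^ a0 ≤ n → n ≤ N → N ≤ R →
    (N : ℝ) ≤ Kc * (n : ℝ) ^ (1 + γ ^ 2 / 4096) → ∀ s ρ0 : ℕ,
    s = ⌈(R : ℝ) ^ a⌉₊ → ρ0 = ⌈(N : ℝ) ^ (1 - γ ^ 2 / 1024)⌉₊ →
    (8 ≤ s ∧ s ^ 2 + 1 ≤ ρ0 ∧ 8 * ρ0 + 16 ≤ n ∧ 2 * (CT * (ρ0 : ℝ)) + 2 ≤ n ∧
      ((s ^ 2 : ℕ) : ℝ) + 1 ≤ (N : ℝ) ^ (γ / 512) ∧ (R : ℝ) ^ a ≤ s) ∧
    (∀ (xS : ℤ) (τ : Stop T.V xS) (Dom : Conf → Prop) (φ : Conf → Pt → ℝ) (p : Conf → Pt)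
      (q : Pt), FMs τ Dom φ →
      (∀ ω ∈ DD T.V, Dom ω → p ω ∉ OE T (τ.E ω) ∧ IsBump (p ω) n (C0 / (n : ℝ) ^ 2) (φ ω)) →
      (∀ ω ∈ DD T.V, Dom ω → ∀ y, φ ω y ≠ 0 → y ∈ OE T (τ.E ω)) →
      |Ex T.V (fun ω => if Dom ω then gdif T τ.E τ.L φ τ.Hf ω else 0)| ≤
        C * ((R : ℝ) ^ (-c) * Pr T.V Dom + (R : ℝ) ^ (-P)) +
        Ex T.V (fun ω => if Dom ω then
          farL τ φ s N q ρ0 ω + zoneS τ φ s N q (CT * ρ0) ω else 0) ∧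
      ((∀ ω ∈ DD T.V, Dom ω → ∀ y, φ ω y ≠ 0 → ρ0 + 2 * s < dF (OE T (τ.E ω)) y) →
        Ex T.V (fun ω => if Dom ω then UnS τ φ s ω else 0) ≤
        C * ((R : ℝ) ^ (-c) * Pr T.V Dom + (R : ℝ) ^ (-P) +
          Ex T.V (fun ω => if Dom ω then
            farU τ φ s N q ρ0 ω + zoneU τ φ s N q (CT * ρ0) ω else 0)))) ∧
    (∀ (xS : ℤ) (τ σ : Stop T.V xS) (Dom : Conf → Prop) (φ : Conf → Pt → ℝ) (p : Conf → Pt)
      (q : Pt), FMs τ Dom φ → FMs σ Dom φ →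
      (∀ ω ∈ DD T.V, Dom ω → σ.t ω = τ.t ω ∧ τ.i ω ≤ σ.i ω) →
      (∀ ω ∈ DD T.V, Dom ω → p ω ∉ OE T (τ.E ω) ∧ IsBump (p ω) n (C0 / (n : ℝ) ^ 2) (φ ω)) →
      (∀ ω ∈ DD T.V, Dom ω → ∀ y, φ ω y ≠ 0 → y ∈ OE T (σ.E ω)) →
      (∀ ω ∈ DD T.V, Dom ω → ∀ y, 0 ≤ φ ω y) →
      Ex T.V (fun ω => if Dom ω then dropE τ σ φ ω else 0) ≤
        C * (Ex T.V (fun ω => if Dom ω then hitE τ φ ω else 0) +
          (R : ℝ) ^ (-c) * Pr T.V Dom + (R : ℝ) ^ (-P) +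
          Ex T.V (fun ω => if Dom ω then
            farL τ φ s N q ρ0 ω + zoneS τ φ s N q (CT * ρ0) ω else 0) +
          Ex T.V (fun ω => if Dom ω then UnS τ φ s ω + UnS σ φ s ω else 0)) ∧
      ∀ m0 : ℝ, 0 ≤ m0 → m0 ≤ 1 →
        (∀ ω ∈ DD T.V, Dom ω → ∑ x ∈ (oe_finite T (τ.E ω)).toFinset, φ ω x = m0) →
        Ex T.V (fun ω => if Dom ω then dropE τ σ φ ω else 0) ≤
        C * (Ex T.V (fun ω => if Dom ω then hitE' τ φ ω else 0) +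
          (R : ℝ) ^ (-c) * Pr T.V Dom + (R : ℝ) ^ (-P) +
          Ex T.V (fun ω => if Dom ω then
            farL τ φ s N q ρ0 ω + zoneS τ φ s N q (CT * ρ0) ω else 0) +
          Ex T.V (fun ω => if Dom ω then UnS τ φ s ω + UnS σ φ s ω else 0))) := by
  obtain ⟨γ, hγ, hγ1, hdata⟩ := v1_data
  refine ⟨γ, hγ, hγ1, ?_⟩
  intro a0 C0 am P Kc ha0 hC0 ham hP hKc
  obtain ⟨a, ha, haam, CT, hCT, c, hc, M, C1, C2, Ce, hM, hC1, hC2, hCe, R0, hR0, hdata⟩ :=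
    hdata a0 C0 am P Kc ha0 hC0 ham hP hKc
  obtain ⟨CA, hCA⟩ : ∃ CA : ℝ, CA = C1 + Ce + (M + 128 * C0) * CT := ⟨_, rfl⟩
  have hCA0 : 0 ≤ CA := by rw [hCA]; positivity
  obtain ⟨CU, hCU⟩ : ∃ CU : ℝ, CU = 128 * C0 * Ce + 128 * C0 + 12 * (128 * C0 * M) * CT :=
    ⟨_, rfl⟩
  have hCU0 : 0 ≤ CU := by rw [hCU]; positivity
  obtain ⟨CD, hCD⟩ : ∃ CD : ℝ, CD = 4 * C2 + 4 * C1 + 4 * M + 4 * (M * CA) + 2 := ⟨_, rfl⟩
  have hCD0 : 0 ≤ CD := by rw [hCD]; positivity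
  refine ⟨a, ha, haam, CT, hCT, c, hc, CA + CU + CD, by positivity, R0, hR0, ?_⟩
  intro R n N T hR hfit hn hnN hNR hNn s ρ0 hs hρ0
  obtain ⟨hnum, S⟩ := hdata R n N T hR hfit hn hnN hNR hNn s ρ0 hs hρ0
  obtain ⟨r, hr⟩ : ∃ r : ℝ, r = (R : ℝ) ^ (-c) := ⟨_, rfl⟩
  obtain ⟨rP, hrP⟩ : ∃ rP : ℝ, rP = (R : ℝ) ^ (-P) := ⟨_, rfl⟩
  have hr0 : 0 ≤ r := by rw [hr]; exact S.hr
  have hrP0 : 0 ≤ rP := by rw [hrP]; exact S.hrP
  rw [← hr, ← hrP] at S ⊢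
  refine ⟨hnum, ?_, ?_⟩
  · intro xS τ Dom φ p q hd hb hsupp
    have hD := Vale.Agent.P155.E.Pr_nonneg T.V Dom
    have hrD : 0 ≤ r * Pr T.V Dom := by positivity
    constructor
    · have h1 := S.gd q hd hb hsupp
      rw [← hCA] at h1
      have q1 : CA * (r * Pr T.V Dom) ≤ (CA + CU + CD) * (r * Pr T.V Dom) :=
        mul_le_mul_of_nonneg_right (by linarith) hrD
      have q2 : CA * rP ≤ (CA + CU + CD) * rP := mul_le_mul_of_nonneg_right (by linarith) hrP0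
      rw [mul_add]
      linarith
    · intro hdeep
      have h1 := S.uns q hd hb hsupp hdeep
      have hG0 : 0 ≤ Ex T.V (fun ω => if Dom ω then
            farU τ φ s N q ρ0 ω + zoneU τ φ s N q (CT * ρ0) ω else 0) :=
        ex_dom_nonneg fun ω _ _ =>
          add_nonneg (farU_nonneg _ _ _ _ _ _ _) (zoneU_nonneg _ _ _ _ _ _ _)
      have t1 : 0 ≤ 128 * C0 * Ce := by positivity
      have t2 : 0 ≤ 12 * (128 * C0 * M) * CT := by positivity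
      exact le_of_parts h1 (by linarith) (by linarith) (by linarith) hrD hrP0 hG0
  · intro xS τ σ Dom φ p q hdτ hdσ hloop hb hsupp hφ0
    have hD := Vale.Agent.P155.E.Pr_nonneg T.V Dom
    have hrD : 0 ≤ r * Pr T.V Dom := by positivity
    have hsuppτ : ∀ ω ∈ DD T.V, Dom ω → ∀ y, φ ω y ≠ 0 → y ∈ OE T (τ.E ω) :=
      fun ω hω hd y hy => oe_anti_stop (hloop ω hω hd) (hsupp ω hω hd y hy)
    have g1 := S.gd q hdτ hb hsuppτ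
    rw [← hCA] at g1
    obtain ⟨Fr, hFr⟩ : ∃ Fr : ℝ, Fr = Ex T.V (fun ω => if Dom ω then
            farL τ φ s N q ρ0 ω + zoneS τ φ s N q (CT * ρ0) ω else 0) := ⟨_, rfl⟩
    obtain ⟨Un, hUn⟩ : ∃ Un : ℝ, Un = Ex T.V (fun ω => if Dom ω then
            UnS τ φ s ω + UnS σ φ s ω else 0) := ⟨_, rfl⟩
    have hFr0 : 0 ≤ Fr := by
      rw [hFr]
      exact ex_dom_nonneg fun ω _ _ =>
        add_nonneg (farL_nonneg _ _ _ _ _ _ _) (zoneS_nonneg _ _ _ _ _ _ _)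
    have hUn0 : 0 ≤ Un := by
      rw [hUn]
      exact ex_dom_nonneg fun ω _ _ => add_nonneg (UnS_nonneg _ _ _ _) (UnS_nonneg _ _ _ _)
    obtain ⟨d1, d2⟩ := S.drop q hdτ hdσ hloop hb hsupp hφ0 g1
    rw [← hFr] at d1 d2 ⊢
    rw [← hUn] at d1 d2 ⊢
    have hMCA : 0 ≤ M * CA := by positivity
    constructor
    · obtain ⟨Hh, hHh⟩ : ∃ Hh : ℝ, Hh = Ex T.V (fun ω => if Dom ω then hitE τ φ ω else 0) :=
        ⟨_, rfl⟩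
      have hHh0 : 0 ≤ Hh := by
        rw [hHh]
        exact ex_dom_nonneg fun ω hω hd => Finset.sum_nonneg fun x _ =>
          mul_nonneg (hφ0 ω hω hd x) ((τ.Hf_spec ω).nonneg x)
      rw [← hHh] at d1 ⊢
      refine le_of_parts5 (k1 := 4 * M) (k2 := 4 * C2 + 4 * (M * CA))
        (k3 := 4 * C2 + 4 * (M * CA)) (k4 := 4 * M) (k5 := 2) (d1.trans (le_of_eq (by ring)))
        (by linarith) (by linarith) (by linarith) (by linarith) (by linarith)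
        hHh0 hrD hrP0 hFr0 hUn0
    · intro m0 hm0 hm1 hmass0
      have d2' := d2 m0 hm0 hm1 hmass0
      obtain ⟨Hh, hHh⟩ : ∃ Hh : ℝ, Hh = Ex T.V (fun ω => if Dom ω then hitE' τ φ ω else 0) :=
        ⟨_, rfl⟩
      have hHh0 : 0 ≤ Hh := by
        rw [hHh]
        exact ex_dom_nonneg fun ω hω hd => Finset.sum_nonneg fun x _ =>
          mul_nonneg (hφ0 ω hω hd x) (sub_nonneg.2 ((τ.Hf_spec ω).le_one x))
      rw [← hHh] at d2' ⊢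
      refine le_of_parts5 (k1 := 4 * M) (k2 := 4 * C2 + 4 * C1 + 4 * (M * CA))
        (k3 := 4 * C2 + 4 * C1 + 4 * (M * CA)) (k4 := 4 * M) (k5 := 2)
        (d2'.trans (le_of_eq (by ring)))
        (by linarith) (by linarith) (by linarith) (by linarith) (by linarith)
        hHh0 hrD hrP0 hFr0 hUn0

end Vale.Agent.P155.NT905
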