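import Vale.Agent.P155.NT905.LayH
import Vale.Agent.P155.T905.Eval
import Vale.Agent.P155.J.Height

/-!
# P155, NT: mass of the layer function inside `L` versus `∑ φ H`
-/

namespace Vale.Agent.P155.NT905

open Finset SW HT T905 T802 G45 J H904 H12

theorem chi_u_supp {O : Set Pt} (hO : O.Finite) {φ u χ : Pt → ℝ} (hu : IsGreen O φ u) :
    FS (fun y => χ y * u y) := by
  apply hO.subset
  intro x hx
  rw [Function.mem_support] at hx
  by_contra h
  exact hx (by rw [hu.off x h, mul_zero])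

/-- `∑ f_L H = ∑ φ H` for `H` harmonic in `O` -/
theorem sum_fL_mul {O : Set Pt} (hO : O.Finite) {s : ℕ} (hs : 1 ≤ s) {C0 : ℝ} {φ u χ : Pt → ℝ}
    (hχ : IsCut O s C0 χ) (hu : IsGreen O φ u) {H : Pt → ℝ} (harm : ∀ x ∈ O, lap H x = 0) :
    ∑ x ∈ hO.toFinset, fL O φ χ u x * H x = ∑ x ∈ hO.toFinset, φ x * H x := by
  classical
  have h1 : ∀ x ∈ hO.toFinset, fL O φ χ u x * H x =
      φ x * H x + lap (fun y => χ y * u y) x * H x := by
    intro x hx
    rw [Set.Finite.mem_toFinset] at hx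
    unfold fL
    rw [if_pos hx]
    ring
  rw [Finset.sum_congr rfl h1, Finset.sum_add_distrib]
  have hz : ∀ x, x ∉ hO.toFinset → lap (fun y => χ y * u y) x = 0 := by
    intro x hx
    have h2 := fL_zero_off hO hs hχ hu x hx
    unfold fL at h2
    rw [Set.Finite.mem_toFinset] at hx
    rw [if_neg hx, zero_add] at h2
    exact h2
  have h3 : ∑ x ∈ hO.toFinset, lap (fun y => χ y * u y) x * H x =
      ∑ᶠ x, lap (fun y => χ y * u y) x * H x := by
    symm
    apply finsum_eq_sum_of_support_subset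
    intro x hx
    rw [Function.mem_support] at hx
    by_contra h
    exact hx (by rw [hz x (by exact_mod_cast h), zero_mul])
  rw [h3, finsum_lap (chi_u_supp hO hu) H]
  have h4 : ∀ x, (fun y => χ y * u y) x * lap H x = 0 := by
    intro x
    by_cases hx : x ∈ O
    · rw [harm x hx, mul_zero]
    · simp only [hu.off x hx, mul_zero, zero_mul]
  rw [finsum_congr h4, finsum_zero, add_zero]

open Classical in
/-- the local geometry at a layer point `x` -/
structure GoodPt (T : Temp) (ω : Conf) (E W L : Set Pt) (H : Pt → ℝ) (ρ0 D : ℕ) (x : Pt) : Prop where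
  wall : ∀ z ∈ box x ρ0, z ∉ W
  face : ∀ y ∈ box x D, y ∈ T.faceSet
  val : ∀ y ∈ box x D, Touch E y → H y = (if surr ω L y then 1 else 0)
  strand : ∀ v' ∈ E, v' ∈ box x (D + 1) → ∃ p', Same ω v' p' ∧ p' ∉ box x ρ0
  loop : ∃ q ∈ L, q ∉ box x ρ0

open Classical in
/-- **deterministic layer evaluation** -/
theorem layer_sum {β : ℝ} (hβ : 0 < β) (hSD : SupDecay 2 β) {T : Temp} {V : Finset Pt} {ω : Conf}
    (hω : ω ∈ DD V) {E W L : Set Pt} (hL : L ∈ Loops ω) (hO : (OE T E).Finite)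
    (hCP : CPr (OE T E)) {H : Pt → ℝ} (h01 : ∀ x, 0 ≤ H x ∧ H x ≤ 1)
    (harm : ∀ x ∈ OE T E, lap H x = 0)
    (hE : ∀ a ∈ E, ∀ b, b ∉ W → (b = ω.1 a ∨ b = ω.2 a) → b ∈ E) {ρ0 D s : ℕ} {Bad : Set Pt}
    (hG : ∀ x ∈ OE T E, x ∉ Bad → dF (OE T E) x ≤ 2 * s → GoodPt T ω E W L H ρ0 D x)
    (hs : 1 ≤ s) (hsD : 4 * s ≤ D) {C0 : ℝ} {φ u χ : Pt → ℝ} (hχ : IsCut (OE T E) s C0 χ)
    (hu : IsGreen (OE T E) φ u) :
    |mass ω (fL (OE T E) φ χ u) L - ∑ x ∈ hO.toFinset, φ x * H x| ≤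
      ∑ x ∈ hO.toFinset, (if x ∈ Bad then |fL (OE T E) φ χ u x| else 0) +
      ∑ x ∈ hO.toFinset, (if x ∉ Bad ∧ TwoVisit (fun _ : Fin 1 => box x (D + 1))
        (res V (box x ρ0) ω) then |fL (OE T E) φ χ u x| else 0) +
      2 * ((2 * (s : ℝ) + 1) / ((D - 2 * s : ℕ) + 1)) ^ β *
        ∑ x ∈ hO.toFinset, |fL (OE T E) φ χ u x| := by
  rw [← sum_fL_mul hO hs hχ hu harm, mass_eq_sum (fL_zero_off hO hs hχ hu), ← Finset.sum_sub_distrib,
    Finset.mul_sum, ← Finset.sum_add_distrib, ← Finset.sum_add_distrib]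
  refine (Finset.abs_sum_le_sum_abs _ _).trans (Finset.sum_le_sum fun x hx => ?_)
  rw [Set.Finite.mem_toFinset] at hx
  set f := fL (OE T E) φ χ u x with hf
  have e1 : f * (if surr ω L x then (1 : ℝ) else 0) - f * H x =
      f * ((if surr ω L x then (1 : ℝ) else 0) - H x) := by ring
  rw [e1, abs_mul]
  have hq0 : 0 ≤ 2 * ((2 * (s : ℝ) + 1) / ((D - 2 * s : ℕ) + 1)) ^ β := by positivity
  have hle1 : |(if surr ω L x then (1 : ℝ) else 0) - H x| ≤ 1 := by
    obtain ⟨h1, h2⟩ := h01 x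
    split_ifs <;> rw [abs_le] <;> constructor <;> linarith
  by_cases hf0 : f = 0
  · rw [hf0]; simp
  obtain ⟨-, hdF⟩ := fL_supp (exists_notMem hO) hs hχ hu (hf ▸ hf0)
  have hfn : 0 ≤ |f| := abs_nonneg f
  have hm1 : |f| * |(if surr ω L x then (1 : ℝ) else 0) - H x| ≤ |f| :=
    mul_le_of_le_one_right hfn hle1
  have hm2 := mul_nonneg hq0 hfn
  by_cases hB : x ∈ Bad
  · have e2 : (if x ∈ Bad then |f| else 0) = |f| := if_pos hB
    have e3 : (0 : ℝ) ≤ (if x ∉ Bad ∧ TwoVisit (fun _ : Fin 1 => box x (D + 1))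
        (res V (box x ρ0) ω) then |f| else 0) := by split_ifs <;> simp
    rw [e2]
    linarith
  by_cases hT : TwoVisit (fun _ : Fin 1 => box x (D + 1)) (res V (box x ρ0) ω)
  · have e2 : (if x ∈ Bad then |f| else 0) = 0 := if_neg hB
    have e3 : (if x ∉ Bad ∧ TwoVisit (fun _ : Fin 1 => box x (D + 1))
        (res V (box x ρ0) ω) then |f| else 0) = |f| := if_pos ⟨hB, hT⟩
    rw [e2, e3]
    linarith
  have e2 : (if x ∈ Bad then |f| else 0) = 0 := if_neg hB
  have e3 : (if x ∉ Bad ∧ TwoVisit (fun _ : Fin 1 => box x (D + 1))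
        (res V (box x ρ0) ω) then |f| else 0) = 0 := if_neg (fun h => hT h.2)
  rw [e2, e3, zero_add, zero_add]
  have g := hG x hx hB hdF
  obtain ⟨p, hp, hxp⟩ := H904.exists_dF (exists_notMem hO) x
  have key := lay_H hβ hSD hω hL hCP h01 harm hE (B := box x ρ0) g.wall (k := 2 * s) hx hp
    (by omega) (by omega) g.face g.val g.strand g.loop hT
  rw [abs_sub_comm] at key
  push_cast at key
  rw [mul_comm]
  exact mul_le_mul_of_nonneg_right key hfn

end Vale.Agent.P155.NT905
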