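import Vale.Agent.P155.T905.Layer
import Vale.Agent.P155.G1.Decay
import Vale.Agent.P155.H904.Dist

/-!
# P155, NT: value of the harmonic function `H` at a layer point

`H` harmonic in the unexplored domain `O`, with boundary values = indicator of the interior of the
loop `L`. At a point `x` of the layer near which there is only one strand, `H x` is close to the
indicator of `x` in the interior of `L`.
-/

namespace Vale.Agent.P155.NT905

open Finset SW HT T905 T802 G45

theorem mem_box_dn905 {x z : Pt} {r : ℕ} : z ∈ box x r ↔ dn x z ≤ r := by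
  rw [mem_box', H904.dn_le_iff, abs_sub_comm z.1, abs_sub_comm z.2]

theorem dn_adj905 {a b : Pt} (h : Adj a b) : dn a b ≤ 1 := by
  rw [H904.dn_le_iff]
  unfold Adj at h
  have h1 := abs_nonneg (a.1 - b.1)
  have h2 := abs_nonneg (a.2 - b.2)
  constructor <;> push_cast <;> linarith

/-- the part of `O ∩ {dn p ≤ R}` connected to `x` -/
def Kc (O : Set Pt) (p : Pt) (R : ℕ) (x : Pt) : Set Pt :=
  {z | Relation.ReflTransGen (fun a b => Adj a b ∧ b ∈ O ∧ dn p b ≤ R) x z}

theorem Kc_sub {O : Set Pt} {p : Pt} {R : ℕ} {x : Pt} (hx : x ∈ O) (hxR : dn p x ≤ R) :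
    ∀ z ∈ Kc O p R x, z ∈ O ∧ dn p z ≤ R := by
  intro z hz
  rcases Relation.ReflTransGen.cases_tail hz with h | ⟨w, _, h1, h2, h3⟩
  · rw [h]; exact ⟨hx, hxR⟩
  · exact ⟨h2, h3⟩

theorem lap_eq (H : Pt → ℝ) (z : Pt) (v : ℝ) :
    lap (fun y => H y - v) z = lap H z := by
  unfold lap
  ring

theorem adj4 (z : Pt) : Adj z (z.1 + 1, z.2) ∧ Adj z (z.1 - 1, z.2) ∧ Adj z (z.1, z.2 + 1) ∧
    Adj z (z.1, z.2 - 1) := by
  unfold Adj
  simp

open Classical in
/-- decay towards the boundary value -/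
theorem near_val {β : ℝ} (hSD : SupDecay 2 β) {O : Set Pt} (hCP : CPr O) {H : Pt → ℝ}
    (h01 : ∀ x, 0 ≤ H x ∧ H x ≤ 1) (harm : ∀ x ∈ O, lap H x = 0) {p x : Pt} (hp : p ∉ O)
    {R : ℕ} (hx : x ∈ O) (hxR : dn p x ≤ R) {v : ℝ} (hv : 0 ≤ v ∧ v ≤ 1)
    (hb : ∀ z ∈ Kc O p R x, dn p z < R → ∀ y, Adj z y → y ∉ O → H y = v) :
    |H x - v| ≤ 2 * (((dn p x : ℝ) + 1) / ((R : ℝ) + 1)) ^ β := by
  have hsub := Kc_sub hx hxR
  have hxK : x ∈ Kc O p R x := Relation.ReflTransGen.refl
  have h := hSD (Kc O p R x) p R 1 (fun z => if z ∈ Kc O p R x then H z - v else 0) ?_ ?_ ?_ ?_ x hxR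
  · rw [if_pos hxK, mul_one] at h
    exact h
  · intro r _
    obtain ⟨q, hq, hr⟩ := hCP p hp r
    exact ⟨q, fun h => hq (hsub q h).1, hr⟩
  · intro z hz
    exact if_neg hz
  · intro z hz hzR
    have key : ∀ y, Adj z y → (if y ∈ Kc O p R x then H y - v else 0) = H y - v := by
      intro y hy
      by_cases hyO : y ∈ O
      · have hyR : dn p y ≤ R := by
          have h1 := H904.dn_tri p z y
          have h2 := dn_adj905 hy
          omega
        have : y ∈ Kc O p R x := Relation.ReflTransGen.tail hz ⟨hy, hyO, hyR⟩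
        rw [if_pos this]
      · rw [hb z hz hzR y hy hyO]
        split_ifs <;> ring
    obtain ⟨a1, a2, a3, a4⟩ := adj4 z
    have h0 := harm z (hsub z hz).1
    rw [← lap_eq H z v] at h0
    unfold lap at h0 ⊢
    simp only at h0 ⊢
    rw [key _ a1, key _ a2, key _ a3, key _ a4, if_pos hz]
    exact h0
  · intro z _
    split_ifs
    · obtain ⟨h1, h2⟩ := h01 z
      rw [abs_le]
      constructor <;> linarith [hv.1, hv.2]
    · simp

open Classical in
/-- **layer value.** -/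
theorem lay_H {β : ℝ} (hβ : 0 < β) (hSD : SupDecay 2 β) {T : Temp} {V : Finset Pt} {ω : Conf} (hω : ω ∈ DD V)
    {E W L : Set Pt} (hL : L ∈ Loops ω) (hCP : CPr (OE T E)) {H : Pt → ℝ}
    (h01 : ∀ x, 0 ≤ H x ∧ H x ≤ 1) (harm : ∀ x ∈ OE T E, lap H x = 0)
    (hE : ∀ a ∈ E, ∀ b, b ∉ W → (b = ω.1 a ∨ b = ω.2 a) → b ∈ E)
    {B : Finset Pt} (hBW : ∀ z ∈ B, z ∉ W) {x p : Pt} {D k : ℕ} (hx : x ∈ OE T E)
    (hp : p ∉ OE T E) (hk : dn x p ≤ k) (hkD : 2 * k ≤ D)
    (hface : ∀ y ∈ box x D, y ∈ T.faceSet)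
    (hbd : ∀ y ∈ box x D, Touch E y → H y = (if surr ω L y then 1 else 0))
    (hst : ∀ v' ∈ E, v' ∈ box x (D + 1) → ∃ p', Same ω v' p' ∧ p' ∉ B)
    (hLB : ∃ q ∈ L, q ∉ B)
    (h2 : ¬ TwoVisit (fun _ : Fin 1 => box x (D + 1)) (res V B ω)) :
    |H x - (if surr ω L x then 1 else 0)| ≤ 2 * (((k : ℝ) + 1) / ((D - k : ℕ) + 1)) ^ β := by
  have hbox : ∀ z, dn p z ≤ D - k → z ∈ box x D := by
    intro z hz
    rw [mem_box_dn905]
    have := H904.dn_tri x p z
    omega
  have hpD : p ∈ box x D := by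
    rw [mem_box_dn905]; omega
  have hpx : dn p x ≤ D - k := by
    rw [H904.dn_comm]; omega
  -- an explored vertex nearby
  obtain ⟨v', hv'c, hv'E⟩ : Touch E p := by
    by_contra hc
    exact hp ⟨hface p hpD, hc⟩
  have hv'B : v' ∈ box x (D + 1) := corners_box hv'c hpD
  obtain ⟨p', hs', hp'B⟩ := hst v' hv'E hv'B
  -- no unexplored point of `L` nearby
  have hno : ∀ u ∈ L, u ∉ E → u ∉ box x (D + 1) := by
    intro u hu huE huB
    apply h2
    obtain ⟨q, hqL, hqB⟩ := hLB
    have h1 : Same ω u q := by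
      obtain ⟨a, ha, rfl⟩ := hL
      have hinv : Inv2 ω := by
        have hω' := Finset.mem_product.1 hω
        exact ⟨(mem_PM.1 hω'.1).invol, (mem_PM.1 hω'.2).invol⟩
      exact same_trans (same_symm hinv hu) hqL
    exact two_strands hω hBW hE huE hv'E h1 hqB hs' hp'B huB hv'B
  -- `surr` does not change along the region
  have aux : ∀ a b, a ∈ box x D → Adj a b → (a ∈ OE T E ∨ b ∈ OE T E) → surr ω L a →
      surr ω L b := by
    intro a b haB hab hun hsa
    by_contra hsb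
    obtain ⟨u, w, hu, hw, _, _, hs1, hs2, _, _⟩ := A1.L_step hω hL hab hsa hsb
    have huE : u ∉ E := by
      intro huE
      rcases hun with h | h
      · exact h.2 ⟨u, corner_mem_corners hs1.1, huE⟩
      · exact h.2 ⟨u, corner_mem_corners hs2.1, huE⟩
    exact hno u hu huE (corners_box (corner_mem_corners hs1.1) haB)
  have hiff : ∀ a b, a ∈ box x D → b ∈ box x D → Adj a b → (a ∈ OE T E ∨ b ∈ OE T E) →
      (surr ω L b ↔ surr ω L a) := fun a b ha hb hab ho =>
    ⟨aux b a hb (SW.adj_symm hab) ho.symm, aux a b ha hab ho⟩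
  have hsub := Kc_sub (O := OE T E) (p := p) (R := D - k) hx hpx
  have hK : ∀ z ∈ Kc (OE T E) p (D - k) x, (surr ω L z ↔ surr ω L x) := by
    intro z hz
    induction hz with
    | refl => exact Iff.rfl
    | @tail b c hb hc ih =>
      have hb' := hsub b hb
      rw [← ih]
      exact hiff b c (hbox b hb'.2) (hbox c hc.2.2) hc.1 (Or.inl hb'.1)
  have hv : 0 ≤ (if surr ω L x then (1 : ℝ) else 0) ∧ (if surr ω L x then (1 : ℝ) else 0) ≤ 1 := by
    split_ifs <;> norm_num
  have h3 := near_val (H := H) hSD hCP h01 harm hp hx hpx hv (fun z hz hzR y hy hyO => by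
    have hz' := hsub z hz
    have hyR : dn p y ≤ D - k := by
      have h1 := H904.dn_tri p z y
      have h2 := dn_adj905 hy
      omega
    have hyB := hbox y hyR
    have hyT : Touch E y := by
      by_contra hc
      exact hyO ⟨hface y hyB, hc⟩
    rw [hbd y hyB hyT]
    have := (hiff z y (hbox z hz'.2) hyB hy (Or.inl hz'.1)).trans (hK z hz)
    by_cases h5 : surr ω L x
    · rw [if_pos h5, if_pos (this.2 h5)]
    · rw [if_neg h5, if_neg (fun h => h5 (this.1 h))])
  refine h3.trans ?_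
  apply mul_le_mul_of_nonneg_left _ (by norm_num)
  apply Real.rpow_le_rpow (by positivity)
  · apply div_le_div_of_nonneg_right _ (by positivity)
    have : dn p x ≤ k := by rw [H904.dn_comm]; exact hk
    have : (dn p x : ℝ) ≤ k := by exact_mod_cast this
    linarith
  · exact hβ.le

end Vale.Agent.P155.NT905
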