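import Vale.Agent.P155.NT.Defs
import Vale.Agent.P155.NT905.LaySum
import Vale.Agent.P155.TC657.Orbit

/-!
# P155, NT: `GoodPt` for a stopping time of the exploration of a vertical line
-/

namespace Vale.Agent.P155.NT905

open Finset SW HT T905 T802 G45 J H904 H12 NT

variable {V : Finset Pt} {ω : Conf} {xS : ℤ}

/-- the wall of an explored set: unexplored partners of explored vertices -/
def Wall (ω : Conf) (E : Set Pt) : Set Pt := {b | b ∉ E ∧ ∃ a ∈ E, b = ω.1 a ∨ b = ω.2 a}

theorem wall_closed (ω : Conf) (E : Set Pt) :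
    ∀ a ∈ E, ∀ b, b ∉ Wall ω E → (b = ω.1 a ∨ b = ω.2 a) → b ∈ E := by
  intro a ha b hb h
  by_contra hc
  exact hb ⟨hc, a, ha, h⟩

theorem partner_cases (ω : Conf) (a b : Pt) (h : b = ω.1 a ∨ b = ω.2 a) :
    b = SW.suc ω a ∨ b = SW.pre ω a := by
  unfold SW.suc SW.pre
  split_ifs
  · exact h
  · exact h.symm

theorem go_same (ω : Conf) (s : Pt) (hω : ω ∈ DD V) (i : ℕ) : Same ω s (go ω s i) := by
  classical
  have hinv : Inv2 ω := by
    have hω' := Finset.mem_product.1 hω
    exact ⟨(mem_PM.1 hω'.1).invol, (mem_PM.1 hω'.2).invol⟩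
  unfold go
  split_ifs with h
  · exact same_iter ω s i
  · induction i with
    | zero => exact same_refl _ _
    | succ n ih =>
      rw [Function.iterate_succ_apply']
      refine same_trans ih ?_
      unfold SW.pre
      split_ifs
      exacts [same_snd ω _, same_fst ω _]

theorem go_zero (ω : Conf) (s : Pt) : go ω s 0 = s := by
  classical
  unfold go
  split_ifs <;> rfl

/-- partners of the points of the path -/
theorem go_partner (hω : ω ∈ DD V) {s : Pt} (hs : ω.1 s ≠ ω.2 s) {j : ℕ} {b : Pt}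
    (h : b = ω.1 (go ω s j) ∨ b = ω.2 (go ω s j)) :
    b = go ω s (j + 1) ∨ (1 ≤ j ∧ b = go ω s (j - 1)) ∨ (j = 0 ∧ Adj b s) := by
  classical
  have hsV := TC.mem_of_ne hω hs
  have hadj : ∀ b, (b = ω.1 s ∨ b = ω.2 s) → Adj b s := by
    rintro b (rfl | rfl)
    · exact SW.adj_symm ((TC.pm1 hω).adj s hsV)
    · exact SW.adj_symm ((TC.pm2 hω).adj s hsV)
  unfold go at h ⊢
  by_cases hc : SW.suc ω s = (s.1 + 1, s.2) ∨ (SW.pre ω s ≠ (s.1 + 1, s.2) ∧
      SW.suc ω s = (s.1, s.2 + 1))
  · simp only [if_pos hc] at h ⊢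
    rcases partner_cases ω _ _ h with h1 | h1
    · left
      rw [h1, Function.iterate_succ_apply']
    · right
      cases j with
      | zero =>
        right
        exact ⟨rfl, hadj b (by simpa using h)⟩
      | succ j =>
        left
        refine ⟨by omega, ?_⟩
        rw [h1, Function.iterate_succ_apply', TC.pre_suc' hω (TC.ne_iter hω hs j)]
        rfl
  · simp only [if_neg hc] at h ⊢
    have hne : ∀ j, ω.1 ((SW.pre ω)^[j] s) ≠ ω.2 ((SW.pre ω)^[j] s) := by
      intro j
      induction j with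
      | zero => exact hs
      | succ j ih =>
        rw [Function.iterate_succ_apply']
        exact TC.ne_pre hω ih
    rcases partner_cases ω _ _ h with h1 | h1
    · right
      cases j with
      | zero =>
        right
        exact ⟨rfl, hadj b (by simpa using h)⟩
      | succ j =>
        left
        refine ⟨by omega, ?_⟩
        rw [h1, Function.iterate_succ_apply', TC.suc_pre' hω (hne j)]
        rfl
    · left
      rw [h1, Function.iterate_succ_apply']

/-- the wall is near the line or next to the tip -/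
theorem wall_eti (hω : ω ∈ DD V) {t : ℤ} {i : ℕ} (hs : ω.1 (xS, t) ≠ ω.2 (xS, t)) {b : Pt}
    (hb : b ∈ Wall ω (Eti xS ω t i)) : |b.1 - xS| ≤ 1 ∨ b = go ω (xS, t) (i + 1) := by
  obtain ⟨hbE, a, ha, h⟩ := hb
  rcases ha with ha | ⟨j, hj, rfl⟩
  · exfalso
    apply hbE
    left
    obtain ⟨y, hy, hv⟩ := ha
    refine ⟨y, hy, ?_⟩
    rcases h with rfl | rfl
    · exact same_trans hv (same_fst ω a)
    · exact same_trans hv (same_snd ω a)
  · rcases go_partner hω hs h with h1 | ⟨h0, h1⟩ | ⟨h0, h1⟩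
    · by_cases hji : j + 1 ≤ i
      · exact absurd (Or.inr ⟨j + 1, hji, h1⟩) hbE
      · have : j = i := by omega
        right
        rw [h1, this]
    · exact absurd (Or.inr ⟨j - 1, by omega, h1⟩) hbE
    · left
      unfold Adj at h1
      have h2 := abs_nonneg (b.2 - (xS, t).2)
      simp only at h1 h2
      omega

theorem far_line {x z : Pt} {r : ℕ} (hz : z ∈ box x r) (hx : (r : ℤ) + 1 < |x.1 - xS|) :
    1 < |z.1 - xS| := by
  rw [mem_box'] at hz
  have h1 := abs_sub_abs_le_abs_sub (x.1 - xS) (x.1 - z.1)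
  have h2 : x.1 - xS - (x.1 - z.1) = z.1 - xS := by ring
  rw [h2] at h1
  have h3 := hz.1
  rw [abs_sub_comm] at h3
  linarith

/-- **`GoodPt` for a stopping time**: every point far from the line, from the tip and from the
outside of the polygon is good. -/
theorem goodPt {T : Temp} {τ : Stop T.V xS} (hω : ω ∈ DD T.V) (hN : τ.New ω) {H : Pt → ℝ}
    (hH : τ.IsH T ω H) {ρ0 D : ℕ} {x : Pt} (hD : D + 1 ≤ ρ0) (h1 : (ρ0 : ℤ) + 1 < |x.1 - xS|)
    (h2 : ρ0 < dn x (go ω (xS, τ.t ω) (τ.i ω + 1))) (h3 : ∀ y ∈ box x D, y ∈ T.faceSet) :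
    GoodPt T ω (τ.E ω) (Wall ω (τ.E ω)) (τ.L ω) H ρ0 D x := by
  classical
  have hline : ∀ y : ℤ, (xS, y) ∉ box x ρ0 := by
    intro y hy
    have := far_line hy h1
    simp at this
  constructor
  · intro z hz hW
    rcases wall_eti hω hN.1 hW with h | h
    · have := far_line hz h1
      omega
    · rw [mem_box_dn905, h] at hz
      omega
  · exact h3
  · intro y _ hT
    have hy : y ∉ OE T (τ.E ω) := fun h => h.2 hT
    have := hH.2 y hy
    unfold Stop.bd at this
    rw [this]
  · intro v' hv' _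
    rcases hv' with ⟨y, _, hv⟩ | ⟨j, _, rfl⟩
    · have hinv : Inv2 ω := by
        have hω' := Finset.mem_product.1 hω
        exact ⟨(mem_PM.1 hω'.1).invol, (mem_PM.1 hω'.2).invol⟩
      exact ⟨(xS, y), same_symm hinv hv, hline y⟩
    · have hinv : Inv2 ω := by
        have hω' := Finset.mem_product.1 hω
        exact ⟨(mem_PM.1 hω'.1).invol, (mem_PM.1 hω'.2).invol⟩
      exact ⟨(xS, τ.t ω), same_symm hinv (go_same ω _ hω j), hline _⟩
  · exact ⟨(xS, τ.t ω), same_refl _ _, hline _⟩

end Vale.Agent.P155.NT905
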