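import Vale.Agent.P155.NT905.Good
import Vale.Agent.P155.NT905.Low

/-!
# P155, NT: layer evaluation with a zone (near the outside of the polygon) in which only visits
of `L` are counted
-/

namespace Vale.Agent.P155.NT905

open Finset SW HT T905 T802 G45 J H904 H12 NT

open Classical in
/-- layer value at a point near which `L` does not pass -/
theorem lay_free {β : ℝ} (hβ : 0 < β) (hSD : SupDecay 2 β) {V : Finset Pt} {ω : Conf}
    (hω : ω ∈ DD V) {L : Set Pt} (hL : L ∈ Loops ω) {O : Set Pt} (hCP : CPr O) {H : Pt → ℝ}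
    (h01 : ∀ x, 0 ≤ H x ∧ H x ≤ 1) (harm : ∀ x ∈ O, lap H x = 0)
    (hbd : ∀ y, y ∉ O → H y = (if surr ω L y then 1 else 0)) {x p : Pt} {D k : ℕ} (hx : x ∈ O)
    (hp : p ∉ O) (hk : dn x p ≤ k) (hkD : 2 * k ≤ D) (hno : ∀ v ∈ L, v ∉ box x (D + 1)) :
    |H x - (if surr ω L x then 1 else 0)| ≤ 2 * (((k : ℝ) + 1) / ((D - k : ℕ) + 1)) ^ β := by
  have hbox : ∀ z, dn p z ≤ D - k → z ∈ box x D := by
    intro z hz
    rw [mem_box_dn905]
    have := H904.dn_tri x p z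
    omega
  have hpx : dn p x ≤ D - k := by
    rw [H904.dn_comm]; omega
  have aux : ∀ a b, a ∈ box x D → Adj a b → surr ω L a → surr ω L b := by
    intro a b haB hab hsa
    by_contra hsb
    obtain ⟨u, w, hu, hw, _, _, hs1, hs2, _, _⟩ := A1.L_step hω hL hab hsa hsb
    exact hno u hu (corners_box (corner_mem_corners hs1.1) haB)
  have hiff : ∀ a b, a ∈ box x D → b ∈ box x D → Adj a b →
      (surr ω L b ↔ surr ω L a) := fun a b ha hb hab =>
    ⟨aux b a hb (SW.adj_symm hab), aux a b ha hab⟩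
  have hsub := Kc_sub (O := O) (p := p) (R := D - k) hx hpx
  have hK : ∀ z ∈ Kc O p (D - k) x, (surr ω L z ↔ surr ω L x) := by
    intro z hz
    induction hz with
    | refl => exact Iff.rfl
    | @tail b c hb hc ih =>
      have hb' := hsub b hb
      rw [← ih]
      exact hiff b c (hbox b hb'.2) (hbox c hc.2.2) hc.1
  have hv : 0 ≤ (if surr ω L x then (1 : ℝ) else 0) ∧ (if surr ω L x then (1 : ℝ) else 0) ≤ 1 := by
    split_ifs <;> norm_num
  have h3 := near_val (H := H) hSD hCP h01 harm hp hx hpx hv (fun z hz hzR y hy hyO => by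
    have hz' := hsub z hz
    have hyR : dn p y ≤ D - k := by
      have h1 := H904.dn_tri p z y
      have h2 := dn_adj905 hy
      omega
    have hyB := hbox y hyR
    rw [hbd y hyO]
    have := (hiff z y (hbox z hz'.2) hyB hy).trans (hK z hz)
    by_cases h5 : surr ω L x
    · rw [if_pos h5, if_pos (this.2 h5)]
    · rw [if_neg h5, if_neg (fun h => h5 (this.1 h))])
  refine h3.trans ?_
  apply mul_le_mul_of_nonneg_left _ (by norm_num)
  apply Real.rpow_le_rpow (by positivity)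
  · apply div_le_div_of_nonneg_right _ (by positivity)
    have : dn p x ≤ k := by rw [H904.dn_comm]; exact hk
    have : (dn p x : ℝ) ≤ k := by exact_mod_cast this
    linarith
  · exact hβ.le

open Classical in
/-- **deterministic layer evaluation**, three classes of layer points: `Bad` (counted), `Zone`
(counted if `L` passes), all others `GoodPt` (counted if there are two strands) -/
theorem layer_sum2 {β : ℝ} (hβ : 0 < β) (hSD : SupDecay 2 β) {T : Temp} {V : Finset Pt} {ω : Conf}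
    (hω : ω ∈ DD V) {E W L : Set Pt} (hL : L ∈ Loops ω) (hO : (OE T E).Finite)
    (hCP : CPr (OE T E)) {H : Pt → ℝ} (h01 : ∀ x, 0 ≤ H x ∧ H x ≤ 1)
    (harm : ∀ x ∈ OE T E, lap H x = 0)
    (hbd : ∀ y, y ∉ OE T E → H y = (if surr ω L y then 1 else 0))
    (hE : ∀ a ∈ E, ∀ b, b ∉ W → (b = ω.1 a ∨ b = ω.2 a) → b ∈ E) {ρ0 D s : ℕ} {Bad Zone : Set Pt}
    (hG : ∀ x ∈ OE T E, x ∉ Bad → x ∉ Zone → GoodPt T ω E W L H ρ0 D x)
    (hs : 1 ≤ s) (hsD : 4 * s ≤ D) {C0 : ℝ} {φ u χ : Pt → ℝ} (hχ : IsCut (OE T E) s C0 χ)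
    (hu : IsGreen (OE T E) φ u) :
    |mass ω (fL (OE T E) φ χ u) L - ∑ x ∈ hO.toFinset, φ x * H x| ≤
      ∑ x ∈ hO.toFinset, (if x ∈ Bad then |fL (OE T E) φ χ u x| else 0) +
      ∑ x ∈ hO.toFinset, (if x ∉ Bad ∧ x ∈ Zone ∧ ∃ v ∈ L, v ∈ box x (D + 1)
        then |fL (OE T E) φ χ u x| else 0) +
      ∑ x ∈ hO.toFinset, (if x ∉ Bad ∧ x ∉ Zone ∧ TwoVisit (fun _ : Fin 1 => box x (D + 1))
        (res V (box x ρ0) ω) then |fL (OE T E) φ χ u x| else 0) +
      2 * ((2 * (s : ℝ) + 1) / ((D - 2 * s : ℕ) + 1)) ^ β *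
        ∑ x ∈ hO.toFinset, |fL (OE T E) φ χ u x| := by
  rw [← sum_fL_mul hO hs hχ hu harm, mass_eq_sum (fL_zero_off hO hs hχ hu), ← Finset.sum_sub_distrib,
    Finset.mul_sum, ← Finset.sum_add_distrib, ← Finset.sum_add_distrib, ← Finset.sum_add_distrib]
  refine (Finset.abs_sum_le_sum_abs _ _).trans (Finset.sum_le_sum fun x hx => ?_)
  rw [Set.Finite.mem_toFinset] at hx
  set f := fL (OE T E) φ χ u x with hf
  have e1 : f * (if surr ω L x then (1 : ℝ) else 0) - f * H x =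
      f * ((if surr ω L x then (1 : ℝ) else 0) - H x) := by ring
  rw [e1, abs_mul]
  have hq0 : 0 ≤ 2 * ((2 * (s : ℝ) + 1) / ((D - 2 * s : ℕ) + 1)) ^ β := by positivity
  have hle1 : |(if surr ω L x then (1 : ℝ) else 0) - H x| ≤ 1 := by
    obtain ⟨h1, h2⟩ := h01 x
    split_ifs <;> rw [abs_le] <;> constructor <;> linarith
  by_cases hf0 : f = 0
  · rw [hf0]; simp
  obtain ⟨-, hdF⟩ := fL_supp (exists_notMem hO) hs hχ hu (hf ▸ hf0)
  have hfn : 0 ≤ |f| := abs_nonneg f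
  have hm1 : |f| * |(if surr ω L x then (1 : ℝ) else 0) - H x| ≤ |f| :=
    mul_le_of_le_one_right hfn hle1
  have hm2 := mul_nonneg hq0 hfn
  have n2 : (0 : ℝ) ≤ (if x ∉ Bad ∧ x ∈ Zone ∧ ∃ v ∈ L, v ∈ box x (D + 1) then |f| else 0) := by
    split_ifs <;> simp
  have n3 : (0 : ℝ) ≤ (if x ∉ Bad ∧ x ∉ Zone ∧ TwoVisit (fun _ : Fin 1 => box x (D + 1))
      (res V (box x ρ0) ω) then |f| else 0) := by split_ifs <;> simp
  have n1 : (0 : ℝ) ≤ (if x ∈ Bad then |f| else 0) := by split_ifs <;> simp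
  by_cases hB : x ∈ Bad
  · have e2 : (if x ∈ Bad then |f| else 0) = |f| := if_pos hB
    rw [e2]
    linarith
  obtain ⟨p, hp, hxp⟩ := H904.exists_dF (exists_notMem hO) x
  by_cases hZ : x ∈ Zone
  · by_cases hv : ∃ v ∈ L, v ∈ box x (D + 1)
    · have e2 : (if x ∉ Bad ∧ x ∈ Zone ∧ ∃ v ∈ L, v ∈ box x (D + 1) then |f| else 0) = |f| :=
        if_pos ⟨hB, hZ, hv⟩
      rw [e2]
      linarith
    · push Not at hv
      have key := lay_free hβ hSD hω hL hCP h01 harm hbd (k := 2 * s) (D := D) hx hp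
        (by omega) (by omega) hv
      rw [abs_sub_comm] at key
      push_cast at key
      have := mul_le_mul_of_nonneg_right key hfn
      rw [mul_comm |f|]
      linarith
  by_cases hT : TwoVisit (fun _ : Fin 1 => box x (D + 1)) (res V (box x ρ0) ω)
  · have e3 : (if x ∉ Bad ∧ x ∉ Zone ∧ TwoVisit (fun _ : Fin 1 => box x (D + 1))
        (res V (box x ρ0) ω) then |f| else 0) = |f| := if_pos ⟨hB, hZ, hT⟩
    rw [e3]
    linarith
  have g := hG x hx hB hZ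
  have key := lay_H hβ hSD hω hL hCP h01 harm hE (B := box x ρ0) g.wall (k := 2 * s) hx hp
    (by omega) (by omega) g.face g.val g.strand g.loop hT
  rw [abs_sub_comm] at key
  push_cast at key
  have := mul_le_mul_of_nonneg_right key hfn
  rw [mul_comm |f|]
  linarith

variable {xS : ℤ}

/-- points which are not evaluated: near the line or near the next point of the path -/
def BadS (ω : Conf) {V : Finset Pt} (τ : Stop V xS) (ρ0 : ℕ) : Set Pt :=
  {x | |x.1 - xS| ≤ (ρ0 : ℤ) + 1 ∨ dn x (go ω (xS, τ.t ω) (τ.i ω + 1)) ≤ ρ0}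

theorem face_of_dF {P : Set Pt} {x : Pt} {D : ℕ} (h : D < dF P x) : ∀ y ∈ box x D, y ∈ P := by
  intro y hy
  by_contra hc
  have h1 := H904.dF_le (x := x) hc
  rw [mem_box_dn905] at hy
  omega

open Classical in
/-- **layer evaluation for a stopping time** -/
theorem layer_stop {β : ℝ} (hβ : 0 < β) (hSD : SupDecay 2 β) {T : Temp} {τ : Stop T.V xS}
    {ω : Conf} (hω : ω ∈ DD T.V) (hN : τ.New ω) (hO : (OE T (τ.E ω)).Finite)
    (hCP : CPr (OE T (τ.E ω))) {H : Pt → ℝ} (hH : τ.IsH T ω H)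
    (h01 : ∀ x, 0 ≤ H x ∧ H x ≤ 1) {ρ0 D s : ℕ} {r1 : ℝ} (hD : D + 1 ≤ ρ0) (hr1 : (D : ℝ) < r1)
    (hs : 1 ≤ s) (hsD : 4 * s ≤ D) {C0 : ℝ} {φ u χ : Pt → ℝ} (hχ : IsCut (OE T (τ.E ω)) s C0 χ)
    (hu : IsGreen (OE T (τ.E ω)) φ u) :
    |mass ω (fL (OE T (τ.E ω)) φ χ u) (τ.L ω) - ∑ x ∈ hO.toFinset, φ x * H x| ≤
      ∑ x ∈ hO.toFinset, (if x ∈ BadS ω τ ρ0 then |fL (OE T (τ.E ω)) φ χ u x| else 0) +
      ∑ x ∈ hO.toFinset, (if x ∉ BadS ω τ ρ0 ∧ dF T.faceSet x < r1 ∧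
        ∃ v ∈ τ.L ω, v ∈ box x (D + 1) then |fL (OE T (τ.E ω)) φ χ u x| else 0) +
      ∑ x ∈ hO.toFinset, (if x ∉ BadS ω τ ρ0 ∧ ¬ (dF T.faceSet x < r1) ∧
        TwoVisit (fun _ : Fin 1 => box x (D + 1))
        (res T.V (box x ρ0) ω) then |fL (OE T (τ.E ω)) φ χ u x| else 0) +
      2 * ((2 * (s : ℝ) + 1) / ((D - 2 * s : ℕ) + 1)) ^ β *
        ∑ x ∈ hO.toFinset, |fL (OE T (τ.E ω)) φ χ u x| := by
  refine layer_sum2 hβ hSD hω (new_mem hω hN) hO hCP h01 hH.1 (W := Wall ω (τ.E ω)) ?_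
    (wall_closed ω _) (Bad := BadS ω τ ρ0) (Zone := {x | (dF T.faceSet x : ℝ) < r1}) ?_ hs hsD hχ hu
  · intro y hy
    have := hH.2 y hy
    unfold Stop.bd at this
    exact this
  · intro x _ hB hZ
    have h1 : (ρ0 : ℤ) + 1 < |x.1 - xS| := by
      by_contra hc
      exact hB (Or.inl (by omega))
    have h2 : ρ0 < dn x (go ω (xS, τ.t ω) (τ.i ω + 1)) := by
      by_contra hc
      exact hB (Or.inr (by omega))
    refine goodPt hω hN hH hD h1 h2 (face_of_dF ?_)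
    have h3 : ¬ ((dF T.faceSet x : ℝ) < r1) := hZ
    have h4 : (D : ℝ) < dF T.faceSet x := by linarith [not_lt.1 h3]
    exact_mod_cast h4

end Vale.Agent.P155.NT905
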