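import Vale.Agent.P155.NT905.UnxDet
import Vale.Agent.P155.NT743.FMStop

/-!
# P155, NT, V1: splitting of `∑_A m_A(f_t) m_A(φ)` over the three types of loops
-/

namespace Vale.Agent.P155.NT905

open Finset SW HT T905 T802 T862 G45 J H904 H12 NT E4 S862 NT743 S743

variable {V : Finset Pt} {ω : Conf} {xS t : ℤ} {i : ℕ}

open Classical in
/-- **explored loops**: no mass -/
theorem mass_expl_zero {T : Temp} (hω : ω ∈ DD V) {E A : Set Pt} (hA : A ∈ Loops ω) (hAE : A ⊆ E)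
    {w : Pt → ℝ} (hw : ∀ x, x ∉ OE T E → w x = 0) (hfin : w.support.Finite) :
    mass ω (lap w) A = 0 := by
  unfold mass
  rw [J.finsum_lap hfin (fun x => if surr ω A x then (1 : ℝ) else 0)]
  have h0 : ∀ x, w x * lap (fun x => if surr ω A x then (1 : ℝ) else 0) x = 0 := by
    intro x
    by_cases hx : x ∈ OE T E
    swap
    · rw [hw x hx, zero_mul]
    have key : ∀ y, Adj x y → (surr ω A y ↔ surr ω A x) := by
      intro y hxy
      constructor
      · intro hy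
        by_contra hn
        obtain ⟨u, v, hu, -, -, -, -, hs2, -, -⟩ := A1.L_step hω hA (SW.adj_symm hxy) hy hn
        exact hx.2 ⟨u, corner_mem_corners hs2.1, hAE hu⟩
      · intro hy
        by_contra hn
        obtain ⟨u, v, hu, -, -, -, hs1, -, -, -⟩ := A1.L_step hω hA hxy hy hn
        exact hx.2 ⟨u, corner_mem_corners hs1.1, hAE hu⟩
    obtain ⟨a1, a2, a3, a4⟩ := adj4 x
    have hl : lap (fun x => if surr ω A x then (1 : ℝ) else 0) x = 0 := by
      unfold lap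
      simp only [key _ a1, key _ a2, key _ a3, key _ a4]
      ring
    rw [hl, mul_zero]
  rw [finsum_congr h0, finsum_zero]

/-- the three types of loops at a stopping time -/
theorem loop_types {τ : Stop V xS} (hω : ω ∈ DD V) {A : Set Pt} (hA : A ∈ Loops ω) :
    A = τ.L ω ∨ Unx (τ.E ω) A ∨ A ⊆ τ.E ω := by
  by_cases h : Unx (τ.E ω) A
  · exact Or.inr (Or.inl h)
  unfold Unx at h
  push Not at h
  obtain ⟨v, hvE, hvA⟩ := h
  have hAc := L.loop_eq_comp hω hA hvA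
  have hinv : Inv2 ω := by
    have hω' := Finset.mem_product.1 hω
    exact ⟨(mem_PM.1 hω'.1).invol, (mem_PM.1 hω'.2).invol⟩
  rcases hvE with ⟨y, hy, hv⟩ | ⟨j, _, rfl⟩
  · right; right
    intro u hu
    left
    rw [hAc] at hu
    exact ⟨y, hy, same_trans hv hu⟩
  · left
    have h1 : go ω (xS, τ.t ω) j ∈ τ.L ω := go_same ω _ hω j
    have hL : τ.L ω ∈ Loops ω := by
      obtain ⟨a, ha, rfl⟩ := hA
      have h2 : go ω (xS, τ.t ω) j ∈ comp ω a := hvA
      refine ⟨(xS, τ.t ω), ?_, rfl⟩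
      have h3 : Same ω (xS, τ.t ω) a := same_trans (go_same ω _ hω j) (same_symm hinv h2)
      exact L.loop_ne hω ⟨a, ha, rfl⟩ (same_symm hinv h3)
    rw [L.loop_eq_comp hω hL h1]
    exact hAc

theorem not_unx_L {τ : Stop V xS} : ¬ Unx (τ.E ω) (τ.L ω) := fun h =>
  h (xS, τ.t ω) (Or.inr ⟨0, Nat.zero_le _, (NT905.go_zero _ _).symm⟩) (same_refl _ _)

open Classical in
/-- a sum over all loops at a stopping time, when explored loops do not contribute -/
theorem sum_types {τ : Stop V xS} (hω : ω ∈ DD V) (hN : τ.New ω) {F : Set Pt → ℝ}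
    (h0 : ∀ A ∈ Loops ω, A ⊆ τ.E ω → A ≠ τ.L ω → F A = 0) :
    ∑ A ∈ LF ω, F A = F (τ.L ω) + ∑ A ∈ (LF ω).filter (fun A => Unx (τ.E ω) A), F A := by
  have hLF : τ.L ω ∈ LF ω := (mem_LF hω).2 (new_mem hω hN)
  rw [← Finset.add_sum_erase _ _ hLF]
  congr 1
  symm
  apply Finset.sum_subset
  · intro A hA
    obtain ⟨h1, h2⟩ := mem_filter.1 hA
    rw [Finset.mem_erase]
    exact ⟨fun h => not_unx_L (h ▸ h2), h1⟩
  · intro A hA hA2
    obtain ⟨h1, h2⟩ := Finset.mem_erase.1 hA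
    have hAL := (mem_LF hω).1 h2
    rcases loop_types (τ := τ) hω hAL with h | h | h
    · exact absurd h h1
    · exact absurd (mem_filter.2 ⟨h2, h⟩) hA2
    · exact h0 A hAL h h1

/-- the function `Δ(χ u)` is the layer function minus `φ` -/
theorem ff_eq {T : Temp} {E : Conf → Set Pt} {φ : Conf → Pt → ℝ} {s : ℕ} (hs : 8 ≤ s)
    (hφ : ∀ x, x ∉ OE T (E ω) → φ ω x = 0) (x : Pt) :
    ff T E φ s ω x = gL T E φ s ω x - φ ω x := by
  have hO := oe_finite T (E ω)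
  have hcut : IsCut (OE T (E ω)) s (32 ^ 4) (cutf (OE T (E ω)) s) :=
    cutf_isCut (exists_notMem hO) hs le_rfl
  have h0 := fL_zero_off hO (by omega : 1 ≤ s) hcut (pot_spec hO (φ ω)) x
  unfold gL ff
  by_cases hx : x ∈ OE T (E ω)
  · unfold fL
    rw [if_pos hx]
    ring
  · rw [hφ x hx, sub_zero]
    have h1 := h0 (by rw [Set.Finite.mem_toFinset]; exact hx)
    rw [h1]
    unfold fL at h1
    rw [if_neg hx, zero_add] at h1
    exact h1

theorem mass_sub {f g : Pt → ℝ} {S : Finset Pt} (hf : ∀ x, x ∉ S → f x = 0)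
    (hg : ∀ x, x ∉ S → g x = 0) (A : Set Pt) :
    mass ω (fun x => f x - g x) A = mass ω f A - mass ω g A := by
  classical
  rw [mass_eq_sum hf, mass_eq_sum hg, mass_eq_sum (s := S) (f := fun x => f x - g x)
    (fun x hx => by rw [hf x hx, hg x hx, sub_zero]), ← Finset.sum_sub_distrib]
  refine Finset.sum_congr rfl fun x _ => ?_
  ring

open Classical in
/-- **one time**: the sum over all loops of the products of the masses of `Δ(χu)` and of `φ` -/
theorem cov_one {T : Temp} {τ : Stop T.V xS} (hω : ω ∈ DD T.V) (hN : τ.New ω)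
    {φ : Conf → Pt → ℝ} {s : ℕ} (hs : 8 ≤ s) (hφ : ∀ x, x ∉ OE T (τ.E ω) → φ ω x = 0) :
    ∑ A ∈ LF ω, mass ω (ff T τ.E φ s ω) A * mass ω (φ ω) A =
      (mass ω (gL T τ.E φ s ω) (τ.L ω) - mass ω (φ ω) (τ.L ω)) * mass ω (φ ω) (τ.L ω) +
      ∑ A ∈ (LF ω).filter (fun A => Unx (τ.E ω) A),
        (mass ω (gL T τ.E φ s ω) A - mass ω (φ ω) A) * mass ω (φ ω) A := by
  have hO := oe_finite T (τ.E ω)
  have hcut : IsCut (OE T (τ.E ω)) s (32 ^ 4) (cutf (OE T (τ.E ω)) s) :=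
    cutf_isCut (exists_notMem hO) hs le_rfl
  have hg0 : ∀ x, x ∉ hO.toFinset → gL T τ.E φ s ω x = 0 :=
    fL_zero_off hO (by omega : 1 ≤ s) hcut (pot_spec hO (φ ω))
  have hφ0 : ∀ x, x ∉ hO.toFinset → φ ω x = 0 := fun x hx => hφ x (by
    rw [Set.Finite.mem_toFinset] at hx; exact hx)
  have hm : ∀ A, mass ω (ff T τ.E φ s ω) A = mass ω (gL T τ.E φ s ω) A - mass ω (φ ω) A := by
    intro A
    rw [← mass_sub hg0 hφ0]
    congr 1
    funext x
    exact ff_eq hs hφ x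
  rw [sum_types hω hN (F := fun A => mass ω (ff T τ.E φ s ω) A * mass ω (φ ω) A)]
  · simp only [hm]
  · intro A hA hAE _
    have h1 : mass ω (ff T τ.E φ s ω) A = 0 := by
      unfold ff
      refine mass_expl_zero (T := T) (E := τ.E ω) hω hA hAE ?_ ?_
      · intro x hx
        rw [(pot_spec hO (φ ω)).off x hx, mul_zero]
      · refine hO.subset ?_
        intro x hx
        rw [Function.mem_support] at hx
        by_contra h
        exact hx (by rw [(pot_spec hO (φ ω)).off x h, mul_zero])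
    rw [h1, zero_mul]

theorem unx_eq {τ σ : Stop V xS} (hω : ω ∈ DD V) (ht : σ.t ω = τ.t ω) (hi : τ.i ω ≤ σ.i ω)
    {A : Set Pt} (hA : A ∈ Loops ω) : Unx (σ.E ω) A ↔ Unx (τ.E ω) A := by
  have hL : σ.L ω = τ.L ω := by unfold Stop.L; rw [ht]
  constructor
  · intro h v hv
    refine h v ?_
    rcases hv with hv | ⟨j, hj, hv⟩
    · left; rw [ht]; exact hv
    · right; exact ⟨j, hj.trans hi, by rw [ht]; exact hv⟩
  · intro h v hv hvA
    rcases hv with hv | ⟨j, hj, hv⟩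
    · exact h v (Or.inl (by rw [← ht]; exact hv)) hvA
    · have h1 : v ∈ τ.L ω := by
        rw [hv, ← hL]
        exact go_same ω _ hω j
      have hLL : τ.L ω ∈ Loops ω := by
        rw [L.loop_eq_comp hω hA hvA] at hA
        have h2 : comp ω v ∈ Loops ω := hA
        have hinv : Inv2 ω := by
          have hω' := Finset.mem_product.1 hω
          exact ⟨(mem_PM.1 hω'.1).invol, (mem_PM.1 hω'.2).invol⟩
        refine ⟨(xS, τ.t ω), ?_, rfl⟩
        exact L.loop_ne hω h2 (same_symm hinv h1)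
      have h3 : A = τ.L ω := by
        rw [L.loop_eq_comp hω hA hvA, L.loop_eq_comp hω hLL h1]
      exact not_unx_L (h3 ▸ h)

open Classical in
/-- **two times of the same loop** -/
theorem cov_two {T : Temp} {τ σ : Stop T.V xS} (hω : ω ∈ DD T.V) (hN : τ.New ω) (hN' : σ.New ω)
    (ht : σ.t ω = τ.t ω) (hi : τ.i ω ≤ σ.i ω)
    {φ : Conf → Pt → ℝ} {s : ℕ} (hs : 8 ≤ s) (hφ : ∀ x, x ∉ OE T (σ.E ω) → φ ω x = 0) :
    |(∑ A ∈ LF ω, mass ω (ff T σ.E φ s ω) A * mass ω (φ ω) A -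
        ∑ A ∈ LF ω, mass ω (ff T τ.E φ s ω) A * mass ω (φ ω) A) -
      (mass ω (gL T σ.E φ s ω) (τ.L ω) - mass ω (gL T τ.E φ s ω) (τ.L ω)) *
        mass ω (φ ω) (τ.L ω)| ≤
      ∑ A ∈ (LF ω).filter (fun A => Unx (σ.E ω) A),
        |mass ω (gL T σ.E φ s ω) A * mass ω (φ ω) A| +
      ∑ A ∈ (LF ω).filter (fun A => Unx (τ.E ω) A),
        |mass ω (gL T τ.E φ s ω) A * mass ω (φ ω) A| := by
  have hL : σ.L ω = τ.L ω := by unfold Stop.L; rw [ht]
  have hE : τ.E ω ⊆ σ.E ω := by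
    rintro v (hv | ⟨j, hj, hv⟩)
    · left; rw [ht]; exact hv
    · right; exact ⟨j, hj.trans hi, by rw [ht]; exact hv⟩
  have hφτ : ∀ x, x ∉ OE T (τ.E ω) → φ ω x = 0 := by
    intro x hx
    refine hφ x fun h => hx ⟨h.1, fun h2 => h.2 ?_⟩
    obtain ⟨v, h3, h4⟩ := h2
    exact ⟨v, h3, hE h4⟩
  have hfilt : (LF ω).filter (fun A => Unx (σ.E ω) A) = (LF ω).filter (fun A => Unx (τ.E ω) A) := by
    refine Finset.filter_congr fun A hA => ?_
    exact unx_eq hω ht hi ((mem_LF hω).1 hA)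
  rw [cov_one hω hN hs hφτ, cov_one hω hN' hs hφ, hL, hfilt]
  have e : (mass ω (gL T σ.E φ s ω) (τ.L ω) - mass ω (φ ω) (τ.L ω)) * mass ω (φ ω) (τ.L ω) +
        ∑ A ∈ (LF ω).filter (fun A => Unx (τ.E ω) A),
          (mass ω (gL T σ.E φ s ω) A - mass ω (φ ω) A) * mass ω (φ ω) A -
      ((mass ω (gL T τ.E φ s ω) (τ.L ω) - mass ω (φ ω) (τ.L ω)) * mass ω (φ ω) (τ.L ω) +
        ∑ A ∈ (LF ω).filter (fun A => Unx (τ.E ω) A),
          (mass ω (gL T τ.E φ s ω) A - mass ω (φ ω) A) * mass ω (φ ω) A) -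
      (mass ω (gL T σ.E φ s ω) (τ.L ω) - mass ω (gL T τ.E φ s ω) (τ.L ω)) *
        mass ω (φ ω) (τ.L ω) =
      ∑ A ∈ (LF ω).filter (fun A => Unx (τ.E ω) A),
        (mass ω (gL T σ.E φ s ω) A * mass ω (φ ω) A - mass ω (gL T τ.E φ s ω) A *
          mass ω (φ ω) A) := by
    have e1 : ∀ A, mass ω (gL T σ.E φ s ω) A * mass ω (φ ω) A - mass ω (gL T τ.E φ s ω) A *
          mass ω (φ ω) A = (mass ω (gL T σ.E φ s ω) A - mass ω (φ ω) A) * mass ω (φ ω) A -
          (mass ω (gL T τ.E φ s ω) A - mass ω (φ ω) A) * mass ω (φ ω) A := fun A => by ring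
    simp only [e1]
    rw [Finset.sum_sub_distrib]
    ring
  rw [e, ← Finset.sum_add_distrib]
  refine (Finset.abs_sum_le_sum_abs _ _).trans (Finset.sum_le_sum fun A _ => ?_)
  exact abs_sub _ _

end Vale.Agent.P155.NT905
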