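import Vale.Agent.P155.NT743.FMStop
import Vale.Agent.P155.V743.BME
import Vale.Agent.P155.NT905.CovSplit

/-!
# P155, NT, V1: first moment and bilinear second moment, with an error proportional to the
probability of the event
-/

namespace Vale.Agent.P155.NT905

open Finset SW HT T905 T802 J S743 G45 H904 H12 S862 E4 T862 NT NT743

variable {V : Finset Pt}

open Classical in
theorem ex_dom_const (Dom : Conf → Prop) (k : ℝ) :
    Ex V (fun ω => if Dom ω then k else 0) = k * Pr V Dom := by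
  rw [Vale.Agent.P155.E.Pr_eq_avg, Ex_eq_avg, ← avg_mul_left]
  refine avg_congr fun ω _ => ?_
  split_ifs <;> simp

open Classical in
theorem ex_dom_add (Dom : Conf → Prop) (f g : Conf → ℝ) :
    Ex V (fun ω => if Dom ω then f ω + g ω else 0) =
      Ex V (fun ω => if Dom ω then f ω else 0) + Ex V (fun ω => if Dom ω then g ω else 0) := by
  rw [← H12.Ex_add]
  congr 1
  funext ω
  split_ifs <;> simp

open Classical in
theorem ex_dom_mul (Dom : Conf → Prop) (k : ℝ) (f : Conf → ℝ) :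
    Ex V (fun ω => if Dom ω then k * f ω else 0) =
      k * Ex V (fun ω => if Dom ω then f ω else 0) := by
  rw [← H12.Ex_mul]
  congr 1
  funext ω
  split_ifs <;> simp

open Classical in
theorem ex_dom_mono {Dom : Conf → Prop} {f g : Conf → ℝ} (h : ∀ ω ∈ DD V, Dom ω → f ω ≤ g ω) :
    Ex V (fun ω => if Dom ω then f ω else 0) ≤ Ex V (fun ω => if Dom ω then g ω else 0) := by
  refine H12.Ex_mono fun ω hω => ?_
  by_cases hd : Dom ω
  · rw [if_pos hd, if_pos hd]; exact h ω hω hd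
  · rw [if_neg hd, if_neg hd]

open Classical in
/-- an error of the form `δ + E[B | X]` on an event -/
theorem ex_dom_err {X : Expl} (hX : IsExpl V X) {Dom : Conf → Prop} {F B : Conf → ℝ} {δ : ℝ}
    (hB : ∀ ω, 0 ≤ B ω) (h : ∀ ω ∈ DD V, Dom ω → F ω ≤ δ + cEx V X B ω) :
    Ex V (fun ω => if Dom ω then F ω else 0) ≤ δ * Pr V Dom + Ex V B := by
  have h1 := ex_dom_mono (V := V) (Dom := Dom) (f := F) (g := fun ω => δ + cEx V X B ω) h
  rw [ex_dom_add, ex_dom_const] at h1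
  have h2 : Ex V (fun ω => if Dom ω then cEx V X B ω else 0) ≤ Ex V (fun ω => cEx V X B ω) := by
    refine H12.Ex_mono fun ω _ => ?_
    have : 0 ≤ cEx V X B ω := cEx_nonneg (fun _ _ => hB _)
    split_ifs
    · exact le_rfl
    · exact this
  rw [Ex_cEx hX] at h2
  linarith

open Classical in
/-- **bilinear second moment**: tower property and signs -/
theorem cov_eval {X : Expl} {Dom : Conf → Prop} {f g : Conf → Pt → ℝ} (S : Stage V X Dom f)
    (S' : Stage V X Dom g) (K : Conf → ℝ) :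
    |Ex V (fun ω => if Dom ω then
        ∑ A ∈ LF ω, mass ω (f ω) A * mass ω (g ω) A + K ω else 0)| ≤
      Ex V (fun ω => if Dom ω then
        |cEx V X (fun ω' => hf ω' (f ω) * hf ω' (g ω)) ω + K ω| else 0) := by
  set Q : Conf → ℝ := fun ω => if Dom ω then 1 else 0 with hQ
  have hQU : UInv V Q := by
    intro ω hω ω' hω' h
    have : Dom ω' = Dom ω := S.domU ω hω ω' hω' h
    simp only [hQ, this]
  have key := sign_cov (V := V) Q (S743.cutD Dom f) (S743.cutD Dom g) hQU (S743.cutD_uinv S) (S743.cutD_uinv S')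
    (S743.cutD_fin S) (S743.cutD_fin S')
  have e1 : Ex V (fun ω => if Dom ω then ∑ A ∈ LF ω, mass ω (f ω) A * mass ω (g ω) A else 0) =
      Ex V (fun ω => Q ω * ∑ A ∈ LF ω, mass ω (S743.cutD Dom f ω) A * mass ω (S743.cutD Dom g ω) A) := by
    congr 1
    funext ω
    by_cases h1 : Dom ω
    · simp only [hQ, S743.cutD, if_pos h1, one_mul]
    · simp only [hQ, if_neg h1, zero_mul]
  have e3 : Ex V (fun ω => if Dom ω then cEx V X (fun ω' => hf ω' (f ω) * hf ω' (g ω)) ω else 0) =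
      Ex V (fun ω => Q ω * (hf ω (S743.cutD Dom f ω) * hf ω (S743.cutD Dom g ω))) := by
    rw [← Ex_cEx S.expl (fun ω => Q ω * (hf ω (S743.cutD Dom f ω) * hf ω (S743.cutD Dom g ω)))]
    rw [Ex_eq_avg, Ex_eq_avg]
    refine avg_congr fun ω hω => ?_
    by_cases h1 : Dom ω
    · rw [if_pos h1, cEx_eq_avg, cEx_eq_avg]
      refine avg_congr (fun a ha => ?_)
      have h2 : Dom a := (S.domA ω hω a ha).2 h1
      simp only [hQ, S743.cutD, if_pos h2, one_mul]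
      rw [S.fA ω hω h1 a ha, S'.fA ω hω h1 a ha]
    · rw [if_neg h1, cEx_eq_avg]
      rw [show (0 : ℝ) = avg (atom V X ω) (fun _ => (0 : ℝ)) from (avg_zero _).symm]
      refine avg_congr (fun a ha => ?_)
      have h2 : ¬ Dom a := fun h => h1 ((S.domA ω hω a ha).1 h)
      simp only [hQ, if_neg h2, zero_mul]
  rw [ex_dom_add, e1, ← key, ← e3, ← ex_dom_add]
  refine (abs_Ex_le _).trans (le_of_eq ?_)
  congr 1
  funext ω
  split_ifs
  · rfl
  · exact abs_zero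

open Classical in
/-- Schwinger-Dyson part -/
theorem fm_me_pr {C0 a a1 P : ℝ} (ha : 0 < a) (h4 : 4 * a ≤ a1) (h1 : a1 ≤ 1) :
    ∃ c : ℝ, 0 < c ∧ ∃ C : ℝ, 0 ≤ C ∧ ∃ R0 : ℕ, 1 ≤ R0 ∧ ∀ (R : ℕ) (T : Temp), R0 ≤ R →
    Skel.Fits T R → ∀ (X : Expl) (Dom : Conf → Prop) (E L : Conf → Set Pt) (φ : Conf → Pt → ℝ),
    FMd T X Dom E L φ → ∀ (n : ℕ) (p : Conf → Pt), (R : ℝ) ^ a1 ≤ n →
    (∀ ω ∈ DD T.V, Dom ω → p ω ∉ OE T (E ω) ∧ IsBump (p ω) n (C0 / (n : ℝ) ^ 2) (φ ω)) →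
    |Ex T.V (fun ω => if Dom ω then mass ω (ff T E φ ⌈(R : ℝ) ^ a⌉₊ ω) (L ω) else 0)| ≤
      C * (R : ℝ) ^ (-c) * Pr T.V Dom + C * (R : ℝ) ^ (-P) := by
  obtain ⟨c, hc, C, hC, R0, hR0, h⟩ := me2_holds C0 P a a1 ha h4 h1
  refine ⟨c, hc, C, hC, R0, hR0, ?_⟩
  intro R T hR hfit X Dom E L φ hd n p hn hb
  obtain ⟨B, hB0, hB, h⟩ := h R hR T hfit
  have h5 := first_eval (hd.stage ⌈(R : ℝ) ^ a⌉₊) hd.loop
  refine h5.trans ((ex_dom_err hd.expl hB0 (δ := C * (R : ℝ) ^ (-c)) ?_).trans ?_)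
  · intro ω hω h1
    obtain ⟨hp, hbump⟩ := hb ω hω h1
    exact (h X hd.expl ω hω (OE T (E ω)) (p ω) n (φ ω) (pot (OE T (E ω)) (φ ω))
      (fun f hf => hf.1) (hd.cp ω hω h1) hp (hd.hin ω hω h1) hn hbump
      (pot_spec (oe_finite T _) _)).1
  · linarith

open Classical in
/-- bilinear Schwinger-Dyson part -/
theorem bil_me_pr {C0 a a1 P : ℝ} (hC0 : 0 ≤ C0) (hP : 0 < P) (ha : 0 < a) (h4 : 4 * a ≤ a1)
    (h1 : a1 ≤ 1) :
    ∃ c : ℝ, 0 < c ∧ ∃ C : ℝ, 0 ≤ C ∧ ∃ R0 : ℕ, 1 ≤ R0 ∧ ∀ (R : ℕ) (T : Temp), R0 ≤ R →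
    Skel.Fits T R → ∀ (X : Expl) (Dom : Conf → Prop) (E L : Conf → Set Pt) (φ : Conf → Pt → ℝ),
    FMd T X Dom E L φ → ∀ (n : ℕ) (p : Conf → Pt), (R : ℝ) ^ a1 ≤ n →
    (∀ ω ∈ DD T.V, Dom ω → p ω ∉ OE T (E ω) ∧ IsBump (p ω) n (C0 / (n : ℝ) ^ 2) (φ ω)) →
    |Ex T.V (fun ω => if Dom ω then
        ∑ A ∈ LF ω, mass ω (ff T E φ ⌈(R : ℝ) ^ a⌉₊ ω) A * mass ω (φ ω) A +
        2 / Real.pi * pair (φ ω) (pot (OE T (E ω)) (φ ω)) else 0)| ≤
      C * (R : ℝ) ^ (-c) * Pr T.V Dom + C * (R : ℝ) ^ (-P) := by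
  obtain ⟨c, hc, C, hC, R0, hR0, h⟩ := V743.bme_holds C0 P a a1 hC0 hP ha h4 h1
  refine ⟨c, hc, C, hC, R0, hR0, ?_⟩
  intro R T hR hfit X Dom E L φ hd n p hn hb
  obtain ⟨B, hB0, hB, h⟩ := h R hR T hfit
  have hst : Stage T.V X Dom φ :=
    { expl := hd.expl
      domA := hd.domA
      fA := hd.φA
      domU := hd.domU
      fU := hd.φU
      fin := fun ω hω h1 => by
        refine (box (p ω) n).finite_toSet.subset fun x hx => ?_
        rw [Function.mem_support] at hx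
        by_contra hc'
        exact hx ((hb ω hω h1).2.1 x (by exact_mod_cast hc')) }
  have h5 := cov_eval (hd.stage ⌈(R : ℝ) ^ a⌉₊) hst
    (fun ω => 2 / Real.pi * pair (φ ω) (pot (OE T (E ω)) (φ ω)))
  refine h5.trans ((ex_dom_err hd.expl hB0 (δ := C * (R : ℝ) ^ (-c)) ?_).trans ?_)
  · intro ω hω h1
    obtain ⟨hp, hbump⟩ := hb ω hω h1
    exact h X hd.expl ω hω (OE T (E ω)) (p ω) n (φ ω) (pot (OE T (E ω)) (φ ω))
      (fun f hf => hf.1) (hd.cp ω hω h1) hp (hd.hin ω hω h1) hn hbump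
      (pot_spec (oe_finite T _) _)
  · linarith

end Vale.Agent.P155.NT905
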