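import Vale.Agent.P155.NT743.Par2

/-!
# P155, NT, V1: the scales `s = ⌈R^a⌉`, `ρ0 = ⌈N^{1 - γ²/1024}⌉`, for `n ≤ N ≤ Kc n^{1 + γ²/4096}`
-/

namespace Vale.Agent.P155.NT905

open Filter Topology

/-- size of the outer scale -/
theorem rhoN_le {γ a0 Kc : ℝ} (hγ : 0 < γ) (hγ1 : γ ≤ 1) (hKc : 1 ≤ Kc) {R n N : ℕ} (hR : 1 ≤ R)
    (hn1 : 1 ≤ n) (hn : (R : ℝ) ^ a0 ≤ n) (hnN : n ≤ N)
    (hN : (N : ℝ) ≤ Kc * (n : ℝ) ^ (1 + γ ^ 2 / 4096)) :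
    (⌈(N : ℝ) ^ (1 - γ ^ 2 / 1024)⌉₊ : ℝ) ≤ 2 * Kc * (n * (R : ℝ) ^ (-(a0 * (γ ^ 2 / 2048)))) := by
  obtain ⟨η, hη⟩ : ∃ η : ℝ, η = γ ^ 2 / 1024 := ⟨_, rfl⟩
  have hη0 : 0 < η := by rw [hη]; positivity
  have hη1 : η ≤ 1 / 1024 := by rw [hη]; nlinarith
  have e1 : γ ^ 2 / 4096 = η / 4 := by rw [hη]; ring
  have e2 : γ ^ 2 / 2048 = η / 2 := by rw [hη]; ring
  rw [← hη, e2]
  rw [e1] at hN
  have hn1r : (1 : ℝ) ≤ n := by exact_mod_cast hn1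
  have hn0 : (0 : ℝ) < n := by linarith
  have hN1 : (1 : ℝ) ≤ N := by exact_mod_cast hn1.trans hnN
  have hRr : (1 : ℝ) ≤ R := by exact_mod_cast hR
  have hR0 : (0 : ℝ) < R := by linarith
  have h1 : (1 : ℝ) ≤ (N : ℝ) ^ (1 - η) := Real.one_le_rpow hN1 (by linarith)
  have h2 := Nat.ceil_lt_add_one (a := (N : ℝ) ^ (1 - η)) (by positivity)
  have h3 : (N : ℝ) ^ (1 - η) ≤ Kc * (n : ℝ) ^ (1 - η / 2) := by
    calc (N : ℝ) ^ (1 - η) ≤ (Kc * (n : ℝ) ^ (1 + η / 4)) ^ (1 - η) :=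
          Real.rpow_le_rpow (by positivity) hN (by linarith)
      _ = Kc ^ (1 - η) * (n : ℝ) ^ ((1 + η / 4) * (1 - η)) := by
          rw [Real.mul_rpow (by linarith) (by positivity), ← Real.rpow_mul hn0.le]
      _ ≤ Kc * (n : ℝ) ^ (1 - η / 2) := by
          apply mul_le_mul _ _ (by positivity) (by linarith)
          · calc Kc ^ (1 - η) ≤ Kc ^ (1 : ℝ) :=
                Real.rpow_le_rpow_of_exponent_le hKc (by linarith)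
              _ = Kc := Real.rpow_one _
          · apply Real.rpow_le_rpow_of_exponent_le hn1r
            nlinarith
  have h4 : (n : ℝ) ^ (1 - η / 2) ≤ n * (R : ℝ) ^ (-(a0 * (η / 2))) := by
    have h5 : (n : ℝ) ^ (1 - η / 2) = n * (n : ℝ) ^ (-(η / 2)) := by
      rw [← Real.rpow_one_add' hn0.le (by linarith)]
      congr 1
    rw [h5]
    apply mul_le_mul_of_nonneg_left _ hn0.le
    have h6 : (R : ℝ) ^ (-(a0 * (η / 2))) = ((R : ℝ) ^ a0) ^ (-(η / 2)) := by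
      rw [← Real.rpow_mul hR0.le]
      congr 1
      ring
    rw [h6]
    exact Real.rpow_le_rpow_of_nonpos (by positivity) hn (by linarith)
  calc (⌈(N : ℝ) ^ (1 - η)⌉₊ : ℝ) ≤ 2 * (N : ℝ) ^ (1 - η) := by linarith
    _ ≤ 2 * (Kc * (n * (R : ℝ) ^ (-(a0 * (η / 2))))) := by
        apply mul_le_mul_of_nonneg_left _ (by norm_num)
        exact h3.trans (mul_le_mul_of_nonneg_left h4 (by linarith))
    _ = _ := by ring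

theorem sq_cube905 {s z : ℝ} (h1 : s < z + 1) (h0 : 0 ≤ s) (h8 : 8 ≤ z) : s ^ 2 + 1 ≤ z ^ 3 := by
  have h2 : s ^ 2 ≤ (z + 1) ^ 2 := pow_le_pow_left₀ h0 h1.le 2
  have h3 : 8 * z ^ 2 ≤ z ^ 3 := by
    have := mul_le_mul_of_nonneg_right h8 (sq_nonneg z)
    calc 8 * z ^ 2 ≤ z * z ^ 2 := this
      _ = z ^ 3 := by ring
  have h4 : 8 * z ≤ z ^ 2 := by
    have := mul_le_mul_of_nonneg_right h8 (by linarith : 0 ≤ z)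
    calc 8 * z ≤ z * z := this
      _ = z ^ 2 := by ring
  have h5 : (z + 1) ^ 2 = z ^ 2 + 2 * z + 1 := by ring
  linarith

theorem rho_part905 {ρ A x n e : ℝ} (hn : 0 ≤ n) (h : ρ ≤ 2 * A * (n * x)) (hx : A * x ≤ e) :
    ρ ≤ 2 * n * e := by
  have : 2 * n * (A * x) ≤ 2 * n * e := mul_le_mul_of_nonneg_left hx (by linarith)
  have e1 : 2 * A * (n * x) = 2 * n * (A * x) := by ring
  linarith

/-- **the scales** -/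
theorem scalesN {a0 γ CT am Kc : ℝ} (ha0 : 0 < a0) (hγ : 0 < γ) (hγ1 : γ ≤ 1) (hCT : 0 < CT)
    (hKc : 1 ≤ Kc) (ham : 0 < am) : ∃ a : ℝ, 0 < a ∧ a ≤ am ∧ 4 * a ≤ min a0 1 ∧
    ∃ R1 : ℕ, 1 ≤ R1 ∧ ∀ R : ℕ, R1 ≤ R → ∀ n N : ℕ, (R : ℝ) ^ a0 ≤ n → n ≤ N →
    (N : ℝ) ≤ Kc * (n : ℝ) ^ (1 + γ ^ 2 / 4096) →
    8 ≤ ⌈(R : ℝ) ^ a⌉₊ ∧ (⌈(R : ℝ) ^ a⌉₊ : ℝ) ≤ (N : ℝ) ^ (γ / 512) ∧
    ((⌈(R : ℝ) ^ a⌉₊ ^ 2 : ℕ) : ℝ) + 1 ≤ (N : ℝ) ^ (γ / 512) ∧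
    ⌈(R : ℝ) ^ a⌉₊ ^ 2 + 1 ≤ ⌈(N : ℝ) ^ (1 - γ ^ 2 / 1024)⌉₊ ∧
    8 * ⌈(N : ℝ) ^ (1 - γ ^ 2 / 1024)⌉₊ + 16 ≤ n ∧
    2 * (CT * (⌈(N : ℝ) ^ (1 - γ ^ 2 / 1024)⌉₊ : ℝ)) + 2 ≤ n ∧
    8 * ⌈(R : ℝ) ^ a⌉₊ ≤ n ∧ (R : ℝ) ^ a ≤ (⌈(R : ℝ) ^ a⌉₊ : ℝ) ∧
    (⌈(R : ℝ) ^ a⌉₊ : ℝ) ≤ 2 * (R : ℝ) ^ a ∧
    ((⌈(R : ℝ) ^ a⌉₊ ^ 2 : ℕ) : ℝ) < CT * (⌈(N : ℝ) ^ (1 - γ ^ 2 / 1024)⌉₊ : ℝ) := by
  have hm1 : 0 < min a0 1 := lt_min ha0 one_pos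
  obtain ⟨a, hadef⟩ : ∃ a : ℝ, a = min am (min (min a0 1 / 4) (a0 * γ / 2048)) := ⟨_, rfl⟩
  have ha : 0 < a := by
    rw [hadef]
    exact lt_min ham (lt_min (by positivity) (by positivity))
  have k1 : a ≤ am := by rw [hadef]; exact min_le_left _ _
  have k2 : a ≤ min a0 1 / 4 := by
    rw [hadef]; exact (min_le_right _ _).trans (min_le_left _ _)
  have k3 : a ≤ a0 * γ / 2048 := by
    rw [hadef]; exact (min_le_right _ _).trans (min_le_right _ _)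
  obtain ⟨b, hb⟩ : ∃ b : ℝ, b = a0 * (γ ^ 2 / 2048) := ⟨_, rfl⟩
  have hb0 : 0 < b := by rw [hb]; positivity
  have tend : ∀ e : ℝ, 0 < e → Tendsto (fun R : ℕ => (R : ℝ) ^ e) atTop atTop := fun e he =>
    (tendsto_rpow_atTop he).comp tendsto_natCast_atTop_atTop
  have ev1 := (tend b hb0).eventually_ge_atTop (32 * Kc)
  have ev2 := (tend b hb0).eventually_ge_atTop (8 * CT * Kc)
  have ev3 := (tend a0 ha0).eventually_ge_atTop 32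
  have ev4 := (tend a ha).eventually_ge_atTop 8
  have ev5 := (tend (a0 / 2) (by positivity)).eventually_ge_atTop (1 / CT)
  obtain ⟨R2, hR2⟩ := eventually_atTop.1 (ev1.and (ev2.and (ev3.and (ev4.and ev5))))
  refine ⟨a, ha, k1, by linarith, max 1 R2, le_max_left _ _, ?_⟩
  intro R hR n N hn hnN hN
  obtain ⟨f1, f2, f3, f4, f5⟩ := hR2 R ((le_max_right _ _).trans hR)
  have hR1 : 1 ≤ R := (le_max_left _ _).trans hR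
  have hRr : (1 : ℝ) ≤ R := by exact_mod_cast hR1
  have hR0 : (0 : ℝ) < R := by linarith
  have hn32 : (32 : ℝ) ≤ n := f3.trans hn
  have hn1 : 1 ≤ n := by
    have : (1 : ℝ) ≤ n := by linarith
    exact_mod_cast this
  have hn0 : (0 : ℝ) < n := by linarith
  have hnN' : (n : ℝ) ≤ N := by exact_mod_cast hnN
  have hN1 : (1 : ℝ) ≤ N := by linarith
  have hrho := rhoN_le (a0 := a0) hγ hγ1 hKc hR1 hn1 hn hnN hN
  rw [← hb] at hrho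
  obtain ⟨ρ, hρ⟩ : ∃ ρ : ℕ, ρ = ⌈(N : ℝ) ^ (1 - γ ^ 2 / 1024)⌉₊ := ⟨_, rfl⟩
  obtain ⟨s, hs⟩ : ∃ s : ℕ, s = ⌈(R : ℝ) ^ a⌉₊ := ⟨_, rfl⟩
  rw [← hρ] at hrho
  rw [← hρ, ← hs]
  obtain ⟨z, hz⟩ : ∃ z : ℝ, z = (R : ℝ) ^ a := ⟨_, rfl⟩
  rw [← hz] at f4
  have hs1 : z ≤ s := by rw [hs, hz]; exact Nat.le_ceil _
  have hs2 : (s : ℝ) < z + 1 := by
    rw [hs, hz]; exact Nat.ceil_lt_add_one (by positivity)
  have hs8 : (8 : ℝ) ≤ s := f4.trans hs1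
  have hs8' : 8 ≤ s := by exact_mod_cast hs8
  have hη1 : γ ^ 2 / 1024 ≤ 1 / 1024 := by
    apply div_le_div_of_nonneg_right _ (by norm_num)
    nlinarith
  have hρl : (N : ℝ) ^ (1 - γ ^ 2 / 1024) ≤ ρ := by rw [hρ]; exact Nat.le_ceil _
  -- s
  have hsN : ((s ^ 2 : ℕ) : ℝ) + 1 ≤ (N : ℝ) ^ (γ / 512) := by
    have h1 : ((s ^ 2 : ℕ) : ℝ) + 1 ≤ z ^ 3 := by
      push_cast
      exact sq_cube905 hs2 (by linarith) f4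
    have h2 : z ^ 3 = (R : ℝ) ^ (3 * a) := by
      rw [hz, ← Real.rpow_natCast, ← Real.rpow_mul hR0.le]
      congr 1
      push_cast
      ring
    have h3 : (R : ℝ) ^ (3 * a) ≤ (R : ℝ) ^ (a0 * (γ / 512)) :=
      Real.rpow_le_rpow_of_exponent_le hRr (by
        have := mul_pos ha0 hγ
        have e9 : a0 * (γ / 512) = 4 * (a0 * γ / 2048) := by ring
        rw [e9]
        have : 0 < a0 * γ / 2048 := by positivity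
        linarith)
    have h4 : (R : ℝ) ^ (a0 * (γ / 512)) ≤ (N : ℝ) ^ (γ / 512) := by
      rw [Real.rpow_mul hR0.le]
      exact Real.rpow_le_rpow (by positivity) (hn.trans hnN') (by positivity)
    rw [h2] at h1
    exact h1.trans (h3.trans h4)
  have hNρ : (N : ℝ) ^ (γ / 512) * (N : ℝ) ^ ((1 : ℝ) / 2) ≤ ρ := by
    refine le_trans ?_ hρl
    rw [← Real.rpow_add (by linarith)]
    exact Real.rpow_le_rpow_of_exponent_le hN1 (by linarith)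
  have hN2 : (1 : ℝ) ≤ (N : ℝ) ^ ((1 : ℝ) / 2) := Real.one_le_rpow hN1 (by norm_num)
  have hsq0 : (0 : ℝ) ≤ ((s ^ 2 : ℕ) : ℝ) := Nat.cast_nonneg _
  have hsρ : ((s ^ 2 : ℕ) : ℝ) + 1 ≤ ρ := by
    refine le_trans ?_ hNρ
    calc ((s ^ 2 : ℕ) : ℝ) + 1 = (((s ^ 2 : ℕ) : ℝ) + 1) * 1 := (mul_one _).symm
      _ ≤ _ := mul_le_mul hsN hN2 (by norm_num) (by positivity)
  have hsρ' : s ^ 2 + 1 ≤ ρ := by exact_mod_cast hsρ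
  have hRb : (R : ℝ) ^ (-b) = ((R : ℝ) ^ b)⁻¹ := Real.rpow_neg hR0.le b
  have hRb0 : 0 < (R : ℝ) ^ b := by positivity
  have hρ8 : 8 * (ρ : ℝ) + 16 ≤ n := by
    have h1 : Kc * (R : ℝ) ^ (-b) ≤ 1 / 32 := by
      rw [hRb, ← div_eq_mul_inv, div_le_iff₀ hRb0]
      linarith
    have h2 := rho_part905 hn0.le hrho h1
    linarith
  have hρC : 2 * (CT * (ρ : ℝ)) + 2 ≤ n := by
    have h1 : (CT * Kc) * (R : ℝ) ^ (-b) ≤ 1 / 8 := by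
      rw [hRb, ← div_eq_mul_inv, div_le_iff₀ hRb0]
      linarith
    have h0 : CT * (ρ : ℝ) ≤ 2 * (CT * Kc) * (n * (R : ℝ) ^ (-b)) := by
      calc CT * (ρ : ℝ) ≤ CT * (2 * Kc * (n * (R : ℝ) ^ (-b))) :=
            mul_le_mul_of_nonneg_left hrho hCT.le
        _ = _ := by ring
    have h2 := rho_part905 hn0.le h0 h1
    linarith
  have hρ8' : 8 * ρ + 16 ≤ n := by exact_mod_cast hρ8
  have hs8s : 8 * s ≤ s ^ 2 := by nlinarith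
  refine ⟨hs8', ?_, hsN, hsρ', hρ8', hρC, by omega, ?_, ?_, ?_⟩
  · refine le_trans ?_ hsN
    push_cast
    nlinarith
  · rw [← hz]; exact hs1
  · rw [← hz]; linarith
  · have h1 : 1 / CT ≤ (N : ℝ) ^ ((1 : ℝ) / 2) := by
      refine f5.trans ?_
      rw [show a0 / 2 = a0 * (1 / 2) by ring, Real.rpow_mul hR0.le]
      exact Real.rpow_le_rpow (by positivity) (hn.trans hnN') (by norm_num)
    have h2 : (((s ^ 2 : ℕ) : ℝ) + 1) * (1 / CT) ≤ ρ :=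
      le_trans (mul_le_mul hsN h1 (by positivity) (by positivity)) hNρ
    have h3 : ((s ^ 2 : ℕ) : ℝ) + 1 ≤ CT * ρ := by
      have h4 := mul_le_mul_of_nonneg_left h2 hCT.le
      calc ((s ^ 2 : ℕ) : ℝ) + 1 = CT * ((((s ^ 2 : ℕ) : ℝ) + 1) * (1 / CT)) := by
            field_simp
        _ ≤ _ := h4
    linarith

/-- the two-strand error -/
theorem twoN {γ a0 Kc CT : ℝ} (hCT : 0 ≤ CT) (ha0 : 0 < a0) (hγ : 0 < γ) (hγ1 : γ ≤ 1)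
    (hKc : 1 ≤ Kc)
    {R n N : ℕ} (hR : 1 ≤ R) (hn1 : 1 ≤ n) (hn : (R : ℝ) ^ a0 ≤ n) (hnN : n ≤ N)
    (hN : (N : ℝ) ≤ Kc * (n : ℝ) ^ (1 + γ ^ 2 / 4096)) :
    CT * (((N : ℝ) / n) ^ γ * (N : ℝ) ^ (-(γ ^ 2 / 128))) ≤
      CT * Kc * (R : ℝ) ^ (-(a0 * (γ ^ 2 / 256))) := by
  have hn1r : (1 : ℝ) ≤ n := by exact_mod_cast hn1
  have hn0 : (0 : ℝ) < n := by linarith
  have hnN' : (n : ℝ) ≤ N := by exact_mod_cast hnN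
  have hRr : (1 : ℝ) ≤ R := by exact_mod_cast hR
  have hR0 : (0 : ℝ) < R := by linarith
  have h1 : (N : ℝ) / n ≤ Kc * (n : ℝ) ^ (γ ^ 2 / 4096) := by
    rw [div_le_iff₀ hn0]
    refine hN.trans (le_of_eq ?_)
    rw [Real.rpow_add hn0, Real.rpow_one]
    ring
  have h2 : ((N : ℝ) / n) ^ γ ≤ Kc * (n : ℝ) ^ (γ ^ 2 / 4096) := by
    have h3 : (1 : ℝ) ≤ (N : ℝ) / n := by rw [le_div_iff₀ hn0]; linarith
    calc ((N : ℝ) / n) ^ γ ≤ ((N : ℝ) / n) ^ (1 : ℝ) :=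
          Real.rpow_le_rpow_of_exponent_le h3 hγ1
      _ = (N : ℝ) / n := Real.rpow_one _
      _ ≤ _ := h1
  have h4 : (N : ℝ) ^ (-(γ ^ 2 / 128)) ≤ (n : ℝ) ^ (-(γ ^ 2 / 128)) :=
    Real.rpow_le_rpow_of_nonpos hn0 hnN' (by have := sq_nonneg γ; linarith)
  have h5 : ((N : ℝ) / n) ^ γ * (N : ℝ) ^ (-(γ ^ 2 / 128)) ≤
      Kc * (R : ℝ) ^ (-(a0 * (γ ^ 2 / 256))) := by
    calc ((N : ℝ) / n) ^ γ * (N : ℝ) ^ (-(γ ^ 2 / 128)) ≤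
        (Kc * (n : ℝ) ^ (γ ^ 2 / 4096)) * (n : ℝ) ^ (-(γ ^ 2 / 128)) :=
          mul_le_mul h2 h4 (by positivity) (by positivity)
      _ = Kc * (n : ℝ) ^ (γ ^ 2 / 4096 + -(γ ^ 2 / 128)) := by
          rw [mul_assoc, ← Real.rpow_add hn0]
      _ ≤ Kc * (n : ℝ) ^ (-(γ ^ 2 / 256)) := by
          apply mul_le_mul_of_nonneg_left _ (by linarith)
          apply Real.rpow_le_rpow_of_exponent_le hn1r
          nlinarith [sq_nonneg γ]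
      _ ≤ Kc * (R : ℝ) ^ (-(a0 * (γ ^ 2 / 256))) := by
          apply mul_le_mul_of_nonneg_left _ (by linarith)
          have h6 : (R : ℝ) ^ (-(a0 * (γ ^ 2 / 256))) = ((R : ℝ) ^ a0) ^ (-(γ ^ 2 / 256)) := by
            rw [← Real.rpow_mul hR0.le]
            congr 1
            ring
          rw [h6]
          exact Real.rpow_le_rpow_of_nonpos (by positivity) hn
            (by have := sq_nonneg γ; linarith)
  calc CT * (((N : ℝ) / n) ^ γ * (N : ℝ) ^ (-(γ ^ 2 / 128))) ≤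
      CT * (Kc * (R : ℝ) ^ (-(a0 * (γ ^ 2 / 256)))) := mul_le_mul_of_nonneg_left h5 hCT
    _ = _ := by ring

/-- the error of the scale `ρ0` -/
theorem rhoN_pow {γ a0 Kc CT β : ℝ} (hCT : 0 ≤ CT) (hγ : 0 < γ) (hγ1 : γ ≤ 1)
    (hβ : 0 < β) (hKc : 1 ≤ Kc) {R n N : ℕ} (hR : 1 ≤ R)
    (hn1 : 1 ≤ n) (hn : (R : ℝ) ^ a0 ≤ n) (hnN : n ≤ N)
    (hN : (N : ℝ) ≤ Kc * (n : ℝ) ^ (1 + γ ^ 2 / 4096)) :
    CT * ((⌈(N : ℝ) ^ (1 - γ ^ 2 / 1024)⌉₊ : ℝ) / n) ^ β ≤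
      CT * (2 * Kc) ^ β * (R : ℝ) ^ (-(a0 * (γ ^ 2 / 2048) * β)) := by
  have hn1r : (1 : ℝ) ≤ n := by exact_mod_cast hn1
  have hn0 : (0 : ℝ) < n := by linarith
  have hRr : (1 : ℝ) ≤ R := by exact_mod_cast hR
  have hR0 : (0 : ℝ) < R := by linarith
  have h1 := rhoN_le (a0 := a0) hγ hγ1 hKc hR hn1 hn hnN hN
  have h2 : (⌈(N : ℝ) ^ (1 - γ ^ 2 / 1024)⌉₊ : ℝ) / n ≤
      2 * Kc * (R : ℝ) ^ (-(a0 * (γ ^ 2 / 2048))) := by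
    rw [div_le_iff₀ hn0]
    refine h1.trans (le_of_eq ?_)
    ring
  have h3 : ((⌈(N : ℝ) ^ (1 - γ ^ 2 / 1024)⌉₊ : ℝ) / n) ^ β ≤
      (2 * Kc) ^ β * (R : ℝ) ^ (-(a0 * (γ ^ 2 / 2048) * β)) := by
    calc _ ≤ (2 * Kc * (R : ℝ) ^ (-(a0 * (γ ^ 2 / 2048)))) ^ β :=
          Real.rpow_le_rpow (by positivity) h2 hβ.le
      _ = _ := by
          rw [Real.mul_rpow (by positivity) (by positivity), ← Real.rpow_mul hR0.le]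
          congr 2
          ring
  calc _ ≤ CT * ((2 * Kc) ^ β * (R : ℝ) ^ (-(a0 * (γ ^ 2 / 2048) * β))) :=
        mul_le_mul_of_nonneg_left h3 hCT
    _ = _ := by ring

end Vale.Agent.P155.NT905
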