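import Vale.Agent.P155.NT905.UnxDet
import Vale.Agent.P155.NT905.ScN
import Vale.Agent.P155.NT905.FMPr

/-!
# P155, NT, V1: the two deterministic evaluations when the line may cross the box

The far part also contains the strip around the line of starting points.
-/

namespace Vale.Agent.P155.NT905

open Finset SW HT T905 T802 T862 G45 J H904 H12 NT E4 S862

/-- outside the box or in the strip around the line -/
def FarP (q : Pt) (N : ℕ) (xS : ℤ) (ρ0 : ℕ) (x : Pt) : Prop :=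
  x ∉ box q N ∨ |x.1 - xS| ≤ (ρ0 : ℤ) + 1

open Classical in
/-- **the layer evaluation off one bad event** -/
theorem det_line : ∃ γ β : ℝ, 0 < γ ∧ γ ≤ 1 ∧ 0 < β ∧ ∀ a0 p C0 Cc : ℝ, 0 < a0 → 0 < p → 0 ≤ C0 →
    ∃ C : ℝ, 0 < C ∧ ∀ (R : ℕ) (T : Temp), 1 ≤ R → Skel.Fits T R →
    ∀ (p0 : Pt) (n κ s ρ0 D : ℕ), (R : ℝ) ^ a0 ≤ n → n ≤ R → κ ≤ n → 1 ≤ s → 8 * s ≤ κ →
      (s : ℝ) ≤ (n : ℝ) ^ (γ / 512) → (D : ℝ) + 1 ≤ (n : ℝ) ^ (γ / 512) →
      (n : ℝ) ^ (1 - γ ^ 2 / 1024) ≤ ρ0 → ρ0 ≤ κ → D + 1 ≤ ρ0 → 4 * s ≤ D →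
      Pr T.V (NBad T p0 n κ s ρ0 D C0 Cc γ C) ≤ C * (R : ℝ) ^ (-p) ∧
      ∀ ω ∈ DD T.V, ¬ NBad T p0 n κ s ρ0 D C0 Cc γ C ω → ∀ (xS : ℤ) (τ : Stop T.V xS),
      τ.New ω → ∀ H : Pt → ℝ, τ.IsH T ω H →
      ∀ (q : Pt) (φ u χ : Pt → ℝ), q ∉ OE T (τ.E ω) → (∀ y, |φ y| ≤ dens C0 q κ y) →
      IsCut (OE T (τ.E ω)) s Cc χ → IsGreen (OE T (τ.E ω)) φ u →
      ∀ hO : (OE T (τ.E ω)).Finite,
      |mass ω (fL (OE T (τ.E ω)) φ χ u) (τ.L ω) - ∑ x ∈ hO.toFinset, φ x * H x| ≤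
        ∑ x ∈ hO.toFinset.filter (fun x => FarP p0 n xS ρ0 x), |fL (OE T (τ.E ω)) φ χ u x| +
        ∑ x ∈ (box p0 n).filter (fun x => (dF T.faceSet x : ℝ) < C * ρ0 ∧
          ∃ v ∈ τ.L ω, v ∈ box x (D + 1)), |fL (OE T (τ.E ω)) φ χ u x| +
        (C * ((ρ0 : ℝ) / κ) ^ β + C * (((n : ℝ) / κ) ^ γ * (n : ℝ) ^ (-(γ ^ 2 / 128))) +
          C * ((2 * (s : ℝ) + 1) / ((D - 2 * s : ℕ) + 1)) ^ β) := by
  obtain ⟨β0, hβ0, hSD, -⟩ := G1.decay
  obtain ⟨γ, hγ, hγ1, htwo⟩ := two_err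
  obtain ⟨γ', hγ', hγ1', hmass⟩ := mass_meso
  refine ⟨γ, min β0 γ', hγ, hγ1, lt_min hβ0 hγ', ?_⟩
  set β := min β0 γ' with hβ
  intro a0 p C0 Cc ha0 hp hC0
  obtain ⟨CT, hCT, htwo⟩ := htwo a0 p C0 Cc ha0 hp hC0
  obtain ⟨M, hM, hmass⟩ := hmass C0 Cc hC0
  set C : ℝ := CT + 2 * M + 1 with hC
  have hCCT : CT ≤ C := by linarith
  refine ⟨C, by positivity, ?_⟩
  intro R T hR hfit p0 n κ s ρ0 D hn hnR hκn hs h8 hsn hDn hρ0 hρκ hDρ hsD
  have hRp : (0 : ℝ) ≤ (R : ℝ) ^ (-p) := Real.rpow_nonneg (Nat.cast_nonneg _) _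
  have hκ1 : 1 ≤ κ := by omega
  have hpos : 0 ≤ ((n : ℝ) / κ) ^ γ * (n : ℝ) ^ (-(γ ^ 2 / 128)) := by positivity
  have hmonoC : ∀ ω, NBad T p0 n κ s ρ0 D C0 Cc γ C ω → NBad T p0 n κ s ρ0 D C0 Cc γ CT ω := by
    rintro ω ⟨O, q, φ, v, χ, h1, h2, h3, h4, h5, h6, h7⟩
    refine ⟨O, q, φ, v, χ, h1, h2, h3, h4, h5, h6, ?_⟩
    refine lt_of_le_of_lt (mul_le_mul_of_nonneg_right hCCT hpos) (lt_of_lt_of_le h7 ?_)
    apply sum_le_sum_of_subset_of_nonneg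
    · intro x hx
      rw [mem_filter] at hx ⊢
      refine ⟨hx.1, le_trans ?_ hx.2.1, hx.2.2⟩
      exact mul_le_mul_of_nonneg_right hCCT (Nat.cast_nonneg _)
    · intro x _ _
      exact abs_nonneg _
  constructor
  · refine (E.Pr_mono fun ω _ h => hmonoC ω h).trans ?_
    refine (htwo R T hR hfit p0 n κ s ρ0 D hn hnR hκn hs h8 hsn hDn hρ0).trans ?_
    exact mul_le_mul_of_nonneg_right hCCT hRp
  · intro ω hω hbad xS τ hN H hH q φ u χ hq hφ hχ hu hO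
    have hCP := Stop.cpr (τ := τ) hω
    obtain ⟨m1, m2, -⟩ := hmass _ q κ s χ φ u hO hCP hq hκ1 hs h8 hχ hφ hu
    have h01 := isH_01 hO hH
    have hr1 : (D : ℝ) < C * ρ0 := by
      have h1 : (D : ℝ) + 1 ≤ ρ0 := by exact_mod_cast hDρ
      have h2 : (ρ0 : ℝ) ≤ C * ρ0 := le_mul_of_one_le_left (Nat.cast_nonneg _) (by linarith)
      linarith
    have key := layer_stop hβ0 hSD hω hN hO hCP hH h01 hDρ hr1 hs hsD hχ hu
    set g : Pt → ℝ := fun x => |fL (OE T (τ.E ω)) φ χ u x| with hg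
    have hg0 : ∀ x, 0 ≤ g x := fun x => abs_nonneg _
    -- the four classes
    have hsplit : ∑ x ∈ hO.toFinset, (if x ∈ BadS ω τ ρ0 then g x else 0) +
        ∑ x ∈ hO.toFinset, (if x ∉ BadS ω τ ρ0 ∧ (dF T.faceSet x : ℝ) < C * ρ0 ∧
          ∃ v ∈ τ.L ω, v ∈ box x (D + 1) then g x else 0) +
        ∑ x ∈ hO.toFinset, (if x ∉ BadS ω τ ρ0 ∧ ¬ ((dF T.faceSet x : ℝ) < C * ρ0) ∧
          TwoVisit (fun _ : Fin 1 => box x (D + 1)) (res T.V (box x ρ0) ω) then g x else 0) ≤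
        ∑ x ∈ hO.toFinset, (if FarP p0 n xS ρ0 x then g x else 0) +
        ∑ x ∈ hO.toFinset, (if x ∈ box (go ω (xS, τ.t ω) (τ.i ω + 1)) ρ0 then g x else 0) +
        ∑ x ∈ hO.toFinset, (if x ∈ box p0 n ∧ (dF T.faceSet x : ℝ) < C * ρ0 ∧
          ∃ v ∈ τ.L ω, v ∈ box x (D + 1) then g x else 0) +
        ∑ x ∈ hO.toFinset, (if x ∈ box p0 n ∧ C * ρ0 ≤ (dF T.faceSet x : ℝ) ∧
          TwoVisit (fun _ : Fin 1 => box x (D + 1)) (res T.V (box x ρ0) ω) then g x else 0) := by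
      rw [← sum_add_distrib, ← sum_add_distrib, ← sum_add_distrib, ← sum_add_distrib,
        ← sum_add_distrib]
      refine sum_le_sum fun x _ => ?_
      have hgx := hg0 x
      by_cases hF : ¬ FarP p0 n xS ρ0 x
      · have hF' := hF
        unfold FarP at hF'
        push Not at hF'
        obtain ⟨hb, hlx⟩ := hF'
        by_cases hB : x ∈ BadS ω τ ρ0
        · have hx : x ∈ box (go ω (xS, τ.t ω) (τ.i ω + 1)) ρ0 := by
            rw [mem_box_dn905, H904.dn_comm]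
            rcases hB with h | h
            · have := hlx
              omega
            · exact h
          rw [if_pos hB, if_neg (fun h => h.1 hB), if_neg (fun h => h.1 hB), if_pos hx]
          split_ifs <;> linarith
        · rw [if_neg hB]
          by_cases hz : (dF T.faceSet x : ℝ) < C * ρ0
          · have hz' : ¬ (C * ρ0 ≤ (dF T.faceSet x : ℝ)) := not_le.2 hz
            simp only [hB, hz, hz', hb, hF, not_true_eq_false, not_false_eq_true, true_and, false_and,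
              and_false, if_false]
            split_ifs <;> linarith
          · have hz' : C * ρ0 ≤ (dF T.faceSet x : ℝ) := not_lt.1 hz
            simp only [hB, hz, hz', hb, hF, not_true_eq_false, not_false_eq_true, true_and, false_and,
              and_false, if_false]
            split_ifs <;> linarith
      · have e1 : (if FarP p0 n xS ρ0 x then g x else 0) = g x := if_pos (not_not.1 hF)
        rw [e1]
        have hle : (if x ∈ BadS ω τ ρ0 then g x else 0) +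
            (if x ∉ BadS ω τ ρ0 ∧ (dF T.faceSet x : ℝ) < C * ρ0 ∧
              ∃ v ∈ τ.L ω, v ∈ box x (D + 1) then g x else 0) +
            (if x ∉ BadS ω τ ρ0 ∧ ¬ ((dF T.faceSet x : ℝ) < C * ρ0) ∧
              TwoVisit (fun _ : Fin 1 => box x (D + 1)) (res T.V (box x ρ0) ω)
              then g x else 0) ≤ g x := by
          by_cases hB : x ∈ BadS ω τ ρ0
          · rw [if_pos hB, if_neg (fun h => h.1 hB), if_neg (fun h => h.1 hB)]
            linarith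
          · rw [if_neg hB]
            by_cases hz : (dF T.faceSet x : ℝ) < C * ρ0
            · rw [if_neg (c := x ∉ BadS ω τ ρ0 ∧ ¬ ((dF T.faceSet x : ℝ) < C * ρ0) ∧ _)
                (fun h => h.2.1 hz)]
              split_ifs <;> linarith
            · rw [if_neg (c := x ∉ BadS ω τ ρ0 ∧ (dF T.faceSet x : ℝ) < C * ρ0 ∧ _)
                (fun h => hz h.2.1)]
              split_ifs <;> linarith
        refine hle.trans ?_
        have n1 : 0 ≤ (if x ∈ box (go ω (xS, τ.t ω) (τ.i ω + 1)) ρ0 then g x else 0) := by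
          split_ifs <;> [exact hgx; exact le_rfl]
        have n2 : 0 ≤ (if x ∈ box p0 n ∧ (dF T.faceSet x : ℝ) < C * ρ0 ∧
          ∃ v ∈ τ.L ω, v ∈ box x (D + 1) then g x else 0) := by
          split_ifs <;> [exact hgx; exact le_rfl]
        have n3 : 0 ≤ (if x ∈ box p0 n ∧ C * ρ0 ≤ (dF T.faceSet x : ℝ) ∧
          TwoVisit (fun _ : Fin 1 => box x (D + 1)) (res T.V (box x ρ0) ω) then g x else 0) := by
          split_ifs <;> [exact hgx; exact le_rfl]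
        linarith
    -- the far part
    have hfar : ∑ x ∈ hO.toFinset, (if FarP p0 n xS ρ0 x then g x else 0) =
        ∑ x ∈ hO.toFinset.filter (fun x => FarP p0 n xS ρ0 x), g x := by
      rw [Finset.sum_filter]
    -- the tip
    have htip : ∑ x ∈ hO.toFinset, (if x ∈ box (go ω (xS, τ.t ω) (τ.i ω + 1)) ρ0 then g x else 0) ≤
        M * ((ρ0 : ℝ) / κ) ^ γ' := by
      rw [← Finset.sum_filter]
      refine le_trans (sum_le_sum_of_subset_of_nonneg ?_ fun x _ _ => hg0 x)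
        (m2 (go ω (xS, τ.t ω) (τ.i ω + 1)) ρ0 (by omega) hρκ)
      intro x hx
      exact (mem_filter.1 hx).2
    -- the zone
    have hzone : ∑ x ∈ hO.toFinset, (if x ∈ box p0 n ∧ (dF T.faceSet x : ℝ) < C * ρ0 ∧
          ∃ v ∈ τ.L ω, v ∈ box x (D + 1) then g x else 0) ≤
        ∑ x ∈ (box p0 n).filter (fun x => (dF T.faceSet x : ℝ) < C * ρ0 ∧
          ∃ v ∈ τ.L ω, v ∈ box x (D + 1)), g x :=
      sum_ite_le905 hg0 fun x _ h => ⟨h.1, h.2⟩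
    -- two strands
    have htw : ∑ x ∈ hO.toFinset, (if x ∈ box p0 n ∧ C * ρ0 ≤ (dF T.faceSet x : ℝ) ∧
          TwoVisit (fun _ : Fin 1 => box x (D + 1)) (res T.V (box x ρ0) ω) then g x else 0) ≤
        C * (((n : ℝ) / κ) ^ γ * (n : ℝ) ^ (-(γ ^ 2 / 128))) := by
      have h1 : ∑ x ∈ hO.toFinset, (if x ∈ box p0 n ∧ C * ρ0 ≤ (dF T.faceSet x : ℝ) ∧
          TwoVisit (fun _ : Fin 1 => box x (D + 1)) (res T.V (box x ρ0) ω) then g x else 0) ≤
          ∑ x ∈ (box p0 n).filter (fun x => C * ρ0 ≤ (dF T.faceSet x : ℝ) ∧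
            TwoVisit (fun _ : Fin 1 => box x (D + 1)) (res T.V (box x ρ0) ω)), g x :=
        sum_ite_le905 hg0 fun x _ h => ⟨h.1, h.2⟩
      by_contra hc
      exact hbad ⟨OE T (τ.E ω), q, φ, u, χ, hO, hCP, hq, hχ, hφ, hu,
        lt_of_lt_of_le (not_le.1 hc) h1⟩
    -- the exponents
    have hκ0 : (0 : ℝ) < κ := by exact_mod_cast hκ1
    have hρ1 : (0 : ℝ) < (ρ0 : ℝ) / κ := by
      have : 0 < ρ0 := by omega
      have : (0 : ℝ) < ρ0 := by exact_mod_cast this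
      positivity
    have hρle : (ρ0 : ℝ) / κ ≤ 1 := by
      rw [div_le_one hκ0]
      exact_mod_cast hρκ
    have hx1 : ((ρ0 : ℝ) / κ) ^ γ' ≤ ((ρ0 : ℝ) / κ) ^ β :=
      Real.rpow_le_rpow_of_exponent_ge hρ1 hρle (min_le_right _ _)
    have hr0 : 0 < (2 * (s : ℝ) + 1) / ((D - 2 * s : ℕ) + 1) := by positivity
    have hrle : (2 * (s : ℝ) + 1) / ((D - 2 * s : ℕ) + 1) ≤ 1 := by
      rw [div_le_one (by positivity)]
      have : 2 * s + 1 ≤ (D - 2 * s) + 1 := by omega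
      exact_mod_cast this
    have hx2 : ((2 * (s : ℝ) + 1) / ((D - 2 * s : ℕ) + 1)) ^ β0 ≤
        ((2 * (s : ℝ) + 1) / ((D - 2 * s : ℕ) + 1)) ^ β :=
      Real.rpow_le_rpow_of_exponent_ge hr0 hrle (min_le_left _ _)
    have hlast : 2 * ((2 * (s : ℝ) + 1) / ((D - 2 * s : ℕ) + 1)) ^ β0 * ∑ x ∈ hO.toFinset, g x ≤
        C * ((2 * (s : ℝ) + 1) / ((D - 2 * s : ℕ) + 1)) ^ β := by
      have h1 : ∑ x ∈ hO.toFinset, g x ≤ M := m1 _
      calc 2 * ((2 * (s : ℝ) + 1) / ((D - 2 * s : ℕ) + 1)) ^ β0 * ∑ x ∈ hO.toFinset, g x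
          ≤ 2 * ((2 * (s : ℝ) + 1) / ((D - 2 * s : ℕ) + 1)) ^ β * M := by
            apply mul_le_mul _ h1 (sum_nonneg fun x _ => hg0 x) (by positivity)
            linarith
        _ = (2 * M) * ((2 * (s : ℝ) + 1) / ((D - 2 * s : ℕ) + 1)) ^ β := by ring
        _ ≤ _ := mul_le_mul_of_nonneg_right (by linarith) (by positivity)
    have htip' : M * ((ρ0 : ℝ) / κ) ^ γ' ≤ C * ((ρ0 : ℝ) / κ) ^ β :=
      mul_le_mul (by linarith) hx1 (by positivity) (by positivity)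
    rw [← hfar]
    have key' := key
    change |mass ω (fL (OE T (τ.E ω)) φ χ u) (τ.L ω) - ∑ x ∈ hO.toFinset, φ x * H x| ≤
      ∑ x ∈ hO.toFinset, (if x ∈ BadS ω τ ρ0 then g x else 0) +
        ∑ x ∈ hO.toFinset, (if x ∉ BadS ω τ ρ0 ∧ (dF T.faceSet x : ℝ) < C * ρ0 ∧
          ∃ v ∈ τ.L ω, v ∈ box x (D + 1) then g x else 0) +
        ∑ x ∈ hO.toFinset, (if x ∉ BadS ω τ ρ0 ∧ ¬ ((dF T.faceSet x : ℝ) < C * ρ0) ∧
          TwoVisit (fun _ : Fin 1 => box x (D + 1)) (res T.V (box x ρ0) ω) then g x else 0) +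
        2 * ((2 * (s : ℝ) + 1) / ((D - 2 * s : ℕ) + 1)) ^ β0 * ∑ x ∈ hO.toFinset, g x at key'
    linarith


open Classical in
/-- **the unexplored loops off one bad event**: the sum over the unexplored loops of
(mass of the layer function) × (mass of `φ`) -/
theorem unx_line905 : ∃ β : ℝ, 0 < β ∧ β ≤ 1 ∧ ∀ C0 Cc : ℝ, 0 ≤ C0 → ∃ M : ℝ, 0 < M ∧
    ∀ (T : Temp) (xS : ℤ) (τ : Stop T.V xS), ∀ ω ∈ DD T.V, τ.New ω →
    ∀ (p0 : Pt) (n κ s ρ0 D : ℕ) (γ C : ℝ),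
      ¬ NBad T p0 n κ s ρ0 D C0 Cc γ C ω → 1 ≤ s → 8 * s ≤ κ → ρ0 ≤ κ → D + 1 ≤ ρ0 →
      4 * s ≤ D → (D : ℝ) < C * ρ0 →
      ∀ (q : Pt) (φ u χ : Pt → ℝ), q ∉ OE T (τ.E ω) → (∀ y, |φ y| ≤ dens C0 q κ y) →
      IsCut (OE T (τ.E ω)) s Cc χ → IsGreen (OE T (τ.E ω)) φ u →
      (∀ y, φ y ≠ 0 → ρ0 + 2 * s < dF (OE T (τ.E ω)) y) →
      ∀ hO : (OE T (τ.E ω)).Finite,
      ∑ A ∈ (LF ω).filter (fun A => Unx (τ.E ω) A),
        |mass ω (fL (OE T (τ.E ω)) φ χ u) A * mass ω φ A| ≤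
      (∑ y ∈ hO.toFinset, |φ y|) *
        (∑ x ∈ hO.toFinset.filter (fun x => FarP p0 n xS ρ0 x),
            |fL (OE T (τ.E ω)) φ χ u x| * nU ω (τ.E ω) φ x +
          ∑ x ∈ (box p0 n).filter (fun x => (dF T.faceSet x : ℝ) < C * ρ0),
            |fL (OE T (τ.E ω)) φ χ u x| * nU ω (τ.E ω) φ x +
          4 * s * (M * ((ρ0 : ℝ) / κ) ^ β +
            C * (((n : ℝ) / κ) ^ γ * (n : ℝ) ^ (-(γ ^ 2 / 128))))) := by
  obtain ⟨γ', hγ', hγ1', hmass⟩ := mass_meso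
  refine ⟨γ', hγ', hγ1', ?_⟩
  intro C0 Cc hC0
  obtain ⟨M, hM, hmass⟩ := hmass C0 Cc hC0
  refine ⟨M + 1, by positivity, ?_⟩
  intro T xS τ ω hω hN p0 n κ s ρ0 D γ C hbad hs h8 hρκ hDρ hsD hDC q φ u χ hq hφ hχ hu
    hsupp hO
  have hCP := Stop.cpr (τ := τ) hω
  have hκ1 : 1 ≤ κ := by omega
  obtain ⟨-, m2, -⟩ := hmass _ q κ s χ φ u hO hCP hq hκ1 hs h8 hχ hφ hu
  set g : Pt → ℝ := fL (OE T (τ.E ω)) φ χ u with hg
  have hg0 : ∀ x, 0 ≤ |g x| := fun x => abs_nonneg _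
  have hgS : ∀ x, x ∉ hO.toFinset → g x = 0 := fL_zero_off hO hs hχ hu
  have hφS : ∀ x, x ∉ hO.toFinset → φ x = 0 := by
    intro x hx
    by_contra h
    have h1 := hsupp x h
    rw [Set.Finite.mem_toFinset] at hx
    rw [H904.dF_eq_zero hx] at h1
    omega
  refine (sum_unx (E := τ.E ω) hgS hφS).trans ?_
  refine mul_le_mul_of_nonneg_left ?_ (sum_nonneg fun _ _ => abs_nonneg _)
  -- the classes
  have hex := exists_notMem hO
  have hpt : ∀ x ∈ hO.toFinset, |g x| * (nU ω (τ.E ω) φ x : ℝ) ≤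
      (if FarP p0 n xS ρ0 x then |g x| * (nU ω (τ.E ω) φ x : ℝ) else 0) +
      (if x ∈ box p0 n ∧ (dF T.faceSet x : ℝ) < C * ρ0 then |g x| * (nU ω (τ.E ω) φ x : ℝ)
        else 0) +
      (4 * s * (if x ∈ box (go ω (xS, τ.t ω) (τ.i ω + 1)) ρ0 then |g x| else 0) +
      4 * s * (if x ∈ box p0 n ∧ C * ρ0 ≤ (dF T.faceSet x : ℝ) ∧
          TwoVisit (fun _ : Fin 1 => box x (D + 1)) (res T.V (box x ρ0) ω) then |g x| else 0)) := by
    intro x hx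
    rw [Set.Finite.mem_toFinset] at hx
    have hnn : 0 ≤ |g x| * (nU ω (τ.E ω) φ x : ℝ) := mul_nonneg (hg0 x) (Nat.cast_nonneg _)
    have t1 : (0 : ℝ) ≤ 4 * s * (if x ∈ box (go ω (xS, τ.t ω) (τ.i ω + 1)) ρ0 then |g x| else 0) := by
      refine mul_nonneg (by positivity) ?_
      split_ifs <;> [exact hg0 x; exact le_rfl]
    have t2 : (0 : ℝ) ≤ 4 * s * (if x ∈ box p0 n ∧ C * ρ0 ≤ (dF T.faceSet x : ℝ) ∧
          TwoVisit (fun _ : Fin 1 => box x (D + 1)) (res T.V (box x ρ0) ω) then |g x| else 0) := by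
      refine mul_nonneg (by positivity) ?_
      split_ifs <;> [exact hg0 x; exact le_rfl]
    by_cases hF : FarP p0 n xS ρ0 x
    · rw [if_pos hF]
      by_cases hz : x ∈ box p0 n ∧ (dF T.faceSet x : ℝ) < C * ρ0
      · rw [if_pos hz]; linarith
      · rw [if_neg hz]; linarith
    have hF' := hF
    unfold FarP at hF'
    push Not at hF'
    obtain ⟨hb, hlx⟩ := hF'
    rw [if_neg hF]
    by_cases hz : (dF T.faceSet x : ℝ) < C * ρ0
    · rw [if_pos ⟨hb, hz⟩]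
      linarith
    rw [if_neg (fun h => hz h.2)]
    have hz' : C * ρ0 ≤ (dF T.faceSet x : ℝ) := not_lt.1 hz
    have hface : D < dF T.faceSet x := by
      have : (D : ℝ) < dF T.faceSet x := lt_of_lt_of_le hDC hz'
      exact_mod_cast this
    by_cases hgx : g x = 0
    · rw [hgx, abs_zero, zero_mul]
      simp
    have hdF : dF (OE T (τ.E ω)) x ≤ 2 * s := (fL_supp hex hs hχ hu (hg ▸ hgx)).2
    have hcount : (nU ω (τ.E ω) φ x : ℝ) ≤ 4 * s := by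
      exact_mod_cast (nU_le (φ := φ) hω hN hO hx hdF (by omega)).1
    have hmain : |g x| * (nU ω (τ.E ω) φ x : ℝ) ≤ 4 * s * |g x| := by
      rw [mul_comm]
      exact mul_le_mul_of_nonneg_right hcount (hg0 x)
    by_cases htip : x ∈ box (go ω (xS, τ.t ω) (τ.i ω + 1)) ρ0
    · rw [if_pos htip]
      linarith
    by_cases h0 : nU ω (τ.E ω) φ x = 0
    · rw [h0, Nat.cast_zero, mul_zero]
      linarith
    have h2 : ρ0 < dn x (go ω (xS, τ.t ω) (τ.i ω + 1)) := by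
      rw [H904.dn_comm]
      by_contra hc
      exact htip (mem_box_dn905.2 (not_lt.1 hc))
    have hfar : ∀ y, φ y ≠ 0 → ρ0 < dn x y := by
      intro y hy
      have h3 := hsupp y hy
      have h4 := H904.dF_lip hex y x
      rw [H904.dn_comm] at h4
      omega
    have htwo := nU_two hω hN hO hx hdF hface hsD hs hDρ hlx h2 hfar h0
    rw [if_neg htip, if_pos ⟨hb, hz', htwo⟩]
    linarith
  refine (sum_le_sum hpt).trans ?_
  rw [sum_add_distrib, sum_add_distrib, sum_add_distrib, ← mul_sum, ← mul_sum]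
  -- far
  have e1 : ∑ x ∈ hO.toFinset, (if FarP p0 n xS ρ0 x then |g x| * (nU ω (τ.E ω) φ x : ℝ) else 0) =
      ∑ x ∈ hO.toFinset.filter (fun x => FarP p0 n xS ρ0 x), |g x| * (nU ω (τ.E ω) φ x : ℝ) := by
    rw [Finset.sum_filter]
  -- zone
  have e2 : ∑ x ∈ hO.toFinset, (if x ∈ box p0 n ∧ (dF T.faceSet x : ℝ) < C * ρ0 then
      |g x| * (nU ω (τ.E ω) φ x : ℝ) else 0) ≤
      ∑ x ∈ (box p0 n).filter (fun x => (dF T.faceSet x : ℝ) < C * ρ0),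
        |g x| * (nU ω (τ.E ω) φ x : ℝ) :=
    sum_ite_le905 (fun x => mul_nonneg (hg0 x) (Nat.cast_nonneg _)) fun x _ h => ⟨h.1, h.2⟩
  -- tip
  have e3 : ∑ x ∈ hO.toFinset, (if x ∈ box (go ω (xS, τ.t ω) (τ.i ω + 1)) ρ0 then |g x| else 0) ≤
      M * ((ρ0 : ℝ) / κ) ^ γ' := by
    rw [← Finset.sum_filter]
    refine le_trans (sum_le_sum_of_subset_of_nonneg ?_ fun x _ _ => hg0 x)
      (m2 (go ω (xS, τ.t ω) (τ.i ω + 1)) ρ0 (by omega) hρκ)
    intro x hx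
    exact (mem_filter.1 hx).2
  -- two strands
  have e4 : ∑ x ∈ hO.toFinset, (if x ∈ box p0 n ∧ C * ρ0 ≤ (dF T.faceSet x : ℝ) ∧
      TwoVisit (fun _ : Fin 1 => box x (D + 1)) (res T.V (box x ρ0) ω) then |g x| else 0) ≤
      C * (((n : ℝ) / κ) ^ γ * (n : ℝ) ^ (-(γ ^ 2 / 128))) := by
    have h1 : ∑ x ∈ hO.toFinset, (if x ∈ box p0 n ∧ C * ρ0 ≤ (dF T.faceSet x : ℝ) ∧
        TwoVisit (fun _ : Fin 1 => box x (D + 1)) (res T.V (box x ρ0) ω) then |g x| else 0) ≤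
        ∑ x ∈ (box p0 n).filter (fun x => C * ρ0 ≤ (dF T.faceSet x : ℝ) ∧
          TwoVisit (fun _ : Fin 1 => box x (D + 1)) (res T.V (box x ρ0) ω)), |g x| :=
      sum_ite_le905 hg0 fun x _ h => ⟨h.1, h.2⟩
    by_contra hc
    exact hbad ⟨OE T (τ.E ω), q, φ, u, χ, hO, hCP, hq, hχ, hφ, hu,
      lt_of_lt_of_le (not_le.1 hc) h1⟩
  have e3' : M * ((ρ0 : ℝ) / κ) ^ γ' ≤ (M + 1) * ((ρ0 : ℝ) / κ) ^ γ' :=
    mul_le_mul_of_nonneg_right (by linarith) (by positivity)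
  have hs4 : (0 : ℝ) ≤ 4 * s := by positivity
  have e5 := mul_le_mul_of_nonneg_left (e3.trans e3') hs4
  have e6 := mul_le_mul_of_nonneg_left e4 hs4
  rw [e1]
  linarith

end Vale.Agent.P155.NT905
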