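import Vale.Agent.P155.T905.Sign
import Vale.Agent.P155.S743.Tower

/-!
# P155, NT: first-moment identity, the sign part

`E Q s_l h(f) = E Q (mass of f inside the loop l)` for unsigned `Q, f, l`.
-/

namespace Vale.Agent.P155.NT905

open Finset SW HT T905 J

variable {V : Finset Pt} {ω ω' : Conf}

theorem sum_cross1 (Q : Conf → ℝ) (f : Conf → Pt → ℝ) (l : Conf → Set Pt) (hQ : UInv V Q)
    (hf' : UInv V f) (hl' : UInv V l) (hl : ∀ ω ∈ DD V, Q ω ≠ 0 → l ω ∈ Loops ω) :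
    ∑ ω ∈ DD V, ∑ A ∈ (LF ω).filter (fun A => A ≠ l ω),
      Q ω * ((sign ω (l ω) : ℝ) * ((sign ω A : ℝ) * mass ω (f ω) A)) = 0 := by
  classical
  rw [Finset.sum_sigma']
  refine Finset.sum_involution (fun q _ => ⟨swapOn q.2 q.1, q.2⟩) ?_ ?_ ?_ ?_
  · rintro ⟨ω, A⟩ hq
    simp only [Finset.mem_sigma, Finset.mem_filter] at hq
    obtain ⟨hω, hA, hne⟩ := hq
    rw [mem_LF hω] at hA
    simp only
    rw [uinv_swap hQ hω (cl_loop hA), uinv_swap hf' hω (cl_loop hA),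
      uinv_swap hl' hω (cl_loop hA), mass_swap, sign_swap_neg hω hA Set.Subset.rfl]
    by_cases h0 : Q ω = 0
    · rw [h0]; ring
    · rw [sign_swap_same (L.loops_disjoint hω (hl ω hω h0) hA (Ne.symm hne))]
      push_cast
      ring
  · rintro ⟨ω, A⟩ hq hz
    simp only [Finset.mem_sigma, Finset.mem_filter] at hq
    obtain ⟨hω, hA, hne⟩ := hq
    rw [mem_LF hω] at hA
    intro heq
    have heq1 : swapOn A ω = ω := congrArg Sigma.fst heq
    obtain ⟨v, hv⟩ := L.loop_nonempty hA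
    apply L.loop_ne hω hA hv
    have := congrArg (fun c : Conf => c.1 v) heq1
    simp only [swapOn_fst_mem hv] at this
    exact this.symm
  · rintro ⟨ω, A⟩ hq
    simp only [Finset.mem_sigma, Finset.mem_filter] at hq ⊢
    obtain ⟨hω, hA, hne⟩ := hq
    rw [LF_swap, uinv_swap hl' hω (cl_loop ((mem_LF hω).1 hA))]
    exact ⟨swap_mem hω (cl_loop ((mem_LF hω).1 hA)), hA, hne⟩
  · rintro ⟨ω, A⟩ _
    simp only
    rw [swapOn_swapOn]

/-- **first moment with the sign of one loop** -/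
theorem sign_one (Q : Conf → ℝ) (f : Conf → Pt → ℝ) (l : Conf → Set Pt) (hQ : UInv V Q)
    (hf' : UInv V f) (hl' : UInv V l) (hff : ∀ ω ∈ DD V, (f ω).support.Finite)
    (hl : ∀ ω ∈ DD V, Q ω ≠ 0 → l ω ∈ Loops ω) :
    Ex V (fun ω => Q ω * ((sign ω (l ω) : ℝ) * hf ω (f ω))) =
      Ex V (fun ω => Q ω * mass ω (f ω) (l ω)) := by
  classical
  unfold Ex
  congr 1
  have e1 : ∀ ω ∈ DD V, Q ω * ((sign ω (l ω) : ℝ) * hf ω (f ω)) =
      Q ω * mass ω (f ω) (l ω) +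
      ∑ A ∈ (LF ω).filter (fun A => A ≠ l ω),
        Q ω * ((sign ω (l ω) : ℝ) * ((sign ω A : ℝ) * mass ω (f ω) A)) := by
    intro ω hω
    by_cases h0 : Q ω = 0
    · simp [h0]
    have hlL : l ω ∈ LF ω := (mem_LF hω).2 (hl ω hω h0)
    rw [hf_eq_mass hω (hff ω hω), Finset.mul_sum, Finset.mul_sum,
      ← Finset.sum_filter_add_sum_filter_not (LF ω) (fun A => A = l ω)]
    congr 1
    rw [Finset.filter_eq' (LF ω) (l ω), if_pos hlL, Finset.sum_singleton]
    have h1 : (sign ω (l ω) : ℝ) * (sign ω (l ω) : ℝ) = 1 := by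
      exact_mod_cast sign_sq hω ((mem_LF hω).1 hlL)
    linear_combination (Q ω * mass ω (f ω) (l ω)) * h1
  rw [Finset.sum_congr rfl e1, Finset.sum_add_distrib, sum_cross1 Q f l hQ hf' hl' hl, add_zero]

end Vale.Agent.P155.NT905
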