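import Vale.Agent.P155.NT905.DetNT
import Vale.Agent.P155.NT.Faces
import Vale.Agent.P155.NT.Path

/-!
# P155, NT, V1 (3): the loops which are not explored

A loop `A` disjoint from the explored set which surrounds a layer point `x` and a point of the
support of `φ` passes near `x`: there are two strands near `x`.
-/

namespace Vale.Agent.P155.NT905

open Finset SW HT T905 T802 T862 G45 J H904 H12 NT E4 S862

variable {V : Finset Pt} {ω : Conf} {xS t : ℤ} {i : ℕ}

/-- the loop `A` does not meet the explored set -/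
def Unx (E A : Set Pt) : Prop := ∀ v ∈ E, v ∉ A

theorem unx_line (hω : ω ∈ DD V) {A : Set Pt} (hA : A ∈ Loops ω)
    (hU : Unx (Eti xS ω t i) A) {y : ℤ} (hy : y < t) {f : Pt} (hf : f ∈ facesAt (xS, y)) :
    ¬ surr ω A f := by
  intro hsur
  have hl : ∀ z : ℤ, z < t → ((xS, z) : Pt) ∉ A := fun z hz => hU _ (Or.inl (line_mem_Et hz))
  have all : ∀ n : ℕ, surr ω A (xS, y - n) := by
    intro n
    induction n with
    | zero =>
      have h0 : y - ((0 : ℕ) : ℤ) = y := by simp
      rw [h0]
      exact (surr_around hω hA (hl y hy) hf (by simp [facesAt])).1 hsur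
    | succ n ih =>
      have h1 : ((xS, y - n) : Pt) ∉ A := hl _ (by omega)
      refine (surr_around hω hA h1 (f := (xS, y - n)) (by simp [facesAt]) ?_).1 ih
      unfold facesAt
      simp only [mem_insert, mem_singleton, Prod.mk.injEq, true_and]
      push_cast
      right; right; left
      omega
  have hfin := L.intr_finite hω hA
  have hinj : Function.Injective (fun n : ℕ => ((xS, y - n) : Pt)) := by
    intro a b hab
    simp only [Prod.mk.injEq] at hab
    omega
  exact Set.infinite_range_of_injective hinj (hfin.subset (by rintro _ ⟨n, rfl⟩; exact all n))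

theorem unx_Et (hω : ω ∈ DD V) {A : Set Pt} (hA : A ∈ Loops ω)
    (hU : Unx (Eti xS ω t i) A) {u : Pt} (hu : u ∈ Et xS ω t) {f : Pt} (hf : f ∈ facesAt u) :
    ¬ surr ω A f := by
  obtain ⟨y, hy, huc⟩ := hu
  have key : ∀ u, Same ω (xS, y) u → ∀ f ∈ facesAt u, ¬ surr ω A f := by
    intro u hu
    induction hu with
    | refl => exact fun f hf => unx_line hω hA hU hy hf
    | @tail a b hya hab ih =>
      intro f hf hsur
      have hb : b ∉ A := hU _ (Or.inl ⟨y, hy, Relation.ReflTransGen.tail hya hab⟩)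
      by_cases haV : a ∈ V
      · have hadj : Adj a b := by
          rcases hab with rfl | rfl
          · exact L.adj1 hω haV
          · exact L.adj2 hω haV
        obtain ⟨g, hg1, hg2⟩ := common_face hadj
        exact ih g hg1 ((surr_around hω hA hb hf hg2).1 hsur)
      · have hba : b = a := by
          rcases hab with rfl | rfl
          · exact L.off1 hω haV
          · exact L.off2 hω haV
        exact ih f (hba ▸ hf) hsur
  exact key u huc f hf

theorem unx_path (hω : ω ∈ DD V) (hne : ω.1 (xS, t) ≠ ω.2 (xS, t)) {A : Set Pt}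
    (hA : A ∈ Loops ω) (hU : Unx (Eti xS ω t i) A) {j : ℕ} (hj : j ≤ i) :
    ∀ f ∈ facesAt (go ω (xS, t) j), ¬ surr ω A f := by
  induction j with
  | zero =>
    intro f hf hsur
    rw [NT905.go_zero] at hf
    have h0 : ((xS, t) : Pt) ∉ A := hU _ (Or.inr ⟨0, hj, (NT905.go_zero _ _).symm⟩)
    have h1 := (surr_around hω hA h0 hf (g := (xS, t - 1)) (by simp [facesAt])).1 hsur
    exact unx_line hω hA hU (y := t - 1) (by omega) (by simp [facesAt]) h1
  | succ j ih =>
    intro f hf hsur
    have hb : go ω (xS, t) (j + 1) ∉ A := hU _ (Or.inr ⟨j + 1, hj, rfl⟩)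
    have hadj := NT.Go.go_adj hω hne j
    obtain ⟨g, hg1, hg2⟩ := common_face hadj
    exact ih (by omega) g hg1 ((surr_around hω hA hb hf hg2).1 hsur)

/-- faces touching the explored set are not surrounded by an unexplored loop -/
theorem unx_touch (hω : ω ∈ DD V) (hne : ω.1 (xS, t) ≠ ω.2 (xS, t)) {A : Set Pt}
    (hA : A ∈ Loops ω) (hU : Unx (Eti xS ω t i) A) {f : Pt} (hf : Touch (Eti xS ω t i) f) :
    ¬ surr ω A f := by
  obtain ⟨u, hu, hfu⟩ := T802.touch_iff.1 hf
  rcases hu with hu | ⟨j, hj, rfl⟩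
  · exact unx_Et hω hA hU hu hfu
  · exact unx_path hω hne hA hU hj f hfu

/-! ## Loops between two faces -/

theorem common_corner {a b : Pt} (hab : Adj a b) : ∃ p q : Pt, ∀ w, LatCycle.corner w a →
    LatCycle.corner w b → w = p ∨ w = q := by
  have h := mem_nbrs.2 hab
  obtain ⟨a1, a2⟩ := a
  simp only [nbrs, mem_insert, mem_singleton] at h
  unfold LatCycle.corner
  rcases h with rfl | rfl | rfl | rfl
  · refine ⟨(a1 + 1, a2), (a1 + 1, a2 + 1), ?_⟩
    rintro ⟨w1, w2⟩ h1 h2
    simp only [Prod.mk.injEq] at h1 h2 ⊢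
    omega
  · refine ⟨(a1, a2), (a1, a2 + 1), ?_⟩
    rintro ⟨w1, w2⟩ h1 h2
    simp only [Prod.mk.injEq] at h1 h2 ⊢
    omega
  · refine ⟨(a1, a2 + 1), (a1 + 1, a2 + 1), ?_⟩
    rintro ⟨w1, w2⟩ h1 h2
    simp only [Prod.mk.injEq] at h1 h2 ⊢
    omega
  · refine ⟨(a1, a2), (a1 + 1, a2), ?_⟩
    rintro ⟨w1, w2⟩ h1 h2
    simp only [Prod.mk.injEq] at h1 h2 ⊢
    omega

/-- two loops which separate the same pair of adjacent faces are equal -/
theorem sep_adj (hω : ω ∈ DD V) {a b : Pt} (hab : Adj a b) {A A' : Set Pt} (hA : A ∈ Loops ω)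
    (hA' : A' ∈ Loops ω) (h1 : surr ω A a) (h2 : ¬ surr ω A b) (h1' : surr ω A' a)
    (h2' : ¬ surr ω A' b) : A = A' := by
  obtain ⟨u, v, hu, hv, huv, -, ⟨c1, c2⟩, ⟨c3, c4⟩, -, -⟩ := A1.L_step hω hA hab h1 h2
  obtain ⟨u', v', hu', hv', huv', -, ⟨c1', c2'⟩, ⟨c3', c4'⟩, -, -⟩ := A1.L_step hω hA' hab h1' h2'
  obtain ⟨p, q, hpq⟩ := common_corner hab
  have hne : u ≠ v := by
    rintro rfl
    unfold Adj at huv
    simp at huv
  have k : u' = u ∨ u' = v := by
    rcases hpq u c1 c3 with e1 | e1 <;> rcases hpq v c2 c4 with e2 | e2 <;>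
      rcases hpq u' c1' c3' with e3 | e3
    · exact Or.inl (e3.trans e1.symm)
    · exact absurd (e1.trans e2.symm) hne
    · exact Or.inl (e3.trans e1.symm)
    · exact Or.inr (e3.trans e2.symm)
    · exact Or.inr (e3.trans e2.symm)
    · exact Or.inl (e3.trans e1.symm)
    · exact absurd (e1.trans e2.symm) hne
    · exact absurd (e1.trans e2.symm) hne
  have hu'A : u' ∈ A := by
    rcases k with rfl | rfl
    · exact hu
    · exact hv
  rw [L.loop_eq_comp hω hA hu'A, L.loop_eq_comp hω hA' hu']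

theorem pass_count (hω : ω ∈ DD V) (x : Pt) (k : ℕ) (S : Finset (Set Pt)) :
    ∀ (m : ℕ) (z p : Pt), z ∈ box x k → p ∈ box x k →
      (z.1 - p.1).natAbs + (z.2 - p.2).natAbs ≤ m → (∀ A ∈ S, A ∈ Loops ω) →
      (∀ A ∈ S, surr ω A z ∧ ¬ surr ω A p) →
      S.card ≤ m ∧ ∀ A ∈ S, ∃ u ∈ A, u ∈ box x (k + 1) := by
  classical
  intro m
  induction m generalizing S with
  | zero =>
    intro z p _ _ hm _ hS
    have : z = p := by
      apply Prod.ext <;> omega
    subst this
    have he : S = ∅ := by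
      apply Finset.eq_empty_of_forall_notMem
      intro A hA
      exact (hS A hA).2 (hS A hA).1
    rw [he]
    simp
  | succ m ih =>
    intro z p hz hp hm hL hS
    by_cases hzp : z = p
    · subst hzp
      have he : S = ∅ := by
        apply Finset.eq_empty_of_forall_notMem
        intro A hA
        exact (hS A hA).2 (hS A hA).1
      rw [he]
      simp
    obtain ⟨z', hadj, hz', hm'⟩ : ∃ z' : Pt, Adj z z' ∧ z' ∈ box x k ∧
        (z'.1 - p.1).natAbs + (z'.2 - p.2).natAbs ≤ m := by
      rw [mem_box_coord] at hz hp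
      by_cases h1 : z.1 = p.1
      · have h2 : z.2 ≠ p.2 := fun h => hzp (Prod.ext h1 h)
        rcases lt_or_gt_of_ne h2 with h | h
        · refine ⟨(z.1, z.2 + 1), by simp [Adj], ?_, ?_⟩
          · rw [mem_box_coord]; simp only; omega
          · simp only; omega
        · refine ⟨(z.1, z.2 - 1), by simp [Adj], ?_, ?_⟩
          · rw [mem_box_coord]; simp only; omega
          · simp only; omega
      · rcases lt_or_gt_of_ne h1 with h | h
        · refine ⟨(z.1 + 1, z.2), by simp [Adj], ?_, ?_⟩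
          · rw [mem_box_coord]; simp only; omega
          · simp only; omega
        · refine ⟨(z.1 - 1, z.2), by simp [Adj], ?_, ?_⟩
          · rw [mem_box_coord]; simp only; omega
          · simp only; omega
    set S1 := S.filter (fun A => ¬ surr ω A z') with hS1
    set S2 := S.filter (fun A => surr ω A z') with hS2
    obtain ⟨i1, i2⟩ := ih S2 z' p hz' hp hm' (fun A hA => hL A (mem_filter.1 hA).1)
      (fun A hA => ⟨(mem_filter.1 hA).2, (hS A (mem_filter.1 hA).1).2⟩)
    have c1 : S1.card ≤ 1 := by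
      rw [Finset.card_le_one]
      intro A hA A' hA'
      obtain ⟨h1, h2⟩ := mem_filter.1 hA
      obtain ⟨h1', h2'⟩ := mem_filter.1 hA'
      exact sep_adj hω hadj (hL A h1) (hL A' h1') (hS A h1).1 h2 (hS A' h1').1 h2'
    have hcard : S.card = S2.card + S1.card := by
      rw [hS1, hS2]
      exact (Finset.card_filter_add_card_filter_not _).symm
    refine ⟨by omega, fun A hA => ?_⟩
    by_cases h : surr ω A z'
    · exact i2 A (mem_filter.2 ⟨hA, h⟩)
    · obtain ⟨u, w, hu, hw, _, _, hs1, _, _, _⟩ := A1.L_step hω (hL A hA) hadj (hS A hA).1 h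
      exact ⟨u, hu, corners_box (corner_mem_corners hs1.1) hz⟩

/-! ## A loop which surrounds a point outside a box leaves the box -/

theorem leaves_box (hω : ω ∈ DD V) {A : Set Pt} (hA : A ∈ Loops ω) {x y : Pt} {r : ℕ}
    (hy : y ∉ box x r) (hs : surr ω A y) : ∃ u ∈ A, u ∉ box x r := by
  by_contra hcon
  push Not at hcon
  have hout : ∀ u : Pt, u ∉ box x r → u ∉ A := fun u hu h => hu (hcon u h)
  have hfin := L.intr_finite hω hA
  have fin : ∀ w : ℕ → Pt, w 0 = y → Function.Injective w →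
      (∀ n, ∃ u : Pt, u ∉ box x r ∧ w n ∈ facesAt u ∧ w (n + 1) ∈ facesAt u) → False := by
    intro w h0 hinj hstep
    have all : ∀ n, surr ω A (w n) := by
      intro n
      induction n with
      | zero => rw [h0]; exact hs
      | succ n ih =>
        obtain ⟨u, hu, h1, h2⟩ := hstep n
        exact (surr_around hω hA (hout u hu) h1 h2).1 ih
    exact Set.infinite_range_of_injective hinj (hfin.subset (by rintro _ ⟨n, rfl⟩; exact all n))
  rw [mem_box_coord] at hy
  have hc : y.1 < x.1 - r ∨ x.1 + r < y.1 ∨ y.2 < x.2 - r ∨ x.2 + r < y.2 := by omega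
  rcases hc with h | h | h | h
  · refine fin (fun n => (y.1 - n, y.2)) (by simp) ?_ fun n => ⟨(y.1 - n, y.2), ?_, ?_, ?_⟩
    · intro a b hab
      simp only [Prod.mk.injEq] at hab
      omega
    · intro hc; rw [mem_box_coord] at hc; obtain ⟨c1, c2, c3, c4⟩ := hc; dsimp only at c1 c2 c3 c4; omega
    · simp [facesAt]
    · simp only [facesAt, mem_insert, mem_singleton, Prod.mk.injEq]
      push_cast
      right; left; constructor <;> first | trivial | omega
  · refine fin (fun n => (y.1 + n, y.2)) (by simp) ?_ fun n => ⟨(y.1 + n + 1, y.2), ?_, ?_, ?_⟩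
    · intro a b hab
      simp only [Prod.mk.injEq] at hab
      omega
    · intro hc; rw [mem_box_coord] at hc; obtain ⟨c1, c2, c3, c4⟩ := hc; dsimp only at c1 c2 c3 c4; omega
    · simp only [facesAt, mem_insert, mem_singleton, Prod.mk.injEq]
      right; left; constructor <;> first | trivial | omega
    · simp only [facesAt, mem_insert, mem_singleton, Prod.mk.injEq]
      push_cast
      left; constructor <;> first | trivial | omega
  · refine fin (fun n => (y.1, y.2 - n)) (by simp) ?_ fun n => ⟨(y.1, y.2 - n), ?_, ?_, ?_⟩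
    · intro a b hab
      simp only [Prod.mk.injEq] at hab
      omega
    · intro hc; rw [mem_box_coord] at hc; obtain ⟨c1, c2, c3, c4⟩ := hc; dsimp only at c1 c2 c3 c4; omega
    · simp [facesAt]
    · simp only [facesAt, mem_insert, mem_singleton, Prod.mk.injEq]
      push_cast
      right; right; left; constructor <;> first | trivial | omega
  · refine fin (fun n => (y.1, y.2 + n)) (by simp) ?_ fun n => ⟨(y.1, y.2 + n + 1), ?_, ?_, ?_⟩
    · intro a b hab
      simp only [Prod.mk.injEq] at hab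
      omega
    · intro hc; rw [mem_box_coord] at hc; obtain ⟨c1, c2, c3, c4⟩ := hc; dsimp only at c1 c2 c3 c4; omega
    · simp only [facesAt, mem_insert, mem_singleton, Prod.mk.injEq]
      right; right; left; constructor <;> first | trivial | omega
    · simp only [facesAt, mem_insert, mem_singleton, Prod.mk.injEq]
      push_cast
      left; constructor <;> first | trivial | omega

/-! ## The number of unexplored loops around `x` and a point of the support of `φ` -/

open Classical in
/-- number of unexplored loops around `x` and around a point of the support of `φ` -/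
noncomputable def nU (ω : Conf) (E : Set Pt) (φ : Pt → ℝ) (x : Pt) : ℕ :=
  ((LF ω).filter (fun A => Unx E A ∧ surr ω A x ∧ ∃ y, φ y ≠ 0 ∧ surr ω A y)).card

open Classical in
theorem sum_unx {E : Set Pt} {g φ : Pt → ℝ} {S S' : Finset Pt} (hg : ∀ x, x ∉ S → g x = 0)
    (hφ : ∀ x, x ∉ S' → φ x = 0) :
    ∑ A ∈ (LF ω).filter (fun A => Unx E A), |mass ω g A * mass ω φ A| ≤
      (∑ y ∈ S', |φ y|) * ∑ x ∈ S, |g x| * nU ω E φ x := by
  have h1 : ∀ A, |mass ω φ A| ≤ if ∃ y, φ y ≠ 0 ∧ surr ω A y then ∑ y ∈ S', |φ y| else 0 := by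
    intro A
    rw [mass_eq_sum hφ]
    split_ifs with h
    · refine (abs_sum_le_sum_abs _ _).trans (sum_le_sum fun y _ => ?_)
      rw [abs_mul]
      refine mul_le_of_le_one_right (abs_nonneg _) ?_
      split_ifs <;> simp
    · push Not at h
      rw [Finset.sum_eq_zero, abs_zero]
      intro y _
      by_cases hy : φ y = 0
      · rw [hy, zero_mul]
      · rw [if_neg (h y hy), mul_zero]
  have h2 : ∀ A, |mass ω g A| ≤ ∑ x ∈ S, |g x| * (if surr ω A x then 1 else 0) := by
    intro A
    rw [mass_eq_sum hg]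
    refine (abs_sum_le_sum_abs _ _).trans (sum_le_sum fun y _ => ?_)
    rw [abs_mul]
    refine mul_le_mul_of_nonneg_left ?_ (abs_nonneg _)
    split_ifs <;> simp
  have hΦ : 0 ≤ ∑ y ∈ S', |φ y| := sum_nonneg fun _ _ => abs_nonneg _
  calc ∑ A ∈ (LF ω).filter (fun A => Unx E A), |mass ω g A * mass ω φ A|
      ≤ ∑ A ∈ (LF ω).filter (fun A => Unx E A),
        (∑ x ∈ S, |g x| * (if surr ω A x then 1 else 0)) *
          (if ∃ y, φ y ≠ 0 ∧ surr ω A y then ∑ y ∈ S', |φ y| else 0) := by
        refine sum_le_sum fun A _ => ?_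
        rw [abs_mul]
        refine mul_le_mul (h2 A) (h1 A) (abs_nonneg _) (sum_nonneg fun x _ => ?_)
        exact mul_nonneg (abs_nonneg _) (by split_ifs <;> norm_num)
    _ = (∑ y ∈ S', |φ y|) * ∑ x ∈ S, |g x| * nU ω E φ x := by
        clear h1 hΦ
        generalize (∑ y ∈ S', |φ y|) = Φ
        simp_rw [Finset.sum_mul]
        rw [Finset.sum_comm, Finset.mul_sum]
        refine sum_congr rfl fun x _ => ?_
        unfold nU
        rw [Finset.card_filter, Nat.cast_sum, Finset.mul_sum, Finset.mul_sum, Finset.sum_filter]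
        refine sum_congr rfl fun A _ => ?_
        generalize (∃ y, φ y ≠ 0 ∧ surr ω A y) = P
        by_cases a1 : Unx E A <;> by_cases a2 : surr ω A x <;> by_cases a3 : P <;>
          simp [a1, a2, a3, mul_comm]

open Classical in
/-- few unexplored loops at a layer point, and they pass near it -/
theorem nU_le {T : Temp} {τ : Stop T.V xS} (hω : ω ∈ DD T.V) (hN : τ.New ω) {φ : Pt → ℝ} {x : Pt}
    {s : ℕ} (hO : (OE T (τ.E ω)).Finite) (hx : x ∈ OE T (τ.E ω))
    (hdF : dF (OE T (τ.E ω)) x ≤ 2 * s) (hface : 2 * s < dF T.faceSet x) :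
    nU ω (τ.E ω) φ x ≤ 4 * s ∧ ∀ A ∈ Loops ω, Unx (τ.E ω) A → surr ω A x →
      ∃ u ∈ A, u ∈ box x (2 * s + 1) := by
  obtain ⟨p, hp, hxp⟩ := H904.exists_dF (exists_notMem hO) x
  have hpb : p ∈ box x (2 * s) := by
    rw [mem_box_dn905]; omega
  have hpT : Touch (τ.E ω) p := by
    by_contra hc
    exact hp ⟨face_of_dF hface p hpb, hc⟩
  have hns : ∀ A ∈ Loops ω, Unx (τ.E ω) A → ¬ surr ω A p := fun A hA hU =>
    unx_touch hω hN.1 hA hU hpT
  have hxb : x ∈ box x (2 * s) := by
    rw [mem_box_dn905, H904.dn_self]; omega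
  have hlen : (x.1 - p.1).natAbs + (x.2 - p.2).natAbs ≤ 4 * s := by
    rw [mem_box_coord] at hpb
    push_cast at hpb
    omega
  constructor
  · refine (pass_count hω x (2 * s) _ (4 * s) x p hxb hpb hlen ?_ ?_).1
    · intro A hA
      exact (mem_LF hω).1 (mem_filter.1 hA).1
    · intro A hA
      obtain ⟨h1, h2, h3, -⟩ := mem_filter.1 hA
      exact ⟨h3, hns A ((mem_LF hω).1 h1) h2⟩
  · intro A hA hU hsA
    refine (pass_count hω x (2 * s) {A} (4 * s) x p hxb hpb hlen ?_ ?_).2 A (mem_singleton_self A)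
    · intro B hB
      rw [mem_singleton] at hB
      rw [hB]; exact hA
    · intro B hB
      rw [mem_singleton] at hB
      rw [hB]; exact ⟨hsA, hns A hA hU⟩

open Classical in
/-- an unexplored loop at a layer point and an explored strand: two strands -/
theorem nU_two {T : Temp} {τ : Stop T.V xS} (hω : ω ∈ DD T.V) (hN : τ.New ω) {φ : Pt → ℝ}
    {x : Pt} {s D ρ0 : ℕ} (hO : (OE T (τ.E ω)).Finite) (hx : x ∈ OE T (τ.E ω))
    (hdF : dF (OE T (τ.E ω)) x ≤ 2 * s) (hface : D < dF T.faceSet x) (hsD : 4 * s ≤ D)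
    (hs : 1 ≤ s) (hD : D + 1 ≤ ρ0) (h1 : (ρ0 : ℤ) + 1 < |x.1 - xS|)
    (h2 : ρ0 < dn x (go ω (xS, τ.t ω) (τ.i ω + 1)))
    (hφ : ∀ y, φ y ≠ 0 → ρ0 < dn x y) (hn : nU ω (τ.E ω) φ x ≠ 0) :
    TwoVisit (fun _ : Fin 1 => box x (D + 1)) (res T.V (box x ρ0) ω) := by
  have hline : ∀ y : ℤ, (xS, y) ∉ box x ρ0 := by
    intro y hy
    have := far_line hy h1
    simp at this
  unfold nU at hn
  obtain ⟨A, hA⟩ := Finset.card_ne_zero.1 hn
  obtain ⟨hA1, hU, hsA, y, hy, hsy⟩ := mem_filter.1 hA
  have hAL := (mem_LF hω).1 hA1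
  obtain ⟨u, huA, hub⟩ := (nU_le (φ := φ) hω hN hO hx hdF (by omega)).2 A hAL hU hsA
  have huD : u ∈ box x (D + 1) := by
    rw [mem_box_dn905] at hub ⊢
    omega
  have huE : u ∉ τ.E ω := fun h => hU u h huA
  obtain ⟨q, hqA, hqB⟩ := leaves_box (x := x) (r := ρ0) hω hAL
    (by rw [mem_box_dn905]; have := hφ y hy; omega) hsy
  obtain ⟨p, hp, hxp⟩ := H904.exists_dF (exists_notMem hO) x
  have hpb : p ∈ box x D := by
    rw [mem_box_dn905]; omega
  obtain ⟨v', hv'c, hv'E⟩ : Touch (τ.E ω) p := by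
    by_contra hc
    exact hp ⟨face_of_dF hface p hpb, hc⟩
  have hv'B : v' ∈ box x (D + 1) := corners_box hv'c hpb
  have hinv : Inv2 ω := by
    have hω' := Finset.mem_product.1 hω
    exact ⟨(mem_PM.1 hω'.1).invol, (mem_PM.1 hω'.2).invol⟩
  have hW : ∀ z ∈ box x ρ0, z ∉ Wall ω (τ.E ω) := by
    intro z hz hW
    rcases wall_eti hω hN.1 hW with h | h
    · have := far_line hz h1
      omega
    · rw [mem_box_dn905, h] at hz
      omega
  have hst : ∃ p', Same ω v' p' ∧ p' ∉ box x ρ0 := by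
    rcases hv'E with ⟨y, _, hv⟩ | ⟨j, _, rfl⟩
    · exact ⟨(xS, y), same_symm hinv hv, hline y⟩
    · exact ⟨(xS, τ.t ω), same_symm hinv (go_same ω _ hω j), hline _⟩
  obtain ⟨p', hs', hp'B⟩ := hst
  have h3 : Same ω u q := by
    obtain ⟨a, ha, rfl⟩ := hAL
    exact same_trans (same_symm hinv huA) hqA
  exact two_strands hω hW (wall_closed ω _) huE hv'E h3 hqB hs' hp'B huD hv'B

end Vale.Agent.P155.NT905
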