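import Vale.Agent.P155.NT905.V1Drop

/-!
# P155, NT, V1: the first moment, the unexplored loops and the drop of the energy between two
times of the same loop, with the errors proportional to the probability of the event
-/

namespace Vale.Agent.P155.NT905

open Finset SW HT T905 T802 J S743 G45 H904 H12 S862 E4 T862 NT NT743

variable {V : Finset Pt} {ω : Conf}

theorem rpow_c905 {R x c : ℝ} (hR : 1 ≤ R) (h : c ≤ x) : R ^ (-x) ≤ R ^ (-c) :=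
  Real.rpow_le_rpow_of_exponent_le hR (by linarith)

/-- the error of the layer -/
theorem lay_num905 {γ a0 Kc CT β a c : ℝ} (hCT : 0 ≤ CT) (ha0 : 0 < a0) (hγ : 0 < γ)
    (hγ1 : γ ≤ 1) (hβ : 0 < β) (hKc : 1 ≤ Kc) {R n N s : ℕ} (hR : 1 ≤ R) (hn1 : 1 ≤ n)
    (hn : (R : ℝ) ^ a0 ≤ n) (hnN : n ≤ N) (hN : (N : ℝ) ≤ Kc * (n : ℝ) ^ (1 + γ ^ 2 / 4096))
    (s1 : 8 ≤ s) (s8 : (R : ℝ) ^ a ≤ s) (k1 : c ≤ a * β) (k2 : c ≤ a0 * (γ ^ 2 / 2048) * β)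
    (k3 : c ≤ a0 * (γ ^ 2 / 256)) :
    CT * ((⌈(N : ℝ) ^ (1 - γ ^ 2 / 1024)⌉₊ : ℝ) / n) ^ β +
      CT * (((N : ℝ) / n) ^ γ * (N : ℝ) ^ (-(γ ^ 2 / 128))) +
      CT * ((2 * (s : ℝ) + 1) / ((s ^ 2 - 2 * s : ℕ) + 1)) ^ β ≤
      (CT * (2 * Kc) ^ β + CT * Kc + CT * 6 ^ β) * (R : ℝ) ^ (-c) := by
  have hRr : (1 : ℝ) ≤ R := by exact_mod_cast hR
  have h1 := rhoN_pow (CT := CT) (β := β) (a0 := a0) hCT hγ hγ1 hβ hKc hR hn1 hn hnN hN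
  have h2 := twoN (CT := CT) hCT ha0 hγ hγ1 hKc hR hn1 hn hnN hN
  have h3 := s_num (CT := CT) (c := c) s1 hCT hβ hRr s8 k1
  have e1 : CT * (2 * Kc) ^ β * (R : ℝ) ^ (-(a0 * (γ ^ 2 / 2048) * β)) ≤
      CT * (2 * Kc) ^ β * (R : ℝ) ^ (-c) :=
    mul_le_mul_of_nonneg_left (rpow_c905 hRr k2) (by positivity)
  have e2 : CT * Kc * (R : ℝ) ^ (-(a0 * (γ ^ 2 / 256))) ≤ CT * Kc * (R : ℝ) ^ (-c) :=
    mul_le_mul_of_nonneg_left (rpow_c905 hRr k3) (by positivity)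
  have e3 : (CT * (2 * Kc) ^ β + CT * Kc + CT * 6 ^ β) * (R : ℝ) ^ (-c) =
      CT * (2 * Kc) ^ β * (R : ℝ) ^ (-c) + CT * Kc * (R : ℝ) ^ (-c) +
      CT * 6 ^ β * (R : ℝ) ^ (-c) := by ring
  rw [e3]
  linarith

/-- the error of the unexplored loops -/
theorem unx_num905 {γ a0 Kc CT M β a c : ℝ} (hCT : 0 ≤ CT) (hM : 0 ≤ M) (ha0 : 0 < a0)
    (hγ : 0 < γ) (hγ1 : γ ≤ 1) (hβ : 0 < β) (hKc : 1 ≤ Kc) {R n N s : ℕ} (hR : 1 ≤ R)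
    (hn1 : 1 ≤ n) (hn : (R : ℝ) ^ a0 ≤ n) (hnN : n ≤ N)
    (hN : (N : ℝ) ≤ Kc * (n : ℝ) ^ (1 + γ ^ 2 / 4096)) (hs : (s : ℝ) ≤ 2 * (R : ℝ) ^ a)
    (k1 : a + c ≤ a0 * (γ ^ 2 / 2048) * β) (k2 : a + c ≤ a0 * (γ ^ 2 / 256)) :
    4 * s * (M * ((⌈(N : ℝ) ^ (1 - γ ^ 2 / 1024)⌉₊ : ℝ) / n) ^ β +
      CT * (((N : ℝ) / n) ^ γ * (N : ℝ) ^ (-(γ ^ 2 / 128)))) ≤
      8 * (M * (2 * Kc) ^ β + CT * Kc) * (R : ℝ) ^ (-c) := by
  have hRr : (1 : ℝ) ≤ R := by exact_mod_cast hR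
  have hR0 : (0 : ℝ) < R := by linarith
  have h1 := rhoN_pow (CT := M) (β := β) (a0 := a0) hM hγ hγ1 hβ hKc hR hn1 hn hnN hN
  have h2 := twoN (CT := CT) hCT ha0 hγ hγ1 hKc hR hn1 hn hnN hN
  have e1 : M * (2 * Kc) ^ β * (R : ℝ) ^ (-(a0 * (γ ^ 2 / 2048) * β)) ≤
      M * (2 * Kc) ^ β * (R : ℝ) ^ (-(a + c)) :=
    mul_le_mul_of_nonneg_left (rpow_c905 hRr k1) (by positivity)
  have e2 : CT * Kc * (R : ℝ) ^ (-(a0 * (γ ^ 2 / 256))) ≤ CT * Kc * (R : ℝ) ^ (-(a + c)) :=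
    mul_le_mul_of_nonneg_left (rpow_c905 hRr k2) (by positivity)
  have e3 : (R : ℝ) ^ a * (R : ℝ) ^ (-(a + c)) = (R : ℝ) ^ (-c) := by
    rw [← Real.rpow_add hR0]
    congr 1
    ring
  calc 4 * s * (M * ((⌈(N : ℝ) ^ (1 - γ ^ 2 / 1024)⌉₊ : ℝ) / n) ^ β +
      CT * (((N : ℝ) / n) ^ γ * (N : ℝ) ^ (-(γ ^ 2 / 128))))
      ≤ 4 * (2 * (R : ℝ) ^ a) * ((M * (2 * Kc) ^ β + CT * Kc) * (R : ℝ) ^ (-(a + c))) := by
        apply mul_le_mul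
        · linarith
        · have : (M * (2 * Kc) ^ β + CT * Kc) * (R : ℝ) ^ (-(a + c)) =
              M * (2 * Kc) ^ β * (R : ℝ) ^ (-(a + c)) + CT * Kc * (R : ℝ) ^ (-(a + c)) := by ring
          rw [this]
          linarith
        · positivity
        · positivity
    _ = 8 * (M * (2 * Kc) ^ β + CT * Kc) * ((R : ℝ) ^ a * (R : ℝ) ^ (-(a + c))) := by ring
    _ = _ := by rw [e3]

theorem prR905 {R : ℕ} (hR : 1 ≤ R) {CT P k : ℝ} (hCT : 0 ≤ CT) (hk : 0 ≤ k) :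
    k * (4 * R + 8) * (CT * (R : ℝ) ^ (-(P + 1))) ≤ 12 * k * CT * (R : ℝ) ^ (-P) := by
  have hRr : (1 : ℝ) ≤ R := by exact_mod_cast hR
  have hR0 : (0 : ℝ) < R := by linarith
  have e1 : (R : ℝ) * (R : ℝ) ^ (-(P + 1)) = (R : ℝ) ^ (-P) := by
    have := Real.rpow_add hR0 1 (-(P + 1))
    rw [Real.rpow_one] at this
    rw [← this]
    congr 1
    ring
  calc k * (4 * R + 8) * (CT * (R : ℝ) ^ (-(P + 1))) ≤
      k * (12 * R) * (CT * (R : ℝ) ^ (-(P + 1))) := by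
        apply mul_le_mul_of_nonneg_right _ (by positivity)
        apply mul_le_mul_of_nonneg_left _ hk
        linarith
    _ = 12 * k * CT * ((R : ℝ) * (R : ℝ) ^ (-(P + 1))) := by ring
    _ = _ := by rw [e1]

/-- final collection -/
theorem fin905 {x k1 k2 k3 a1 a2 a3 a4 a5 C : ℝ} (h : x ≤ k1 * a1 + k2 * a2 + k3 * a3 +
    k3 * a4 + a5) (h1 : k1 ≤ C) (h2 : k2 ≤ C) (h3 : k3 ≤ C) (hC : 1 ≤ C) (p1 : 0 ≤ a1)
    (p2 : 0 ≤ a2) (p3 : 0 ≤ a3) (p4 : 0 ≤ a4) (p5 : 0 ≤ a5) :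
    x ≤ C * (a1 + a2 + a3 + a4 + a5) := by
  have q1 := mul_le_mul_of_nonneg_right h1 p1
  have q2 := mul_le_mul_of_nonneg_right h2 p2
  have q3 := mul_le_mul_of_nonneg_right h3 p3
  have q4 := mul_le_mul_of_nonneg_right h3 p4
  have q5 := mul_le_mul_of_nonneg_right hC p5
  have e : C * (a1 + a2 + a3 + a4 + a5) = C * a1 + C * a2 + C * a3 + C * a4 + C * a5 := by ring
  linarith

theorem ex_dom_nonneg {Dom : Conf → Prop} {f : Conf → ℝ} (h : ∀ ω ∈ DD V, Dom ω → 0 ≤ f ω)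
    {_ : DecidablePred Dom} : 0 ≤ Ex V (fun ω => if Dom ω then f ω else 0) := by
  refine H12.Ex_nonneg fun ω hω => ?_
  split_ifs with hd
  · exact h ω hω hd
  · exact le_rfl

open Classical in
/-- the data produced by the analysis at the scales `n, N, s, ρ0` -/
structure V1S (T : Temp) (R n N s ρ0 : ℕ) (h C0 M e r rP C1 C2 Ce CT : ℝ)
    (Bd : Pt → Conf → Prop) : Prop where
  s1 : 8 ≤ s
  hC0 : 0 ≤ C0
  hM : 0 ≤ M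
  hr : 0 ≤ r
  hrP : 0 ≤ rP
  hC1 : 0 ≤ C1
  hC2 : 0 ≤ C2
  hCe : 0 ≤ Ce
  hCT : 0 ≤ CT
  he : e = Ce * r
  prB : ∀ q, Pr T.V (Bd q) ≤ CT * rP
  prB' : ∀ q, 128 * C0 * (M * (4 * R + 8)) * Pr T.V (Bd q) ≤ 12 * (128 * C0 * M) * CT * rP
  one : ∀ (xS : ℤ) (τ : Stop T.V xS) (Dom : Conf → Prop) (φ : Conf → Pt → ℝ)
      (p : Conf → Pt) (q : Pt), FMs τ Dom φ →
      (∀ ω ∈ DD T.V, Dom ω → p ω ∉ OE T (τ.E ω) ∧ IsBump (p ω) n (C0 / (n : ℝ) ^ 2) (φ ω)) →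
      (∀ ω ∈ DD T.V, Dom ω → ∀ y, φ ω y ≠ 0 → y ∈ OE T (τ.E ω)) →
      ∀ ω ∈ DD T.V, Dom ω → (∀ A : Set Pt, |mass ω (gL T τ.E φ s ω) A| ≤ M) ∧
        |mass ω (gL T τ.E φ s ω) (τ.L ω) -
          ∑ x ∈ (oe_finite T (τ.E ω)).toFinset, φ ω x * τ.Hf ω x| ≤
          e + ((farL τ φ s N q ρ0 ω + zoneS τ φ s N q h ω) + (M + 128 * C0) *
            (if Bd q ω then 1 else 0)) ∧
        ((∀ y, φ ω y ≠ 0 → ρ0 + 2 * s < dF (OE T (τ.E ω)) y) → UnS τ φ s ω ≤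
          128 * C0 * e + (128 * C0 * (farU τ φ s N q ρ0 ω + zoneU τ φ s N q h ω) +
            128 * C0 * (M * (4 * R + 8)) * (if Bd q ω then 1 else 0)))
  me : ∀ (xS : ℤ) (τ : Stop T.V xS) (Dom : Conf → Prop) (φ : Conf → Pt → ℝ)
      (p : Conf → Pt), FMs τ Dom φ →
      (∀ ω ∈ DD T.V, Dom ω → p ω ∉ OE T (τ.E ω) ∧ IsBump (p ω) n (C0 / (n : ℝ) ^ 2) (φ ω)) →
      |Ex T.V (fun ω => if Dom ω then mass ω (ff T τ.E φ s ω) (τ.L ω) else 0)| ≤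
        C1 * r * Pr T.V Dom + C1 * rP ∧
      |Ex T.V (fun ω => if Dom ω then
        ∑ A ∈ LF ω, mass ω (ff T τ.E φ s ω) A * mass ω (φ ω) A +
        2 / Real.pi * pair (φ ω) (pot (OE T (τ.E ω)) (φ ω)) else 0)| ≤
        C2 * r * Pr T.V Dom + C2 * rP

section
variable {T : Temp} {R n N s ρ0 : ℕ} {h C0 M e r rP C1 C2 Ce CT : ℝ} {Bd : Pt → Conf → Prop}

open Classical in
/-- the first moment -/
theorem V1S.gd (S : V1S T R n N s ρ0 h C0 M e r rP C1 C2 Ce CT Bd) {xS : ℤ} {τ : Stop T.V xS}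
    {Dom : Conf → Prop} {φ : Conf → Pt → ℝ} {p : Conf → Pt} (q : Pt) (hd : FMs τ Dom φ)
    (hb : ∀ ω ∈ DD T.V, Dom ω → p ω ∉ OE T (τ.E ω) ∧ IsBump (p ω) n (C0 / (n : ℝ) ^ 2) (φ ω))
    (hsupp : ∀ ω ∈ DD T.V, Dom ω → ∀ y, φ ω y ≠ 0 → y ∈ OE T (τ.E ω)) :
    |Ex T.V (fun ω => if Dom ω then gdif T τ.E τ.L φ τ.Hf ω else 0)| ≤
      (C1 + Ce + (M + 128 * C0) * CT) * (r * Pr T.V Dom) +
      (C1 + Ce + (M + 128 * C0) * CT) * rP + Ex T.V (fun ω => if Dom ω then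
        farL τ φ s N q ρ0 ω + zoneS τ φ s N q h ω else 0) := by
  have hM := S.hM
  have hC0 := S.hC0
  have hC1 := S.hC1
  have hCe := S.hCe
  have hCT := S.hCT
  have hr := S.hr
  have hrP := S.hrP
  have h1 := v1_gd S.s1 hM hC0 (Ce := Ce) (CT := CT) (r := r) (rP := rP) (le_of_eq S.he)
    (S.me xS τ Dom φ p hd hb).1 (fun ω hω hD => (S.one xS τ Dom φ p q hd hb hsupp ω hω hD).2.1)
    (S.prB q)
  have hD := Vale.Agent.P155.E.Pr_nonneg T.V Dom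
  have q0 : 0 ≤ (M + 128 * C0) * CT := by positivity
  have q1 : (C1 + Ce) * (r * Pr T.V Dom) ≤
      (C1 + Ce + (M + 128 * C0) * CT) * (r * Pr T.V Dom) :=
    mul_le_mul_of_nonneg_right (by linarith) (by positivity)
  have q2 : (C1 + (M + 128 * C0) * CT) * rP ≤ (C1 + Ce + (M + 128 * C0) * CT) * rP :=
    mul_le_mul_of_nonneg_right (by linarith) hrP
  linarith

open Classical in
/-- the unexplored loops -/
theorem V1S.uns (S : V1S T R n N s ρ0 h C0 M e r rP C1 C2 Ce CT Bd) {xS : ℤ} {τ : Stop T.V xS}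
    {Dom : Conf → Prop} {φ : Conf → Pt → ℝ} {p : Conf → Pt} (q : Pt) (hd : FMs τ Dom φ)
    (hb : ∀ ω ∈ DD T.V, Dom ω → p ω ∉ OE T (τ.E ω) ∧ IsBump (p ω) n (C0 / (n : ℝ) ^ 2) (φ ω))
    (hsupp : ∀ ω ∈ DD T.V, Dom ω → ∀ y, φ ω y ≠ 0 → y ∈ OE T (τ.E ω))
    (hdeep : ∀ ω ∈ DD T.V, Dom ω → ∀ y, φ ω y ≠ 0 → ρ0 + 2 * s < dF (OE T (τ.E ω)) y) :
    Ex T.V (fun ω => if Dom ω then UnS τ φ s ω else 0) ≤
      128 * C0 * Ce * (r * Pr T.V Dom) + 12 * (128 * C0 * M) * CT * rP +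
      128 * C0 * Ex T.V (fun ω => if Dom ω then
        farU τ φ s N q ρ0 ω + zoneU τ φ s N q h ω else 0) := by
  have hM := S.hM
  have hC0 := S.hC0
  have h1 := ex_dom_bound (V := T.V) (Dom := Dom) (F := UnS τ φ s) (Bd := Bd q)
    (g := fun ω => 128 * C0 * (farU τ φ s N q ρ0 ω + zoneU τ φ s N q h ω))
    (M' := 128 * C0 * (M * (4 * R + 8))) (e := 128 * C0 * e) (P := Pr T.V (Bd q))
    (by positivity) (fun ω hω hD =>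
      (S.one xS τ Dom φ p q hd hb hsupp ω hω hD).2.2 (hdeep ω hω hD)) le_rfl
  rw [ex_dom_mul] at h1
  have h2 := S.prB' q
  have h3 : 128 * C0 * e * Pr T.V Dom = 128 * C0 * Ce * (r * Pr T.V Dom) := by rw [S.he]; ring
  linarith

theorem oe_anti_stop {xS : ℤ} {τ σ : Stop T.V xS} {ω : Conf} (h : σ.t ω = τ.t ω ∧ τ.i ω ≤ σ.i ω) :
    OE T (σ.E ω) ⊆ OE T (τ.E ω) := by
  obtain ⟨ht, hi⟩ := h
  have hE : τ.E ω ⊆ σ.E ω := by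
    rintro v (hv | ⟨j, hj, hv⟩)
    · left; rw [ht]; exact hv
    · right; exact ⟨j, hj.trans hi, by rw [ht]; exact hv⟩
  intro x hx
  refine ⟨hx.1, fun h2 => hx.2 ?_⟩
  obtain ⟨v, h3, h4⟩ := h2
  exact ⟨v, h3, hE h4⟩

open Classical in
/-- the drop -/
theorem V1S.drop (S : V1S T R n N s ρ0 h C0 M e r rP C1 C2 Ce CT Bd) {xS : ℤ}
    {τ σ : Stop T.V xS} {Dom : Conf → Prop} {φ : Conf → Pt → ℝ} {p : Conf → Pt} (q : Pt)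
    (hdτ : FMs τ Dom φ) (hdσ : FMs σ Dom φ)
    (hloop : ∀ ω ∈ DD T.V, Dom ω → σ.t ω = τ.t ω ∧ τ.i ω ≤ σ.i ω)
    (hb : ∀ ω ∈ DD T.V, Dom ω → p ω ∉ OE T (τ.E ω) ∧ IsBump (p ω) n (C0 / (n : ℝ) ^ 2) (φ ω))
    (hsupp : ∀ ω ∈ DD T.V, Dom ω → ∀ y, φ ω y ≠ 0 → y ∈ OE T (σ.E ω))
    (hφ0 : ∀ ω ∈ DD T.V, Dom ω → ∀ y, 0 ≤ φ ω y) {A1 : ℝ} 
    (hgd : |Ex T.V (fun ω => if Dom ω then gdif T τ.E τ.L φ τ.Hf ω else 0)| ≤ A1) :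
    Ex T.V (fun ω => if Dom ω then dropE τ σ φ ω else 0) ≤
      2 * (2 * (C2 * r * Pr T.V Dom + C2 * rP) +
        2 * M * (Ex T.V (fun ω => if Dom ω then hitE τ φ ω else 0) + A1) +
        Ex T.V (fun ω => if Dom ω then UnS τ φ s ω + UnS σ φ s ω else 0)) ∧
    ∀ m0 : ℝ, 0 ≤ m0 → m0 ≤ 1 →
      (∀ ω ∈ DD T.V, Dom ω → ∑ x ∈ (oe_finite T (τ.E ω)).toFinset, φ ω x = m0) →
    Ex T.V (fun ω => if Dom ω then dropE τ σ φ ω else 0) ≤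
      2 * (2 * (C2 * r * Pr T.V Dom + C2 * rP) + 2 * (C1 * r * Pr T.V Dom + C1 * rP) +
        2 * M * (Ex T.V (fun ω => if Dom ω then hitE' τ φ ω else 0) + A1) +
        Ex T.V (fun ω => if Dom ω then UnS τ φ s ω + UnS σ φ s ω else 0)) := by
  have hD := Vale.Agent.P155.E.Pr_nonneg T.V Dom
  have hM := S.hM
  have hr := S.hr
  have hrP := S.hrP
  have hC1 := S.hC1
  have hC2 := S.hC2
  have hA1 : 0 ≤ A1 := (abs_nonneg _).trans hgd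
  have hsuppτ : ∀ ω ∈ DD T.V, Dom ω → ∀ y, φ ω y ≠ 0 → y ∈ OE T (τ.E ω) :=
    fun ω hω hd y hy => oe_anti_stop (hloop ω hω hd) (hsupp ω hω hd y hy)
  have hbσ : ∀ ω ∈ DD T.V, Dom ω →
      p ω ∉ OE T (σ.E ω) ∧ IsBump (p ω) n (C0 / (n : ℝ) ^ 2) (φ ω) :=
    fun ω hω hd => ⟨fun h => (hb ω hω hd).1 (oe_anti_stop (hloop ω hω hd) h), (hb ω hω hd).2⟩
  have hptτ := S.one xS τ Dom φ p q hdτ hb hsuppτ
  have hptσ := S.one xS σ Dom φ p q hdσ hbσ hsupp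
  obtain ⟨m1, b1⟩ := S.me xS τ Dom φ p hdτ hb
  obtain ⟨m2, b2⟩ := S.me xS σ Dom φ p hdσ hbσ
  have hUn0 : 0 ≤ Ex T.V (fun ω => if Dom ω then UnS τ φ s ω + UnS σ φ s ω else 0) :=
    ex_dom_nonneg fun ω _ _ => add_nonneg (UnS_nonneg _ _ _ _) (UnS_nonneg _ _ _ _)
  constructor
  · have h := v1_dropH S.s1 hdτ hdσ hloop hsuppτ hsupp hφ0 hM
      (fun ω hω hd => (hptτ ω hω hd).1) (fun ω hω hd => (hptσ ω hω hd).1) b1 b2 hgd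
    have hHh0 : 0 ≤ Ex T.V (fun ω => if Dom ω then hitE τ φ ω else 0) :=
      ex_dom_nonneg fun ω hω hd => Finset.sum_nonneg fun x _ =>
        mul_nonneg (hφ0 ω hω hd x) ((τ.Hf_spec ω).nonneg x)
    exact two_le905 (by positivity) h
  · intro m0 hm0 hm1 hmass0
    have h := v1_dropC S.s1 hdτ hdσ hloop hsuppτ hsupp hφ0 hm0 hm1 hmass0 hM
      (fun ω hω hd => (hptτ ω hω hd).1) (fun ω hω hd => (hptσ ω hω hd).1) m1 m2 b1 b2 hgd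
    have hHh0 : 0 ≤ Ex T.V (fun ω => if Dom ω then hitE' τ φ ω else 0) :=
      ex_dom_nonneg fun ω hω hd => Finset.sum_nonneg fun x _ =>
        mul_nonneg (hφ0 ω hω hd x) (sub_nonneg.2 ((τ.Hf_spec ω).le_one x))
    exact two_le905 (by positivity) h

end

end Vale.Agent.P155.NT905
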