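import Vale.Agent.P155.NT905.V1Pt

/-!
# P155, NT, V1: assembly in expectation
-/

namespace Vale.Agent.P155.NT905

open Finset SW HT T905 T802 J S743 G45 H904 H12 S862 E4 T862 NT NT743

variable {V : Finset Pt} {ω : Conf}

open Classical in
theorem ex_dom_bound {Dom Bd : Conf → Prop} {F g : Conf → ℝ} {e M' P : ℝ} (hM' : 0 ≤ M')
    (h : ∀ ω ∈ DD V, Dom ω → F ω ≤ e + (g ω + M' * (if Bd ω then 1 else 0)))
    (hP : Pr V Bd ≤ P) :
    Ex V (fun ω => if Dom ω then F ω else 0) ≤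
      e * Pr V Dom + Ex V (fun ω => if Dom ω then g ω else 0) + M' * P := by
  have h1 := ex_dom_mono (V := V) (Dom := Dom) (f := F)
    (g := fun ω => e + (g ω + M' * (if Bd ω then (1 : ℝ) else 0))) h
  rw [ex_dom_add, ex_dom_const, ex_dom_add, ex_dom_mul] at h1
  have h2 : Ex V (fun ω => if Dom ω then (if Bd ω then (1 : ℝ) else 0) else 0) ≤ Pr V Bd := by
    rw [Vale.Agent.P155.E.Pr_eq_avg, Ex_eq_avg]
    refine avg_mono fun ω _ => ?_
    split_ifs <;> norm_num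
  have h3 : M' * Ex V (fun ω => if Dom ω then (if Bd ω then (1 : ℝ) else 0) else 0) ≤ M' * P :=
    mul_le_mul_of_nonneg_left (h2.trans hP) hM'
  linarith

open Classical in
/-- first moment of the mass of `φ` in the loop -/
theorem gd_core {T : Temp} {E L : Conf → Set Pt} {φ H : Conf → Pt → ℝ} {Dom : Conf → Prop}
    {s : ℕ} (s1 : 8 ≤ s) {e e' M' P : ℝ} {g : Conf → ℝ} {Bd : Conf → Prop} (hM' : 0 ≤ M')
    (hA : |Ex T.V (fun ω => if Dom ω then mass ω (ff T E φ s ω) (L ω) else 0)| ≤ e')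
    (key : ∀ ω ∈ DD T.V, Dom ω → |mass ω (gL T E φ s ω) (L ω) -
      ∑ x ∈ (oe_finite T (E ω)).toFinset, φ ω x * H ω x| ≤
      e + (g ω + M' * (if Bd ω then 1 else 0)))
    (hP : Pr T.V Bd ≤ P) :
    |Ex T.V (fun ω => if Dom ω then gdif T E L φ H ω else 0)| ≤
      e' + (e * Pr T.V Dom + Ex T.V (fun ω => if Dom ω then g ω else 0) + M' * P) := by
  have hsplit : Ex T.V (fun ω => if Dom ω then gdif T E L φ H ω else 0) =
      -Ex T.V (fun ω => if Dom ω then mass ω (ff T E φ s ω) (L ω) else 0) +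
      Ex T.V (fun ω => if Dom ω then (mass ω (gL T E φ s ω) (L ω) -
        ∑ x ∈ (oe_finite T (E ω)).toFinset, φ ω x * H ω x) else 0) := by
    have h1 : Ex T.V (fun ω => if Dom ω then gdif T E L φ H ω else 0) =
        Ex T.V (fun ω => if Dom ω then (-1 * mass ω (ff T E φ s ω) (L ω) +
          (mass ω (gL T E φ s ω) (L ω) -
            ∑ x ∈ (oe_finite T (E ω)).toFinset, φ ω x * H ω x)) else 0) := by
      congr 1
      funext ω
      by_cases h : Dom ω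
      · rw [if_pos h, if_pos h, gdif_eq s1 ω]
        ring
      · rw [if_neg h, if_neg h]
    rw [h1, ex_dom_add, ex_dom_mul]
    ring
  have h2 := ex_dom_bound hM' key hP
  have h3 : |Ex T.V (fun ω => if Dom ω then (mass ω (gL T E φ s ω) (L ω) -
        ∑ x ∈ (oe_finite T (E ω)).toFinset, φ ω x * H ω x) else 0)| ≤
      Ex T.V (fun ω => if Dom ω then |mass ω (gL T E φ s ω) (L ω) -
        ∑ x ∈ (oe_finite T (E ω)).toFinset, φ ω x * H ω x| else 0) := by
    refine (abs_Ex_le _).trans (le_of_eq ?_)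
    congr 1
    funext ω
    split_ifs
    · rfl
    · exact abs_zero
  rw [hsplit]
  refine (abs_add_le _ _).trans ?_
  rw [abs_neg]
  linarith

open Classical in
/-- the drop of the energy between two times of the same loop -/
theorem cov_core {T : Temp} {xS : ℤ} {τ σ : Stop T.V xS} {Dom : Conf → Prop}
    {φ : Conf → Pt → ℝ} {s : ℕ} (s1 : 8 ≤ s) (hdτ : FMs τ Dom φ) (hdσ : FMs σ Dom φ)
    (hloop : ∀ ω ∈ DD T.V, Dom ω → σ.t ω = τ.t ω ∧ τ.i ω ≤ σ.i ω)
    (hsupp : ∀ ω ∈ DD T.V, Dom ω → ∀ y, φ ω y ≠ 0 → y ∈ OE T (σ.E ω))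
    {e' eU M' P : ℝ} {X gτ gσ : Conf → ℝ} {Bd : Conf → Prop} (hM' : 0 ≤ M')
    (hX : ∀ ω ∈ DD T.V, Dom ω →
      (mass ω (gL T σ.E φ s ω) (τ.L ω) - mass ω (gL T τ.E φ s ω) (τ.L ω)) *
        mass ω (φ ω) (τ.L ω) ≤ X ω)
    (hUτ : ∀ ω ∈ DD T.V, Dom ω → ∑ A ∈ (LF ω).filter (fun A => Unx (τ.E ω) A),
      |mass ω (gL T τ.E φ s ω) A * mass ω (φ ω) A| ≤ eU + (gτ ω + M' * (if Bd ω then 1 else 0)))
    (hUσ : ∀ ω ∈ DD T.V, Dom ω → ∑ A ∈ (LF ω).filter (fun A => Unx (σ.E ω) A),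
      |mass ω (gL T σ.E φ s ω) A * mass ω (φ ω) A| ≤ eU + (gσ ω + M' * (if Bd ω then 1 else 0)))
    (hcτ : |Ex T.V (fun ω => if Dom ω then
        ∑ A ∈ LF ω, mass ω (ff T τ.E φ s ω) A * mass ω (φ ω) A +
        2 / Real.pi * pair (φ ω) (pot (OE T (τ.E ω)) (φ ω)) else 0)| ≤ e')
    (hcσ : |Ex T.V (fun ω => if Dom ω then
        ∑ A ∈ LF ω, mass ω (ff T σ.E φ s ω) A * mass ω (φ ω) A +
        2 / Real.pi * pair (φ ω) (pot (OE T (σ.E ω)) (φ ω)) else 0)| ≤ e')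
    (hP : Pr T.V Bd ≤ P) :
    2 / Real.pi * Ex T.V (fun ω => if Dom ω then pair (φ ω) (pot (OE T (τ.E ω)) (φ ω)) -
        pair (φ ω) (pot (OE T (σ.E ω)) (φ ω)) else 0) ≤
      2 * e' + Ex T.V (fun ω => if Dom ω then X ω else 0) +
      (2 * eU * Pr T.V Dom + Ex T.V (fun ω => if Dom ω then gτ ω + gσ ω else 0) +
        2 * M' * P) := by
  have hb := ex_dom_bound (V := T.V) (Dom := Dom) (Bd := Bd) (M' := 2 * M')
    (F := fun ω => (∑ A ∈ LF ω, mass ω (ff T σ.E φ s ω) A * mass ω (φ ω) A -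
        ∑ A ∈ LF ω, mass ω (ff T τ.E φ s ω) A * mass ω (φ ω) A) - X ω)
    (g := fun ω => gτ ω + gσ ω) (e := 2 * eU) (by positivity) (fun ω hω hd => by
      obtain ⟨ht, hi⟩ := hloop ω hω hd
      have h1 := cov_two hω (hdτ.new ω hω hd) (hdσ.new ω hω hd) ht hi s1 (φ := φ)
        (fun x hx => by
          by_contra hc
          exact hx (hsupp ω hω hd x hc))
      have h2 := hX ω hω hd
      have h3 := hUτ ω hω hd
      have h4 := hUσ ω hω hd
      have h5 := (abs_le.1 h1).2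
      generalize (if Bd ω then (1 : ℝ) else 0) = b at h3 h4 ⊢
      linarith) hP
  have e1 : 2 / Real.pi * Ex T.V (fun ω => if Dom ω then pair (φ ω) (pot (OE T (τ.E ω)) (φ ω)) -
        pair (φ ω) (pot (OE T (σ.E ω)) (φ ω)) else 0) =
      Ex T.V (fun ω => if Dom ω then
        ∑ A ∈ LF ω, mass ω (ff T τ.E φ s ω) A * mass ω (φ ω) A +
        2 / Real.pi * pair (φ ω) (pot (OE T (τ.E ω)) (φ ω)) else 0) +
      (-1 * Ex T.V (fun ω => if Dom ω then
        ∑ A ∈ LF ω, mass ω (ff T σ.E φ s ω) A * mass ω (φ ω) A +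
        2 / Real.pi * pair (φ ω) (pot (OE T (σ.E ω)) (φ ω)) else 0) +
      (Ex T.V (fun ω => if Dom ω then
        (∑ A ∈ LF ω, mass ω (ff T σ.E φ s ω) A * mass ω (φ ω) A -
        ∑ A ∈ LF ω, mass ω (ff T τ.E φ s ω) A * mass ω (φ ω) A) - X ω else 0) +
      Ex T.V (fun ω => if Dom ω then X ω else 0))) := by
    rw [← ex_dom_mul, ← ex_dom_add, ← ex_dom_mul, ← ex_dom_add, ← ex_dom_add]
    congr 1
    funext ω
    split_ifs
    · ring
    · rfl
  rw [e1]
  have h1 := (abs_le.1 hcτ).2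
  have h2 := (abs_le.1 hcσ).1
  linarith

/-- masses of `φ` in the loop and outside -/
theorem mass_phi {T : Temp} {E L : Conf → Set Pt} {φ H : Conf → Pt → ℝ}
    (hsupp : ∀ y, φ ω y ≠ 0 → y ∈ OE T (E ω)) :
    mass ω (φ ω) (L ω) = ∑ x ∈ (oe_finite T (E ω)).toFinset, φ ω x * H ω x +
      gdif T E L φ H ω := by
  classical
  rw [mass_eq_sum (s := (oe_finite T (E ω)).toFinset) (fun x hx => by
    by_contra hc
    exact hx (by rw [Set.Finite.mem_toFinset]; exact hsupp x hc))]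
  unfold gdif
  rw [← Finset.sum_add_distrib]
  refine Finset.sum_congr rfl fun x _ => ?_
  ring

theorem mass_phi_nonneg {L : Set Pt} {φ : Pt → ℝ} (h : ∀ y, 0 ≤ φ y) : 0 ≤ mass ω φ L := by
  classical
  unfold mass
  refine finsum_nonneg fun x => mul_nonneg (h x) ?_
  split_ifs <;> norm_num

theorem mass_phi_le {T : Temp} {E : Set Pt} {L : Set Pt} {φ : Pt → ℝ} (h : ∀ y, 0 ≤ φ y)
    (hsupp : ∀ y, φ y ≠ 0 → y ∈ OE T E) :
    mass ω φ L ≤ ∑ x ∈ (oe_finite T E).toFinset, φ x := by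
  classical
  rw [mass_eq_sum (s := (oe_finite T E).toFinset) (fun x hx => by
    by_contra hc
    exact hx (by rw [Set.Finite.mem_toFinset]; exact hsupp x hc))]
  refine Finset.sum_le_sum fun x _ => ?_
  refine mul_le_of_le_one_right (h x) ?_
  split_ifs <;> norm_num

/-- the mass of `Δ(χu)` is the mass of the layer function minus the mass of `φ` -/
theorem mass_ff {T : Temp} {E : Conf → Set Pt} {φ : Conf → Pt → ℝ} {s : ℕ} (hs : 8 ≤ s)
    (hsupp : ∀ y, φ ω y ≠ 0 → y ∈ OE T (E ω)) (A : Set Pt) :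
    mass ω (ff T E φ s ω) A = mass ω (gL T E φ s ω) A - mass ω (φ ω) A := by
  have hO := oe_finite T (E ω)
  have hcut : IsCut (OE T (E ω)) s (32 ^ 4) (cutf (OE T (E ω)) s) :=
    cutf_isCut (exists_notMem hO) hs le_rfl
  have hg0 : ∀ x, x ∉ hO.toFinset → gL T E φ s ω x = 0 :=
    fL_zero_off hO (by omega : 1 ≤ s) hcut (pot_spec hO (φ ω))
  have hφ0 : ∀ x, x ∉ hO.toFinset → φ ω x = 0 := fun x hx => by
    by_contra hc
    exact hx (by rw [Set.Finite.mem_toFinset]; exact hsupp x hc)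
  rw [← mass_sub hg0 hφ0]
  congr 1
  funext x
  exact ff_eq hs (fun x hx => by
    by_contra hc
    exact hx (hsupp x hc)) x

end Vale.Agent.P155.NT905
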