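import Vale.Agent.P155.NT905.V1Core

/-!
# P155, NT, V1: the drop of the energy between two times of the same loop
-/

namespace Vale.Agent.P155.NT905

open Finset SW HT T905 T802 J S743 G45 H904 H12 S862 E4 T862 NT NT743

variable {V : Finset Pt} {ω : Conf}

open Classical in
/-- the unexplored loops -/
noncomputable def UnS {T : Temp} {xS : ℤ} (τ : Stop T.V xS) (φ : Conf → Pt → ℝ) (s : ℕ)
    (ω : Conf) : ℝ :=
  ∑ A ∈ (LF ω).filter (fun A => Unx (τ.E ω) A), |mass ω (gL T τ.E φ s ω) A * mass ω (φ ω) A|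

theorem UnS_nonneg {T : Temp} {xS : ℤ} (τ : Stop T.V xS) (φ : Conf → Pt → ℝ) (s : ℕ)
    (ω : Conf) : 0 ≤ UnS τ φ s ω := Finset.sum_nonneg fun _ _ => abs_nonneg _

/-- the drop of the energy -/
noncomputable def dropE {T : Temp} {xS : ℤ} (τ σ : Stop T.V xS) (φ : Conf → Pt → ℝ)
    (ω : Conf) : ℝ :=
  pair (φ ω) (pot (OE T (τ.E ω)) (φ ω)) - pair (φ ω) (pot (OE T (σ.E ω)) (φ ω))

/-- `⟨φ, H⟩` -/
noncomputable def hitE {T : Temp} {xS : ℤ} (τ : Stop T.V xS) (φ : Conf → Pt → ℝ)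
    (ω : Conf) : ℝ := ∑ x ∈ (oe_finite T (τ.E ω)).toFinset, φ ω x * τ.Hf ω x

/-- `⟨φ, 1 - H⟩` -/
noncomputable def hitE' {T : Temp} {xS : ℤ} (τ : Stop T.V xS) (φ : Conf → Pt → ℝ)
    (ω : Conf) : ℝ := ∑ x ∈ (oe_finite T (τ.E ω)).toFinset, φ ω x * (1 - τ.Hf ω x)

theorem two_le905 {x B : ℝ} (hB : 0 ≤ B) (h : 2 / Real.pi * x ≤ B) : x ≤ 2 * B := by
  have hpi := Real.pi_pos
  have h4 := Real.pi_le_four
  have h1 : x ≤ Real.pi / 2 * B := by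
    have := mul_le_mul_of_nonneg_left h (by positivity : (0 : ℝ) ≤ Real.pi / 2)
    have e1 : Real.pi / 2 * (2 / Real.pi * x) = x := by field_simp
    linarith
  have h2 : Real.pi / 2 * B ≤ 2 * B := mul_le_mul_of_nonneg_right (by linarith) hB
  linarith

open Classical in
/-- the first moment at one time -/
theorem v1_gd {T : Temp} {xS : ℤ} {τ : Stop T.V xS} {Dom : Conf → Prop}
    {φ : Conf → Pt → ℝ} {s : ℕ} (s1 : 8 ≤ s) {M C0 e r rP C1 Ce CT : ℝ} {g : Conf → ℝ}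
    {Bd : Conf → Prop} (hM0 : 0 ≤ M) (hC0 : 0 ≤ C0) (he : e ≤ Ce * r)
    (hA : |Ex T.V (fun ω => if Dom ω then mass ω (ff T τ.E φ s ω) (τ.L ω) else 0)| ≤
      C1 * r * Pr T.V Dom + C1 * rP)
    (key : ∀ ω ∈ DD T.V, Dom ω → |mass ω (gL T τ.E φ s ω) (τ.L ω) -
      ∑ x ∈ (oe_finite T (τ.E ω)).toFinset, φ ω x * τ.Hf ω x| ≤
      e + (g ω + (M + 128 * C0) * (if Bd ω then 1 else 0)))
    (hP : Pr T.V Bd ≤ CT * rP) :
    |Ex T.V (fun ω => if Dom ω then gdif T τ.E τ.L φ τ.Hf ω else 0)| ≤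
      (C1 + Ce) * (r * Pr T.V Dom) +
      (C1 + (M + 128 * C0) * CT) * rP + Ex T.V (fun ω => if Dom ω then g ω else 0) := by
  have h1 := gd_core s1 (by positivity) hA key hP
  have hD := Vale.Agent.P155.E.Pr_nonneg T.V Dom
  have h2 : e * Pr T.V Dom ≤ Ce * r * Pr T.V Dom := mul_le_mul_of_nonneg_right he hD
  have e1 : (C1 + Ce) * (r * Pr T.V Dom) +
      (C1 + (M + 128 * C0) * CT) * rP = (C1 * r * Pr T.V Dom + C1 * rP) +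
      (Ce * r * Pr T.V Dom + (M + 128 * C0) * (CT * rP)) := by ring
  linarith

section
variable {T : Temp} {xS : ℤ} {τ σ : Stop T.V xS} {Dom : Conf → Prop} {φ : Conf → Pt → ℝ} {s : ℕ}

open Classical in
/-- **the drop, general form** -/
theorem v1_drop0 (s1 : 8 ≤ s) (hdτ : FMs τ Dom φ) (hdσ : FMs σ Dom φ)
    (hloop : ∀ ω ∈ DD T.V, Dom ω → σ.t ω = τ.t ω ∧ τ.i ω ≤ σ.i ω)
    (hsupp : ∀ ω ∈ DD T.V, Dom ω → ∀ y, φ ω y ≠ 0 → y ∈ OE T (σ.E ω))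
    {e' : ℝ} {X : Conf → ℝ}
    (hX : ∀ ω ∈ DD T.V, Dom ω →
      (mass ω (gL T σ.E φ s ω) (τ.L ω) - mass ω (gL T τ.E φ s ω) (τ.L ω)) *
        mass ω (φ ω) (τ.L ω) ≤ X ω)
    (hcτ : |Ex T.V (fun ω => if Dom ω then
        ∑ A ∈ LF ω, mass ω (ff T τ.E φ s ω) A * mass ω (φ ω) A +
        2 / Real.pi * pair (φ ω) (pot (OE T (τ.E ω)) (φ ω)) else 0)| ≤ e')
    (hcσ : |Ex T.V (fun ω => if Dom ω then
        ∑ A ∈ LF ω, mass ω (ff T σ.E φ s ω) A * mass ω (φ ω) A +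
        2 / Real.pi * pair (φ ω) (pot (OE T (σ.E ω)) (φ ω)) else 0)| ≤ e') :
    2 / Real.pi * Ex T.V (fun ω => if Dom ω then dropE τ σ φ ω else 0) ≤
      2 * e' + Ex T.V (fun ω => if Dom ω then X ω else 0) +
      Ex T.V (fun ω => if Dom ω then UnS τ φ s ω + UnS σ φ s ω else 0) := by
  have h := cov_core s1 hdτ hdσ hloop hsupp (eU := 0) (M' := 0) (P := 1) (X := X)
    (gτ := UnS τ φ s) (gσ := UnS σ φ s) (Bd := fun _ => False) le_rfl hX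
    (fun ω _ _ => by unfold UnS; simp) (fun ω _ _ => by unfold UnS; simp) hcτ hcσ
    (Vale.Agent.P155.E.Pr_le_one _ _)
  unfold dropE
  linarith

open Classical in
/-- **the drop**, side `H` -/
theorem v1_dropH (s1 : 8 ≤ s) (hdτ : FMs τ Dom φ) (hdσ : FMs σ Dom φ)
    (hloop : ∀ ω ∈ DD T.V, Dom ω → σ.t ω = τ.t ω ∧ τ.i ω ≤ σ.i ω)
    (hsuppτ : ∀ ω ∈ DD T.V, Dom ω → ∀ y, φ ω y ≠ 0 → y ∈ OE T (τ.E ω))
    (hsupp : ∀ ω ∈ DD T.V, Dom ω → ∀ y, φ ω y ≠ 0 → y ∈ OE T (σ.E ω))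
    (hφ0 : ∀ ω ∈ DD T.V, Dom ω → ∀ y, 0 ≤ φ ω y)
    {M e' A1 : ℝ} (hM : 0 ≤ M)
    (mτ : ∀ ω ∈ DD T.V, Dom ω → ∀ A : Set Pt, |mass ω (gL T τ.E φ s ω) A| ≤ M)
    (mσ : ∀ ω ∈ DD T.V, Dom ω → ∀ A : Set Pt, |mass ω (gL T σ.E φ s ω) A| ≤ M)
    (hcτ : |Ex T.V (fun ω => if Dom ω then
        ∑ A ∈ LF ω, mass ω (ff T τ.E φ s ω) A * mass ω (φ ω) A +
        2 / Real.pi * pair (φ ω) (pot (OE T (τ.E ω)) (φ ω)) else 0)| ≤ e')
    (hcσ : |Ex T.V (fun ω => if Dom ω then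
        ∑ A ∈ LF ω, mass ω (ff T σ.E φ s ω) A * mass ω (φ ω) A +
        2 / Real.pi * pair (φ ω) (pot (OE T (σ.E ω)) (φ ω)) else 0)| ≤ e')
    (hgd : |Ex T.V (fun ω => if Dom ω then gdif T τ.E τ.L φ τ.Hf ω else 0)| ≤ A1) :
    2 / Real.pi * Ex T.V (fun ω => if Dom ω then dropE τ σ φ ω else 0) ≤
      2 * e' + 2 * M * (Ex T.V (fun ω => if Dom ω then hitE τ φ ω else 0) + A1) +
      Ex T.V (fun ω => if Dom ω then UnS τ φ s ω + UnS σ φ s ω else 0) := by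
  have h := v1_drop0 s1 hdτ hdσ hloop hsupp
    (X := fun ω => 2 * M * (hitE τ φ ω + gdif T τ.E τ.L φ τ.Hf ω)) (e' := e') ?_ hcτ hcσ
  · have h1 : Ex T.V (fun ω => if Dom ω then 2 * M * (hitE τ φ ω + gdif T τ.E τ.L φ τ.Hf ω)
        else 0) ≤ 2 * M * (Ex T.V (fun ω => if Dom ω then hitE τ φ ω else 0) + A1) := by
      rw [ex_dom_mul, ex_dom_add]
      refine mul_le_mul_of_nonneg_left ?_ (by positivity)
      linarith [(abs_le.1 hgd).2]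
    linarith
  · intro ω hω hd
    have h1 := mass_phi (H := τ.Hf) (L := τ.L) (hsuppτ ω hω hd)
    have h2 := mass_phi_nonneg (ω := ω) (L := τ.L ω) (hφ0 ω hω hd)
    have h3 := (abs_le.1 (mτ ω hω hd (τ.L ω))).1
    have h4 := (abs_le.1 (mσ ω hω hd (τ.L ω))).2
    unfold hitE
    rw [← h1]
    exact mul_le_mul_of_nonneg_right (by linarith) h2

open Classical in
/-- **the drop**, side `1 - H` -/
theorem v1_dropC (s1 : 8 ≤ s) (hdτ : FMs τ Dom φ) (hdσ : FMs σ Dom φ)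
    (hloop : ∀ ω ∈ DD T.V, Dom ω → σ.t ω = τ.t ω ∧ τ.i ω ≤ σ.i ω)
    (hsuppτ : ∀ ω ∈ DD T.V, Dom ω → ∀ y, φ ω y ≠ 0 → y ∈ OE T (τ.E ω))
    (hsupp : ∀ ω ∈ DD T.V, Dom ω → ∀ y, φ ω y ≠ 0 → y ∈ OE T (σ.E ω))
    (hφ0 : ∀ ω ∈ DD T.V, Dom ω → ∀ y, 0 ≤ φ ω y) {m0 : ℝ} (hm0 : 0 ≤ m0) (hm1 : m0 ≤ 1)
    (hmass : ∀ ω ∈ DD T.V, Dom ω → ∑ x ∈ (oe_finite T (τ.E ω)).toFinset, φ ω x = m0)
    {M e' e1 A1 : ℝ} (hM : 0 ≤ M)
    (mτ : ∀ ω ∈ DD T.V, Dom ω → ∀ A : Set Pt, |mass ω (gL T τ.E φ s ω) A| ≤ M)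
    (mσ : ∀ ω ∈ DD T.V, Dom ω → ∀ A : Set Pt, |mass ω (gL T σ.E φ s ω) A| ≤ M)
    (hAτ : |Ex T.V (fun ω => if Dom ω then mass ω (ff T τ.E φ s ω) (τ.L ω) else 0)| ≤ e1)
    (hAσ : |Ex T.V (fun ω => if Dom ω then mass ω (ff T σ.E φ s ω) (σ.L ω) else 0)| ≤ e1)
    (hcτ : |Ex T.V (fun ω => if Dom ω then
        ∑ A ∈ LF ω, mass ω (ff T τ.E φ s ω) A * mass ω (φ ω) A +
        2 / Real.pi * pair (φ ω) (pot (OE T (τ.E ω)) (φ ω)) else 0)| ≤ e')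
    (hcσ : |Ex T.V (fun ω => if Dom ω then
        ∑ A ∈ LF ω, mass ω (ff T σ.E φ s ω) A * mass ω (φ ω) A +
        2 / Real.pi * pair (φ ω) (pot (OE T (σ.E ω)) (φ ω)) else 0)| ≤ e')
    (hgd : |Ex T.V (fun ω => if Dom ω then gdif T τ.E τ.L φ τ.Hf ω else 0)| ≤ A1) :
    2 / Real.pi * Ex T.V (fun ω => if Dom ω then dropE τ σ φ ω else 0) ≤
      2 * e' + 2 * e1 + 2 * M * (Ex T.V (fun ω => if Dom ω then hitE' τ φ ω else 0) + A1) +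
      Ex T.V (fun ω => if Dom ω then UnS τ φ s ω + UnS σ φ s ω else 0) := by
  have h := v1_drop0 s1 hdτ hdσ hloop hsupp
    (X := fun ω => m0 * (mass ω (ff T σ.E φ s ω) (σ.L ω) + -1 * mass ω (ff T τ.E φ s ω) (τ.L ω)) +
      2 * M * (hitE' τ φ ω + -1 * gdif T τ.E τ.L φ τ.Hf ω)) (e' := e') ?_ hcτ hcσ
  · have h1 : Ex T.V (fun ω => if Dom ω then
        m0 * (mass ω (ff T σ.E φ s ω) (σ.L ω) + -1 * mass ω (ff T τ.E φ s ω) (τ.L ω)) +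
        2 * M * (hitE' τ φ ω + -1 * gdif T τ.E τ.L φ τ.Hf ω) else 0) ≤
        2 * e1 + 2 * M * (Ex T.V (fun ω => if Dom ω then hitE' τ φ ω else 0) + A1) := by
      rw [ex_dom_add, ex_dom_mul, ex_dom_add, ex_dom_mul, ex_dom_mul, ex_dom_add, ex_dom_mul]
      have g1 := (abs_le.1 hAσ).2
      have g2 := (abs_le.1 hAτ).1
      have g3 := (abs_le.1 hgd).1
      have g0 : 0 ≤ e1 := (abs_nonneg _).trans hAτ
      refine add_le_add ?_ (mul_le_mul_of_nonneg_left (by linarith) (by positivity))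
      calc m0 * (Ex T.V (fun ω => if Dom ω then mass ω (ff T σ.E φ s ω) (σ.L ω) else 0) +
            -1 * Ex T.V (fun ω => if Dom ω then mass ω (ff T τ.E φ s ω) (τ.L ω) else 0))
          ≤ m0 * (2 * e1) := mul_le_mul_of_nonneg_left (by linarith) hm0
        _ ≤ 1 * (2 * e1) := mul_le_mul_of_nonneg_right hm1 (by positivity)
        _ = 2 * e1 := one_mul _
    linarith
  · intro ω hω hd
    have hL : σ.L ω = τ.L ω := by unfold Stop.L; rw [(hloop ω hω hd).1]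
    have h1 := mass_phi (H := τ.Hf) (L := τ.L) (hsuppτ ω hω hd)
    have h2 := mass_phi_le (ω := ω) (L := τ.L ω) (hφ0 ω hω hd) (hsuppτ ω hω hd)
    rw [hmass ω hω hd] at h2
    have h3 := (abs_le.1 (mτ ω hω hd (τ.L ω)))
    have h4 := (abs_le.1 (mσ ω hω hd (τ.L ω)))
    have h5 := mass_ff s1 (hsuppτ ω hω hd) (τ.L ω)
    have h6 := mass_ff s1 (hsupp ω hω hd) (τ.L ω)
    have h7 : hitE' τ φ ω = m0 - ∑ x ∈ (oe_finite T (τ.E ω)).toFinset, φ ω x * τ.Hf ω x := by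
      unfold hitE'
      rw [← hmass ω hω hd, ← Finset.sum_sub_distrib]
      refine Finset.sum_congr rfl fun x _ => ?_
      ring
    have h8 : hitE' τ φ ω + -1 * gdif T τ.E τ.L φ τ.Hf ω = m0 - mass ω (φ ω) (τ.L ω) := by
      rw [h7, h1]; ring
    rw [h8, hL, h5, h6]
    have h9 : (-(mass ω (gL T σ.E φ s ω) (τ.L ω) - mass ω (gL T τ.E φ s ω) (τ.L ω))) *
        (m0 - mass ω (φ ω) (τ.L ω)) ≤ 2 * M * (m0 - mass ω (φ ω) (τ.L ω)) :=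
      mul_le_mul_of_nonneg_right (by linarith) (by linarith)
    linarith

end

end Vale.Agent.P155.NT905
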