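import Vale.Agent.P155.NT905.V1Asm

/-!
# P155, NT, V1: final form
-/

namespace Vale.Agent.P155.NT905

open Finset SW HT T905 T802 J S743 G45 H904 H12 S862 E4 T862 NT NT743

variable {V : Finset Pt} {ω : Conf}

open Classical in
/-- the pointwise analysis at one time -/
theorem v1_one : ∃ γ β1 β2 : ℝ, 0 < γ ∧ γ ≤ 1 ∧ 0 < β1 ∧ 0 < β2 ∧ ∀ a0 P C0 : ℝ, 0 < a0 → 0 < P →
    0 ≤ C0 → ∃ CT M M2 : ℝ, 0 < CT ∧ 0 ≤ M ∧ 0 < M2 ∧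
    ∀ (R n N s ρ0 : ℕ) (T : Temp) (e : ℝ), 1 ≤ R → Skel.Fits T R → (R : ℝ) ^ a0 ≤ N → N ≤ R →
    n ≤ N → 8 ≤ s → 8 * s ≤ n → (s : ℝ) ≤ (N : ℝ) ^ (γ / 512) →
    ((s ^ 2 : ℕ) : ℝ) + 1 ≤ (N : ℝ) ^ (γ / 512) → (N : ℝ) ^ (1 - γ ^ 2 / 1024) ≤ ρ0 → ρ0 ≤ n →
    s ^ 2 + 1 ≤ ρ0 → ((s ^ 2 : ℕ) : ℝ) < CT * ρ0 → 0 ≤ e →
    CT * ((ρ0 : ℝ) / n) ^ β1 + CT * (((N : ℝ) / n) ^ γ * (N : ℝ) ^ (-(γ ^ 2 / 128))) +
      CT * ((2 * (s : ℝ) + 1) / ((s ^ 2 - 2 * s : ℕ) + 1)) ^ β1 ≤ e →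
    4 * s * (M2 * ((ρ0 : ℝ) / n) ^ β2 +
      CT * (((N : ℝ) / n) ^ γ * (N : ℝ) ^ (-(γ ^ 2 / 128)))) ≤ e →
    ∀ q, Pr T.V (NBad T q N n s ρ0 (s ^ 2) C0 (32 ^ 4) γ CT) ≤ CT * (R : ℝ) ^ (-(P + 1)) ∧
    ∀ (xS : ℤ) (τ : Stop T.V xS) (Dom : Conf → Prop) (φ : Conf → Pt → ℝ)
      (p : Conf → Pt), FMs τ Dom φ →
      (∀ ω ∈ DD T.V, Dom ω → p ω ∉ OE T (τ.E ω) ∧ IsBump (p ω) n (C0 / (n : ℝ) ^ 2) (φ ω)) →
      (∀ ω ∈ DD T.V, Dom ω → ∀ y, φ ω y ≠ 0 → y ∈ OE T (τ.E ω)) →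
      ∀ ω ∈ DD T.V, Dom ω → (∀ A : Set Pt, |mass ω (gL T τ.E φ s ω) A| ≤ M) ∧
        |mass ω (gL T τ.E φ s ω) (τ.L ω) -
          ∑ x ∈ (oe_finite T (τ.E ω)).toFinset, φ ω x * τ.Hf ω x| ≤
          e + ((farL τ φ s N q ρ0 ω + zoneS τ φ s N q (CT * ρ0) ω) + (M + 128 * C0) *
            (if NBad T q N n s ρ0 (s ^ 2) C0 (32 ^ 4) γ CT ω then 1 else 0)) ∧
        ((∀ y, φ ω y ≠ 0 → ρ0 + 2 * s < dF (OE T (τ.E ω)) y) → UnS τ φ s ω ≤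
          128 * C0 * e + (128 * C0 * (farU τ φ s N q ρ0 ω + zoneU τ φ s N q (CT * ρ0) ω) +
            128 * C0 * (M * (4 * R + 8)) *
            (if NBad T q N n s ρ0 (s ^ 2) C0 (32 ^ 4) γ CT ω then 1 else 0))) := by
  obtain ⟨γ, β1, hγ, hγ1, hβ1, hdet⟩ := det_line
  obtain ⟨β2, hβ2, hβ21, hunx⟩ := unx_line905
  obtain ⟨γ', hγ', hγ1', hmass⟩ := mass_meso
  refine ⟨γ, β1, β2, hγ, hγ1, hβ1, hβ2, ?_⟩
  intro a0 P C0 ha0 hP hC0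
  obtain ⟨CT, hCT, hdet⟩ := hdet a0 (P + 1) C0 (32 ^ 4) ha0 (by linarith) hC0
  obtain ⟨M, hM0, hmass⟩ := hmass C0 (32 ^ 4) hC0
  obtain ⟨M2, hM2, hunx⟩ := hunx C0 (32 ^ 4) hC0
  refine ⟨CT, M, M2, hCT, hM0, hM2, ?_⟩
  intro R n N s ρ0 T e hR hfit hNR0 hNR hnN s1 s7 s2 s3 hρN hρn s4 s10 he0 el eu q
  have hn1 : 1 ≤ n := by omega
  have hs2n : 4 * s ≤ s ^ 2 := by nlinarith
  obtain ⟨hPr, hmain⟩ := hdet R T hR hfit q N n s ρ0 (s ^ 2) hNR0 hNR hnN (by omega) s7 s2 s3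
      hρN hρn s4 hs2n
  refine ⟨hPr, ?_⟩
  intro xS τ Dom φ p hd hb hsupp ω hω hD
  obtain ⟨hp, hbump⟩ := hb ω hω hD
  refine v1_point (n := n) hfit hω hC0 he0
    (add_nonneg (farL_nonneg _ _ _ _ _ _ _) (zoneS_nonneg _ _ _ _ _ _ _))
    (add_nonneg (farU_nonneg _ _ _ _ _ _ _) (zoneU_nonneg _ _ _ _ _ _ _)) hn1 s1 s7 hp hbump
    (hsupp ω hω hD)
    (fun a1 a2 a3 a4 a5 a6 a7 a8 a9 => (hmass _ _ _ _ _ _ _ a1 a2 a3 a4 a5 a6 a7 a8 a9).1) ?_ ?_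
  · intro hbad hφ hcut hu hO
    have h2 := hmain ω hω hbad xS τ (hd.new ω hω hD) (τ.Hf ω) (τ.Hf_spec ω) (p ω) (φ ω)
        (pot (OE T (τ.E ω)) (φ ω)) (cutf (OE T (τ.E ω)) s) hp hφ hcut hu hO
    exact h2.trans (add_le_add (le_of_eq rfl) el)
  · intro hdeep hbad hφ hcut hu hO
    have h2 := hunx T xS τ ω hω (hd.new ω hω hD) q N n s ρ0 (s ^ 2) γ CT hbad (by omega) s7
      hρn s4 hs2n s10 (p ω) (φ ω) (pot (OE T (τ.E ω)) (φ ω)) (cutf (OE T (τ.E ω)) s)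
      hp hφ hcut hu hdeep hO
    refine h2.trans (mul_le_mul_of_nonneg_left ?_ (Finset.sum_nonneg fun _ _ => abs_nonneg _))
    exact add_le_add (le_of_eq rfl) eu

open Classical in
/-- the data at the scales -/
theorem v1_data : ∃ γ : ℝ, 0 < γ ∧ γ ≤ 1 ∧ ∀ (a0 C0 am P Kc : ℝ), 0 < a0 → 0 ≤ C0 → 0 < am →
    0 < P → 1 ≤ Kc → ∃ a : ℝ, 0 < a ∧ a ≤ am ∧ ∃ CT : ℝ, 0 < CT ∧ ∃ c : ℝ, 0 < c ∧
    ∃ M C1 C2 Ce : ℝ, 0 ≤ M ∧ 0 ≤ C1 ∧ 0 ≤ C2 ∧ 0 ≤ Ce ∧ ∃ R0 : ℕ, 1 ≤ R0 ∧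
    ∀ (R n N : ℕ) (T : Temp), R0 ≤ R → Skel.Fits T R → (R : ℝ) ^ a0 ≤ n → n ≤ N → N ≤ R →
    (N : ℝ) ≤ Kc * (n : ℝ) ^ (1 + γ ^ 2 / 4096) → ∀ s ρ0 : ℕ,
    s = ⌈(R : ℝ) ^ a⌉₊ → ρ0 = ⌈(N : ℝ) ^ (1 - γ ^ 2 / 1024)⌉₊ →
    (8 ≤ s ∧ s ^ 2 + 1 ≤ ρ0 ∧ 8 * ρ0 + 16 ≤ n ∧ 2 * (CT * (ρ0 : ℝ)) + 2 ≤ n ∧
      ((s ^ 2 : ℕ) : ℝ) + 1 ≤ (N : ℝ) ^ (γ / 512) ∧ (R : ℝ) ^ a ≤ s) ∧
    V1S T R n N s ρ0 (CT * ρ0) C0 M (Ce * (R : ℝ) ^ (-c)) ((R : ℝ) ^ (-c)) ((R : ℝ) ^ (-P)) C1 C2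
      Ce CT (fun q => NBad T q N n s ρ0 (s ^ 2) C0 (32 ^ 4) γ CT) := by
  obtain ⟨γ, β1, β2, hγ, hγ1, hβ1, hβ2, hone⟩ := v1_one
  refine ⟨γ, hγ, hγ1, ?_⟩
  intro a00 C0 am P Kc ha00 hC0 ham hP hKc
  obtain ⟨a0, ha0def⟩ : ∃ a0 : ℝ, a0 = min a00 1 := ⟨_, rfl⟩
  have ha0 : 0 < a0 := by rw [ha0def]; exact lt_min ha00 one_pos
  have ha01 : a0 ≤ 1 := by rw [ha0def]; exact min_le_right _ _
  have ha0l : a0 ≤ a00 := by rw [ha0def]; exact min_le_left _ _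
  obtain ⟨CT, M, M2, hCT, hM0, hM2, hone⟩ := hone a0 P C0 ha0 hP hC0
  obtain ⟨am', ham'⟩ : ∃ am' : ℝ, am' = min am (min (a0 * (γ ^ 2 / 2048) * β2 / 2)
    (a0 * (γ ^ 2 / 256) / 2)) := ⟨_, rfl⟩
  have ham'0 : 0 < am' := by
    rw [ham']
    exact lt_min ham (lt_min (by positivity) (by positivity))
  obtain ⟨a, ha, haam, ha4, R1, hR1, hsc⟩ := scalesN ha0 hγ hγ1 hCT hKc ham'0
  rw [min_eq_left ha01] at ha4
  obtain ⟨c1, hc1, C1, hC1, R2, hR2, hme⟩ := fm_me_pr (C0 := C0) (P := P) ha ha4 ha01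
  obtain ⟨c2, hc2, C2, hC2, R3, hR3, hbil⟩ := bil_me_pr (P := P) hC0 hP ha ha4 ha01
  have l1 : a ≤ am := haam.trans (by rw [ham']; exact min_le_left _ _)
  have l2 : a ≤ a0 * (γ ^ 2 / 2048) * β2 / 2 :=
    haam.trans (by rw [ham']; exact (min_le_right _ _).trans (min_le_left _ _))
  have l3 : a ≤ a0 * (γ ^ 2 / 256) / 2 :=
    haam.trans (by rw [ham']; exact (min_le_right _ _).trans (min_le_right _ _))
  obtain ⟨c, hcdef⟩ : ∃ c : ℝ, c = min (min c1 c2) (min (min (a * β1) (a0 * (γ ^ 2 / 2048) * β1))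
    (min (a0 * (γ ^ 2 / 2048) * β2 / 2) (a0 * (γ ^ 2 / 256) / 2))) := ⟨_, rfl⟩
  have hc0 : 0 < c := by
    rw [hcdef]
    exact lt_min (lt_min hc1 hc2) (lt_min (lt_min (by positivity) (by positivity))
      (lt_min (by positivity) (by positivity)))
  have k1 : c ≤ c1 := by rw [hcdef]; exact (min_le_left _ _).trans (min_le_left _ _)
  have k2 : c ≤ c2 := by rw [hcdef]; exact (min_le_left _ _).trans (min_le_right _ _)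
  have k3 : c ≤ a * β1 := by
    rw [hcdef]; exact (min_le_right _ _).trans ((min_le_left _ _).trans (min_le_left _ _))
  have k4 : c ≤ a0 * (γ ^ 2 / 2048) * β1 := by
    rw [hcdef]; exact (min_le_right _ _).trans ((min_le_left _ _).trans (min_le_right _ _))
  have k5 : c ≤ a0 * (γ ^ 2 / 2048) * β2 / 2 := by
    rw [hcdef]; exact (min_le_right _ _).trans ((min_le_right _ _).trans (min_le_left _ _))
  have k6 : c ≤ a0 * (γ ^ 2 / 256) / 2 := by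
    rw [hcdef]; exact (min_le_right _ _).trans ((min_le_right _ _).trans (min_le_right _ _))
  have hKc0 : 0 < Kc := by linarith
  obtain ⟨Ce, hCe⟩ : ∃ Ce : ℝ, Ce = (CT * (2 * Kc) ^ β1 + CT * Kc + CT * 6 ^ β1) +
    8 * (M2 * (2 * Kc) ^ β2 + CT * Kc) := ⟨_, rfl⟩
  have hCe0 : 0 ≤ Ce := by rw [hCe]; positivity
  refine ⟨a, ha, l1, CT, hCT, c, hc0, M, C1, C2, Ce, hM0, hC1, hC2, hCe0, max R1 (max R2 R3),
    hR1.trans (le_max_left _ _), ?_⟩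
  intro R n N T hR hfit hn0 hnN hNR hNn s ρ0 hs hρ0
  have hRR1 : R1 ≤ R := (le_max_left _ _).trans hR
  have hRR2 : R2 ≤ R := (le_max_left _ _).trans ((le_max_right _ _).trans hR)
  have hRR3 : R3 ≤ R := (le_max_right _ _).trans ((le_max_right _ _).trans hR)
  have hR1' : 1 ≤ R := hR1.trans hRR1
  have hRr : (1 : ℝ) ≤ R := by exact_mod_cast hR1'
  have hn : (R : ℝ) ^ a0 ≤ n := (Real.rpow_le_rpow_of_exponent_le hRr ha0l).trans hn0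
  have hNn' : (R : ℝ) ^ a0 ≤ N := hn.trans (by exact_mod_cast hnN)
  obtain ⟨s1, s2, s3, s4, s5, s6, s7, s8, s9, s10⟩ := hsc R hRR1 n N hn hnN hNn
  rw [← hs] at s1 s2 s3 s4 s7 s8 s9 s10
  rw [← hρ0] at s4 s5 s6 s10
  have hn1 : 1 ≤ n := by omega
  have hrc1 : (R : ℝ) ^ (-c1) ≤ (R : ℝ) ^ (-c) := rpow_c905 hRr k1
  have hrc2 : (R : ℝ) ^ (-c2) ≤ (R : ℝ) ^ (-c) := rpow_c905 hRr k2
  have hr0 : 0 ≤ (R : ℝ) ^ (-c) := by positivity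
  have hpos : 0 < a0 * (γ ^ 2 / 256) := by positivity
  have el := lay_num905 (a := a) (c := c) hCT.le ha0 hγ hγ1 hβ1 hKc hR1' hn1 hn hnN hNn s1 s8 k3
    k4 (by linarith)
  have eu := unx_num905 (a := a) (c := c) hCT.le hM2.le ha0 hγ hγ1 hβ2 hKc hR1' hn1 hn hnN hNn s9
    (by linarith) (by linarith)
  rw [← hρ0] at el eu
  have hsplit : Ce * (R : ℝ) ^ (-c) =
      (CT * (2 * Kc) ^ β1 + CT * Kc + CT * 6 ^ β1) * (R : ℝ) ^ (-c) +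
      8 * (M2 * (2 * Kc) ^ β2 + CT * Kc) * (R : ℝ) ^ (-c) := by rw [hCe]; ring
  have hsp1 : 0 ≤ (CT * (2 * Kc) ^ β1 + CT * Kc + CT * 6 ^ β1) * (R : ℝ) ^ (-c) := by positivity
  have hsp2 : 0 ≤ 8 * (M2 * (2 * Kc) ^ β2 + CT * Kc) * (R : ℝ) ^ (-c) := by positivity
  have key := hone R n N s ρ0 T (Ce * (R : ℝ) ^ (-c)) hR1' hfit hNn' hNR hnN s1 s7 s2 s3
    (by rw [hρ0]; exact Nat.le_ceil _) (by omega) s4 s10 (by positivity)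
    (by rw [hsplit]; linarith) (by rw [hsplit]; linarith)
  have hPb : CT * (R : ℝ) ^ (-(P + 1)) ≤ CT * (R : ℝ) ^ (-P) :=
    mul_le_mul_of_nonneg_left (rpow_c905 hRr (by linarith)) hCT.le
  refine ⟨⟨s1, s4, s5, s6, s3, s8⟩, ?_⟩
  exact
    { s1 := s1
      hC0 := hC0
      hM := hM0
      hr := hr0
      hrP := by positivity
      hC1 := hC1
      hC2 := hC2
      hCe := hCe0
      hCT := hCT.le
      he := rfl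
      prB := fun q => (key q).1.trans hPb
      prB' := fun q => by
        have h2 := prR905 (R := R) hR1' (CT := CT) (P := P) (k := 128 * C0 * M) hCT.le
          (by positivity)
        refine le_trans ?_ h2
        have h3 : 128 * C0 * (M * (4 * (R : ℝ) + 8)) = 128 * C0 * M * (4 * R + 8) := by ring
        rw [h3]
        exact mul_le_mul_of_nonneg_left (key q).1 (by positivity)
      one := fun xS τ Dom φ p q hd hb hsupp ω hω hD =>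
        (key q).2 xS τ Dom φ p hd hb hsupp ω hω hD
      me := fun xS τ Dom φ p hd hb => by
        have h1 := hme R T hRR2 hfit τ.X Dom τ.E τ.L φ hd.fmd n p hn hb
        have h2 := hbil R T hRR3 hfit τ.X Dom τ.E τ.L φ hd.fmd n p hn hb
        rw [← hs] at h1 h2
        have hD := Vale.Agent.P155.E.Pr_nonneg T.V Dom
        constructor
        · refine h1.trans (add_le_add ?_ le_rfl)
          exact mul_le_mul_of_nonneg_right (mul_le_mul_of_nonneg_left hrc1 hC1) hD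
        · refine h2.trans (add_le_add ?_ le_rfl)
          exact mul_le_mul_of_nonneg_right (mul_le_mul_of_nonneg_left hrc2 hC2) hD }

end Vale.Agent.P155.NT905
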