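import Vale.Agent.P155.NT905.DetL

/-!
# P155, NT, V1: pointwise bounds at one time
-/

namespace Vale.Agent.P155.NT905

open Finset SW HT T905 T802 J S743 G45 H904 H12 S862 E4 T862 NT NT743

variable {V : Finset Pt} {ω : Conf}

open Classical in
/-- the layer function away from the box or near the line -/
noncomputable def farL {T : Temp} {xS : ℤ} (τ : Stop T.V xS) (φ : Conf → Pt → ℝ) (s N : ℕ)
    (q : Pt) (ρ0 : ℕ) (ω : Conf) : ℝ :=
  ∑ x ∈ (oe_finite T (τ.E ω)).toFinset.filter (fun x => FarP q N xS ρ0 x), |gL T τ.E φ s ω x|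

open Classical in
/-- the same, counted with the number of unexplored loops -/
noncomputable def farU {T : Temp} {xS : ℤ} (τ : Stop T.V xS) (φ : Conf → Pt → ℝ) (s N : ℕ)
    (q : Pt) (ρ0 : ℕ) (ω : Conf) : ℝ :=
  ∑ x ∈ (oe_finite T (τ.E ω)).toFinset.filter (fun x => FarP q N xS ρ0 x),
    |gL T τ.E φ s ω x| * nU ω (τ.E ω) (φ ω) x

open Classical in
/-- the layer function in the part of the box which is close to the boundary of the polygon,
counted with the number of unexplored loops -/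
noncomputable def zoneU {T : Temp} {xS : ℤ} (τ : Stop T.V xS) (φ : Conf → Pt → ℝ) (s N : ℕ)
    (q : Pt) (h : ℝ) (ω : Conf) : ℝ :=
  ∑ x ∈ (box q N).filter (fun x => (dF T.faceSet x : ℝ) < h),
    |gL T τ.E φ s ω x| * nU ω (τ.E ω) (φ ω) x

theorem farL_nonneg {T : Temp} {xS : ℤ} (τ : Stop T.V xS) (φ : Conf → Pt → ℝ) (s N : ℕ)
    (q : Pt) (ρ0 : ℕ) (ω : Conf) : 0 ≤ farL τ φ s N q ρ0 ω :=
  Finset.sum_nonneg fun _ _ => abs_nonneg _

theorem farU_nonneg {T : Temp} {xS : ℤ} (τ : Stop T.V xS) (φ : Conf → Pt → ℝ) (s N : ℕ)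
    (q : Pt) (ρ0 : ℕ) (ω : Conf) : 0 ≤ farU τ φ s N q ρ0 ω :=
  Finset.sum_nonneg fun _ _ => mul_nonneg (abs_nonneg _) (Nat.cast_nonneg _)

theorem zoneU_nonneg {T : Temp} {xS : ℤ} (τ : Stop T.V xS) (φ : Conf → Pt → ℝ) (s N : ℕ)
    (q : Pt) (h : ℝ) (ω : Conf) : 0 ≤ zoneU τ φ s N q h ω :=
  Finset.sum_nonneg fun _ _ => mul_nonneg (abs_nonneg _) (Nat.cast_nonneg _)

open Classical in
/-- crude bound for the number of loops around a point -/
theorem nU_crude {T : Temp} {R : ℕ} (hfit : Skel.Fits T R) (hω : ω ∈ DD T.V) (E : Set Pt)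
    (φ : Pt → ℝ) (x : Pt) : nU ω E φ x ≤ 4 * R + 8 := by
  unfold nU
  by_cases hx : x ∈ T.faceSet
  · have hxb : x ∈ box (0, 0) R := by exact_mod_cast hfit hx
    have hp : (((R : ℤ) + 1, (0 : ℤ)) : Pt) ∉ T.faceSet := by
      intro h
      have h1 : (((R : ℤ) + 1, (0 : ℤ)) : Pt) ∈ box (0, 0) R := by exact_mod_cast hfit h
      rw [mem_box_coord] at h1
      simp only at h1
      omega
    rw [mem_box_coord] at hxb
    simp only at hxb
    refine (pass_count hω (0, 0) (R + 1) _ (4 * R + 8) x ((R : ℤ) + 1, 0) ?_ ?_ ?_ ?_ ?_).1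
    · rw [mem_box_coord]
      simp only
      push_cast
      omega
    · rw [mem_box_coord]
      simp only
      push_cast
      omega
    · simp only
      omega
    · intro A hA
      exact (mem_LF hω).1 (mem_filter.1 hA).1
    · intro A hA
      obtain ⟨h1, -, h3, -⟩ := mem_filter.1 hA
      exact ⟨h3, out_not_surr hω ((mem_LF hω).1 h1) hp⟩
  · have he : (LF ω).filter (fun A => Unx E A ∧ surr ω A x ∧ ∃ y, φ y ≠ 0 ∧ surr ω A y) = ∅ := by
      apply Finset.eq_empty_of_forall_notMem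
      intro A hA
      obtain ⟨h1, -, h3, -⟩ := mem_filter.1 hA
      exact out_not_surr hω ((mem_LF hω).1 h1) hx h3
    rw [he]
    simp

theorem bump_dens {C0 : ℝ} (hC0 : 0 ≤ C0) {n : ℕ} (hn1 : 1 ≤ n) {p : Pt} {φ : Pt → ℝ}
    (hbump : IsBump p n (C0 / (n : ℝ) ^ 2) φ) : ∀ y, |φ y| ≤ E4.dens C0 p n y := by
  intro y
  by_cases hy : y ∈ box p n
  · have h1 := hbump.2 0 0 (by norm_num) y
    simp only [Function.iterate_zero, id_eq, add_zero, pow_zero, mul_one] at h1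
    refine h1.trans (le_dens hC0 hn1 ?_)
    exact mem_box_dn905.1 hy
  · rw [hbump.1 y hy, abs_zero]
    exact dens_nonneg hC0 _ _ _

open Classical in
/-- the two evaluations at one time of one configuration -/
theorem v1_point {T : Temp} {R : ℕ} (hfit : Skel.Fits T R) {xS : ℤ} {τ : Stop T.V xS}
    {φ : Conf → Pt → ℝ} (hω : ω ∈ DD T.V) {C0 M e : ℝ} {n s : ℕ} {p : Pt}
    {B Q : Prop} {gA gB : ℝ} (hC0 : 0 ≤ C0) (he : 0 ≤ e) (hgA : 0 ≤ gA) (hgB : 0 ≤ gB)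
    (hn1 : 1 ≤ n) (s1 : 8 ≤ s) (s7 : 8 * s ≤ n)
    (hp : p ∉ OE T (τ.E ω)) (hbump : IsBump p n (C0 / (n : ℝ) ^ 2) (φ ω))
    (hsupp : ∀ y, φ ω y ≠ 0 → y ∈ OE T (τ.E ω))
    (hmass : (OE T (τ.E ω)).Finite → CPr (OE T (τ.E ω)) → p ∉ OE T (τ.E ω) → 1 ≤ n → 1 ≤ s →
      8 * s ≤ n → IsCut (OE T (τ.E ω)) s (32 ^ 4) (cutf (OE T (τ.E ω)) s) →
      (∀ y, |φ ω y| ≤ E4.dens C0 p n y) →
      IsGreen (OE T (τ.E ω)) (φ ω) (pot (OE T (τ.E ω)) (φ ω)) →
      (∀ S : Finset Pt, ∑ x ∈ S, |fL (OE T (τ.E ω)) (φ ω) (cutf (OE T (τ.E ω)) s)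
        (pot (OE T (τ.E ω)) (φ ω)) x| ≤ M))
    (hA : ¬ B → (∀ y, |φ ω y| ≤ E4.dens C0 p n y) →
      IsCut (OE T (τ.E ω)) s (32 ^ 4) (cutf (OE T (τ.E ω)) s) →
      IsGreen (OE T (τ.E ω)) (φ ω) (pot (OE T (τ.E ω)) (φ ω)) →
      ∀ hO : (OE T (τ.E ω)).Finite,
      |mass ω (gL T τ.E φ s ω) (τ.L ω) - ∑ x ∈ hO.toFinset, φ ω x * τ.Hf ω x| ≤ gA + e)
    (hB : Q → ¬ B → (∀ y, |φ ω y| ≤ E4.dens C0 p n y) →
      IsCut (OE T (τ.E ω)) s (32 ^ 4) (cutf (OE T (τ.E ω)) s) →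
      IsGreen (OE T (τ.E ω)) (φ ω) (pot (OE T (τ.E ω)) (φ ω)) →
      ∀ hO : (OE T (τ.E ω)).Finite,
      ∑ A ∈ (LF ω).filter (fun A => Unx (τ.E ω) A),
        |mass ω (gL T τ.E φ s ω) A * mass ω (φ ω) A| ≤
        (∑ y ∈ hO.toFinset, |φ ω y|) * (gB + e)) :
    (∀ A : Set Pt, |mass ω (gL T τ.E φ s ω) A| ≤ M) ∧
    |mass ω (gL T τ.E φ s ω) (τ.L ω) -
      ∑ x ∈ (oe_finite T (τ.E ω)).toFinset, φ ω x * τ.Hf ω x| ≤
      e + (gA + (M + 128 * C0) * (if B then 1 else 0)) ∧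
    (Q → ∑ A ∈ (LF ω).filter (fun A => Unx (τ.E ω) A),
      |mass ω (gL T τ.E φ s ω) A * mass ω (φ ω) A| ≤
      128 * C0 * e + (128 * C0 * gB + 128 * C0 * (M * (4 * R + 8)) * (if B then 1 else 0))) := by
  have hφ := bump_dens hC0 hn1 hbump
  have hO := oe_finite T (τ.E ω)
  have hcut : IsCut (OE T (τ.E ω)) s (32 ^ 4) (cutf (OE T (τ.E ω)) s) :=
    cutf_isCut (exists_notMem hO) s1 le_rfl
  have hu := pot_spec hO (φ ω)
  have m1 := hmass hO (Stop.cpr hω) hp hn1 (by omega) s7 hcut hφ hu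
  have h0 := fL_zero_off hO (by omega : 1 ≤ s) hcut hu
  have hM0 : 0 ≤ M := by simpa using m1 ∅
  have hφS : ∀ x, x ∉ hO.toFinset → φ ω x = 0 := by
    intro x hx
    by_contra hc
    rw [Set.Finite.mem_toFinset] at hx
    exact hx (hsupp x hc)
  have hmA : ∀ A : Set Pt, |mass ω (gL T τ.E φ s ω) A| ≤ M := by
    intro A
    rw [show mass ω (gL T τ.E φ s ω) A =
      ∑ x ∈ hO.toFinset, gL T τ.E φ s ω x * (if surr ω A x then 1 else 0) from
      mass_eq_sum h0 ω A]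
    refine (Finset.abs_sum_le_sum_abs _ _).trans ((Finset.sum_le_sum fun x _ => ?_).trans
      (m1 hO.toFinset))
    rw [abs_mul]
    refine mul_le_of_le_one_right (abs_nonneg _) ?_
    split_ifs <;> simp
  have hφm : ∑ y ∈ hO.toFinset, |φ ω y| ≤ 128 * C0 :=
    (Finset.sum_le_sum fun y _ => hφ y).trans (dens_mass hC0 p hn1 _)
  refine ⟨hmA, ?_, ?_⟩
  · by_cases hbad : B
    · rw [if_pos hbad, mul_one]
      have g1 := hmA (τ.L ω)
      have g2 : |∑ x ∈ hO.toFinset, φ ω x * τ.Hf ω x| ≤ 128 * C0 := by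
        refine (Finset.abs_sum_le_sum_abs _ _).trans ((Finset.sum_le_sum fun x _ => ?_).trans hφm)
        rw [abs_mul]
        refine mul_le_of_le_one_right (abs_nonneg _) ?_
        rw [abs_of_nonneg ((τ.Hf_spec ω).nonneg x)]
        exact (τ.Hf_spec ω).le_one x
      have g3 : |mass ω (gL T τ.E φ s ω) (τ.L ω) -
          ∑ x ∈ (oe_finite T (τ.E ω)).toFinset, φ ω x * τ.Hf ω x| ≤ M + 128 * C0 :=
        (abs_sub _ _).trans (add_le_add g1 g2)
      linarith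
    · rw [if_neg hbad, mul_zero, add_zero]
      have h2 := hA hbad hφ hcut hu hO
      linarith
  · intro hQ
    by_cases hbad : B
    · rw [if_pos hbad, mul_one]
      have g1 := sum_unx (ω := ω) (E := τ.E ω) (g := gL T τ.E φ s ω) (φ := φ ω) h0 hφS
      have g2 : ∑ x ∈ hO.toFinset, |gL T τ.E φ s ω x| * (nU ω (τ.E ω) (φ ω) x : ℝ) ≤
          M * (4 * R + 8) := by
        calc ∑ x ∈ hO.toFinset, |gL T τ.E φ s ω x| * (nU ω (τ.E ω) (φ ω) x : ℝ) ≤
            ∑ x ∈ hO.toFinset, |gL T τ.E φ s ω x| * (4 * R + 8) := by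
              refine Finset.sum_le_sum fun x _ => ?_
              refine mul_le_mul_of_nonneg_left ?_ (abs_nonneg _)
              exact_mod_cast nU_crude hfit hω (τ.E ω) (φ ω) x
          _ = (∑ x ∈ hO.toFinset, |gL T τ.E φ s ω x|) * (4 * R + 8) := by rw [Finset.sum_mul]
          _ ≤ _ := mul_le_mul_of_nonneg_right (m1 _) (by positivity)
      have g3 : (∑ y ∈ hO.toFinset, |φ ω y|) *
          ∑ x ∈ hO.toFinset, |gL T τ.E φ s ω x| * (nU ω (τ.E ω) (φ ω) x : ℝ) ≤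
          128 * C0 * (M * (4 * R + 8)) :=
        mul_le_mul hφm g2 (Finset.sum_nonneg fun x _ => mul_nonneg (abs_nonneg _)
          (Nat.cast_nonneg _)) (by positivity)
      have g4 : 0 ≤ 128 * C0 * e := by positivity
      have g5 : 0 ≤ 128 * C0 * gB := by positivity
      linarith
    · rw [if_neg hbad, mul_zero, add_zero]
      have h2 := hB hQ hbad hφ hcut hu hO
      have h3 : (∑ y ∈ hO.toFinset, |φ ω y|) * (gB + e) ≤ 128 * C0 * (gB + e) :=
        mul_le_mul_of_nonneg_right hφm (by positivity)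
      linarith

end Vale.Agent.P155.NT905
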